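import Crest.Agent.R103.Flow

/-! Row 103: the anisotropic discrete distance to the vertices. -/

set_option autoImplicit false
set_option linter.unusedVariables false

noncomputable section

open MeasureTheory Set Filter Topology
open scoped ComplexConjugate InnerProductSpace

namespace Crest.Agent.R103

namespace Tri

variable (Δ : Tri)

def term (ε L : ℝ) (m : M) (k : ℤ) : ℝ :=
  max (Δ.d (Δ.φ (k * ε) m).1) 0 / (400 * ε) + |(k : ℝ)| / L
/-- Anisotropic distance: unit `400 ε` across the flow, `L` steps of length `ε` along it. -/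
def aD (ε L : ℝ) (m : M) : ℝ := ⨅ k : ℤ, Δ.term ε L m k

variable {ε L : ℝ}

lemma term_nonneg (hε : 0 < ε) (hL : 0 < L) (m : M) (k : ℤ) : 0 ≤ Δ.term ε L m k := by
  unfold term
  have := le_max_right (Δ.d (Δ.φ (k * ε) m).1) 0
  positivity
lemma aDist_bdd (hε : 0 < ε) (hL : 0 < L) (m : M) : BddBelow (range (Δ.term ε L m)) :=
  ⟨0, by rintro _ ⟨k, rfl⟩; exact Δ.term_nonneg hε hL m k⟩
lemma aD_le (hε : 0 < ε) (hL : 0 < L) (m : M) (k : ℤ) : Δ.aD ε L m ≤ Δ.term ε L m k :=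
  ciInf_le (Δ.aDist_bdd hε hL m) k
lemma measurable_aD (ε L : ℝ) : Measurable (Δ.aD ε L) := by
  refine Measurable.iInf fun k => ?_
  have h : Measurable fun m : M => Δ.d (Δ.φ (k * ε) m).1 :=
    Δ.continuous_d.measurable.comp (measurable_fst.comp (Δ.measurable_φ' _))
  exact ((h.max measurable_const).div_const _).add_const _
lemma aD_le_one (hε : 0 < ε) (hL : 0 < L) {m : M} (h : Δ.d m.1 ≤ 400 * ε) : Δ.aD ε L m ≤ 1 := by
  refine (Δ.aD_le hε hL m 0).trans ?_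
  simp only [term, Int.cast_zero, zero_mul, φ_zero, abs_zero, zero_div, add_zero]
  rw [div_le_one (by positivity)]
  exact max_le h (by positivity)
lemma aDist_term_φ (hε : 0 < ε) (hL : 0 < L) (m : M) (k : ℤ) :
    |Δ.term ε L (Δ.φ ε m) k - Δ.term ε L m (k + 1)| ≤ 1 / L := by
  have e : Δ.φ (k * ε) (Δ.φ ε m) = Δ.φ (((k + 1 : ℤ) : ℝ) * ε) m := by
    rw [← φ_add]
    congr 1
    push_cast
    ring
  simp only [term]
  rw [e, add_sub_add_left_eq_sub, ← sub_div, abs_div, abs_of_pos hL]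
  gcongr
  refine (abs_abs_sub_abs_le_abs_sub _ _).trans ?_
  simp
/-- `term (φ ε m) k` and `term m (k+1)` differ by at most `1/L` (`φ_add`). -/
lemma aD_φ (hε : 0 < ε) (hL : 0 < L) (m : M) : |Δ.aD ε L (Δ.φ ε m) - Δ.aD ε L m| ≤ 1 / L := by
  rw [abs_le]
  constructor
  · have : Δ.aD ε L m - 1 / L ≤ Δ.aD ε L (Δ.φ ε m) := by
      refine le_ciInf fun k => ?_
      have h1 := Δ.aD_le hε hL m (k + 1)
      have h2 := (abs_le.1 (Δ.aDist_term_φ hε hL m k)).1
      linarith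
    linarith
  · have : Δ.aD ε L (Δ.φ ε m) - 1 / L ≤ Δ.aD ε L m := by
      refine le_ciInf fun k => ?_
      have h1 := Δ.aD_le hε hL (Δ.φ ε m) (k - 1)
      have h2 := (abs_le.1 (Δ.aDist_term_φ hε hL m (k - 1))).2
      rw [sub_add_cancel] at h2
      linarith
    linarith
/-- If `aD m < r` then for some `|k| < r L`, `d (φ (kε) m) < 400 r ε`.  With `b = ⌈400 r⌉₊`,
`k = l b + i`, `0 ≤ i < b`: `d (φ (l b ε) m) ≤ 400 r ε + 2 b ε ≤ 2000 r ε` (`d_φ`, `φ_add`), and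
`|l| ≤ L/400 + 1`.  Union bound over at most `5 L/400` values of `l` with `mp_φ`, `μ_d_le`. -/
theorem μ_aD_lt : ∃ C : ℝ, 0 < C ∧ ∀ ε L r : ℝ, 0 < ε → 400 ≤ L → 1 ≤ r →
    Δ.μ {m | Δ.aD ε L m < r} ≤ ENNReal.ofReal (C * L * ε ^ 2 * r ^ 2) := by
  obtain ⟨C, hC, hμ⟩ := Δ.μ_d_le
  refine ⟨3 * 404 ^ 2 * C, by positivity, fun ε L r hε hL hr => ?_⟩
  have hL0 : 0 < L := by linarith
  have hr0 : 0 < r := by linarith
  obtain ⟨b, hb1, hb2⟩ : ∃ b : ℤ, r ≤ b ∧ (b : ℝ) ≤ 2 * r :=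
    ⟨⌈r⌉, Int.le_ceil r, by linarith [Int.ceil_lt_add_one r]⟩
  have hb0 : (0 : ℝ) < b := by linarith
  have hb0' : 0 < b := by exact_mod_cast hb0
  obtain ⟨N, hN1, hN2⟩ : ∃ N : ℕ, L + 1 ≤ N ∧ (N : ℝ) ≤ L + 2 :=
    ⟨⌈L + 1⌉₊, Nat.le_ceil _, by linarith [Nat.ceil_lt_add_one (show 0 ≤ L + 1 by linarith)]⟩
  have hsub : {m | Δ.aD ε L m < r} ⊆ ⋃ l ∈ Finset.Icc (-(N : ℤ)) N,
      Δ.φ (((l * b : ℤ) : ℝ) * ε) ⁻¹' {m | Δ.d m.1 ≤ 404 * r * ε} := by
    intro m hm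
    obtain ⟨k, hk⟩ := exists_lt_of_ciInf_lt (show ⨅ k : ℤ, Δ.term ε L m k < r from hm)
    have h1 : 0 ≤ max (Δ.d (Δ.φ (k * ε) m).1) 0 / (400 * ε) := by
      have := le_max_right (Δ.d (Δ.φ (k * ε) m).1) 0
      positivity
    have h2 : 0 ≤ |(k : ℝ)| / L := by positivity
    have h3 : |(k : ℝ)| < r * L := by
      rw [← div_lt_iff₀ hL0]
      simp only [term] at hk
      linarith
    have h4 : Δ.d (Δ.φ (k * ε) m).1 < r * (400 * ε) := by
      refine (le_max_left _ 0).trans_lt ?_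
      rw [← div_lt_iff₀ (by positivity)]
      simp only [term] at hk
      linarith
    have e1 : ((k / b : ℤ) : ℝ) * b + ((k % b : ℤ) : ℝ) = k := by
      exact_mod_cast Int.ediv_mul_add_emod k b
    have i0 : (0 : ℝ) ≤ ((k % b : ℤ) : ℝ) := by exact_mod_cast Int.emod_nonneg k hb0'.ne'
    have i1 : ((k % b : ℤ) : ℝ) < b := by exact_mod_cast Int.emod_lt_of_pos k hb0'
    generalize k / b = l at e1
    generalize k % b = i at e1 i0 i1
    have h5 := abs_lt.1 h3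
    have h6 : r * L ≤ b * L := by gcongr
    have hl1 : (l : ℝ) ≤ N := by
      have : (l : ℝ) * b ≤ L * b := by nlinarith
      have := le_of_mul_le_mul_right this hb0
      linarith
    have hl2 : -(N : ℝ) ≤ l := by
      have : -(L + 1) * b ≤ (l : ℝ) * b := by nlinarith
      have := le_of_mul_le_mul_right this hb0
      linarith
    refine mem_iUnion₂.2 ⟨l, Finset.mem_Icc.2 ⟨by exact_mod_cast hl2, by exact_mod_cast hl1⟩, ?_⟩
    have e2 : Δ.φ (k * ε) m = Δ.φ (i * ε) (Δ.φ (((l * b : ℤ) : ℝ) * ε) m) := by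
      rw [← φ_add]
      congr 1
      push_cast
      rw [← e1]
      ring
    have h7 := (abs_le.1 (Δ.d_φ (Δ.φ (((l * b : ℤ) : ℝ) * ε) m) (i * ε))).1
    rw [← e2, abs_of_nonneg (by positivity)] at h7
    have h8 : (i : ℝ) * ε ≤ 2 * r * ε := by gcongr; linarith
    show Δ.d (Δ.φ (((l * b : ℤ) : ℝ) * ε) m).1 ≤ 404 * r * ε
    linarith
  have hms : MeasurableSet {m : M | Δ.d m.1 ≤ 404 * r * ε} :=
    measurableSet_le (Δ.continuous_d.measurable.comp measurable_fst) measurable_const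
  refine (measure_mono hsub).trans ((measure_biUnion_finset_le _ _).trans ?_)
  refine (Finset.sum_le_card_nsmul _ _ (ENNReal.ofReal (C * (404 * r * ε) ^ 2))
    fun l _ => ?_).trans ?_
  · rw [(Δ.mp_φ _).measure_preimage hms.nullMeasurableSet]
    exact hμ _ (by positivity)
  · have hc : (Finset.Icc (-(N : ℤ)) N).card = 2 * N + 1 := by
      rw [Int.card_Icc]
      omega
    rw [hc, nsmul_eq_mul, ← ENNReal.ofReal_natCast, ← ENNReal.ofReal_mul (Nat.cast_nonneg _)]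
    refine ENNReal.ofReal_le_ofReal ?_
    have h9 : ((2 * N + 1 : ℕ) : ℝ) ≤ 3 * L := by push_cast; linarith
    calc ((2 * N + 1 : ℕ) : ℝ) * (C * (404 * r * ε) ^ 2) ≤ 3 * L * (C * (404 * r * ε) ^ 2) := by
          gcongr
      _ = _ := by ring

end Tri

end Crest.Agent.R103
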