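import Crest.Agent.R103.ADist

/-! Row 103: the anisotropic distance is Lipschitz across the flow. -/

set_option autoImplicit false
set_option linter.unusedVariables false

noncomputable section

open MeasureTheory Set Filter Topology
open scoped ComplexConjugate InnerProductSpace

namespace Crest.Agent.R103

namespace Tri

variable (Δ : Tri)

/-- Parallel orbits.  Induction on `k`: with `n = φ (k a) m`, both `φ a (τ w n) = τ a (τ w n)` and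
`τ w (φ a n) = τ w (τ a n)` equal `τ (a + w) n` (`φ_eq_τ`, `d_τ`, `τ_τ`, `ND_of_NT`). -/
lemma φ_τ_comm {a : ℝ} {w : ℂ} {r : ℝ} (ha : |a| ≤ r) (hw : ‖w‖ ≤ r) {m : M} (hm : m ∈ Δ.Ω)
    (hm' : Δ.τ w m ∈ Δ.Ω) (k : ℕ) (hNT : ∀ l : ℕ, Δ.NT (Δ.φ (l * a) m))
    (hd : ∀ l < k, 100 * r < Δ.d (Δ.φ (l * a) m).1) :
    Δ.φ (k * a) (Δ.τ w m) = Δ.τ w (Δ.φ (k * a) m) := by
  induction k with
  | zero => simp [Δ.φ_zero]
  | succ k ih =>
    have ih' := ih fun l hl => hd l (by omega)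
    have h1 := hd k (by omega)
    have hr : 0 ≤ r := (abs_nonneg a).trans ha
    have e : ((k + 1 : ℕ) : ℝ) * a = a + k * a := by push_cast; ring
    set n := Δ.φ (k * a) m with hn
    have hnΩ : n ∈ Δ.Ω := Δ.φ_mem hm _
    have hcl : Δ.Cl n.1 := Δ.Cl_of_Sig (Δ.Sig_of_Ω hnΩ)
    have hτΩ : Δ.τ w n ∈ Δ.Ω := ih' ▸ Δ.φ_mem hm' _
    have h2 := abs_le.1 (Δ.d_τ hcl w)
    have hna : ‖(a : ℂ)‖ = |a| := by rw [Complex.norm_real, Real.norm_eq_abs]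
    rw [e, Δ.φ_add, Δ.φ_add, ih', ← hn, Δ.φ_eq_τ hτΩ (by linarith), Δ.φ_eq_τ hnΩ (by linarith),
      Δ.τ_τ hcl (by rw [hna]; linarith) (Δ.ND_of_NT (hNT k) _),
      Δ.τ_τ hcl (by rw [hna]; linarith) (Δ.ND_of_NT (hNT k) _), add_comm]

lemma adistY_nat {ε L a : ℝ} (hε : 0 < ε) (hL : 0 < L) (ha : |a| = ε) {w : ℂ} (hw : ‖w‖ = ε)
    {m : M} (hm : m ∈ Δ.Ω) (hm' : Δ.τ w m ∈ Δ.Ω) (hNT : ∀ l : ℕ, Δ.NT (Δ.φ (l * a) m))
    {ι : ℕ → ℤ} (h1 : ∀ l : ℕ, (ι l : ℝ) * ε = l * a) (h2 : ∀ l : ℕ, |(ι l : ℝ)| = l) (k : ℕ) :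
    Δ.aD ε L m ≤ 1 / 2 + Δ.term ε L (Δ.τ w m) (ι k) ∧
      Δ.aD ε L (Δ.τ w m) ≤ 1 / 2 + Δ.term ε L m (ι k) := by
  classical
  have key : ∀ l : ℕ, (∀ i < l, 100 * ε < Δ.d (Δ.φ (i * a) m).1) →
      |max (Δ.d (Δ.φ (l * a) (Δ.τ w m)).1) 0 - max (Δ.d (Δ.φ (l * a) m).1) 0| ≤ 2 * ε := by
    intro l hl
    rw [Δ.φ_τ_comm ha.le hw.le hm hm' l hNT hl]
    refine (abs_max_sub_max_le_abs _ _ _).trans ?_
    have := Δ.d_τ (Δ.Cl_of_Sig (Δ.Sig_of_Ω (Δ.φ_mem hm (l * a)))) w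
    rwa [hw] at this
  have hterm : ∀ (x : M) (l : ℕ), Δ.term ε L x (ι l) =
      max (Δ.d (Δ.φ (l * a) x).1) 0 / (400 * ε) + l / L := fun x l => by
    rw [term, h1, h2]
  have hdiv : ∀ x y c : ℝ, x ≤ y + c * ε → x / (400 * ε) ≤ y / (400 * ε) + c / 400 := by
    intro x y c h
    have : y / (400 * ε) + c / 400 = (y + c * ε) / (400 * ε) := by field_simp
    rw [this]
    gcongr
  by_cases hk : ∀ i < k, 100 * ε < Δ.d (Δ.φ (i * a) m).1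
  · have h3 := abs_le.1 (key k hk)
    have h4 := Δ.aD_le hε hL m (ι k)
    have h5 := Δ.aD_le hε hL (Δ.τ w m) (ι k)
    rw [hterm] at h4 h5
    rw [hterm, hterm]
    have h6 := hdiv (max (Δ.d (Δ.φ (k * a) m).1) 0) (max (Δ.d (Δ.φ (k * a) (Δ.τ w m)).1) 0) 2
      (by linarith)
    have h7 := hdiv (max (Δ.d (Δ.φ (k * a) (Δ.τ w m)).1) 0) (max (Δ.d (Δ.φ (k * a) m).1) 0) 2
      (by linarith)
    constructor <;> linarith
  · push Not at hk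
    have hex : ∃ i : ℕ, Δ.d (Δ.φ (i * a) m).1 ≤ 100 * ε := hk.imp fun _ h => h.2
    set l := Nat.find hex with hl
    have hl1 : Δ.d (Δ.φ (l * a) m).1 ≤ 100 * ε := Nat.find_spec hex
    have hl2 : l ≤ k := by
      obtain ⟨i, hi, hi'⟩ := hk
      exact (Nat.find_min' hex hi').trans hi.le
    have h3 := abs_le.1 (key l fun i hi => not_le.1 (Nat.find_min hex hi))
    have h4 := Δ.aD_le hε hL m (ι l)
    have h5 := Δ.aD_le hε hL (Δ.τ w m) (ι l)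
    rw [hterm] at h4 h5
    rw [hterm, hterm]
    have h8 : max (Δ.d (Δ.φ (l * a) m).1) 0 ≤ 100 * ε := max_le hl1 (by positivity)
    have h6 := hdiv (max (Δ.d (Δ.φ (l * a) m).1) 0) 0 100 (by linarith)
    have h7 := hdiv (max (Δ.d (Δ.φ (l * a) (Δ.τ w m)).1) 0) 0 102 (by linarith)
    have h9 : (l : ℝ) / L ≤ k / L := by gcongr
    have h10 : 0 ≤ max (Δ.d (Δ.φ (k * a) m).1) 0 / (400 * ε) :=
      div_nonneg (le_max_right _ _) (by positivity)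
    have h11 : 0 ≤ max (Δ.d (Δ.φ (k * a) (Δ.τ w m)).1) 0 / (400 * ε) :=
      div_nonneg (le_max_right _ _) (by positivity)
    rw [zero_div] at h6 h7
    constructor <;> linarith

/-- For a.e. `m` with `100 ε < d`: `m ∈ Ω`, `m' = τ (iε) m ∈ Ω` (`subMP_τ`, `SubMP.ae`) and all
`φ (kε) m` are `NT` (`mp_φ`).  Fix `k` (`a = ±ε` according to its sign).  If all the earlier
`φ (l a) m`, `l < |k|`, have `d > 100 ε`, then `|term m' k - term m k| ≤ 2/400`.  Otherwise take the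
first `l < |k|` with `d ≤ 100 ε`: `term m (±l) ≤ 100/400 + l/L ≤ 100/400 + term m' k` and
`term m' (±l) ≤ 102/400 + l/L ≤ 102/400 + term m k`. -/
theorem aD_τ {ε L : ℝ} (hε : 0 < ε) (hL : 0 < L) : ∀ᵐ m ∂Δ.μ, 100 * ε < Δ.d m.1 →
    |Δ.aD ε L (Δ.τ (ε * Complex.I) m) - Δ.aD ε L m| ≤ 1 / 2 := by
  set w : ℂ := ε * Complex.I with hw
  have hn : ‖w‖ = ε := by
    rw [hw, norm_mul, Complex.norm_I, mul_one, Complex.norm_real, Real.norm_eq_abs, abs_of_pos hε]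
  have hNT : ∀ a : ℝ, ∀ᵐ m ∂Δ.μ, ∀ l : ℕ, Δ.NT (Δ.φ (l * a) m) := fun a =>
    ae_all_iff.2 fun l => (Δ.mp_φ _).quasiMeasurePreserving.ae Δ.ae_NT
  filter_upwards [Δ.ae_mem_Ω, (Δ.subMP_τ w).ae Δ.ae_mem_Ω, hNT ε, hNT (-ε)] with m hm hm' h1 h2 hd
  have hm'' : Δ.τ w m ∈ Δ.Ω := hm' (by
    change 16 * ‖w‖ < Δ.d m.1
    rw [hn]; linarith)
  have key : ∀ k : ℤ, Δ.aD ε L m ≤ 1 / 2 + Δ.term ε L (Δ.τ w m) k ∧
      Δ.aD ε L (Δ.τ w m) ≤ 1 / 2 + Δ.term ε L m k := by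
    intro k
    obtain ⟨l, rfl | rfl⟩ := Int.eq_nat_or_neg k
    · exact Δ.adistY_nat hε hL (abs_of_pos hε) hn hm hm'' h1 (ι := fun l => (l : ℤ))
        (fun l => by simp) (fun l => by simp) l
    · exact Δ.adistY_nat hε hL (by rw [abs_neg, abs_of_pos hε]) hn hm hm'' h2
        (ι := fun l => -(l : ℤ)) (fun l => by simp) (fun l => by simp) l
  have h3 : Δ.aD ε L m - 1 / 2 ≤ Δ.aD ε L (Δ.τ w m) :=
    le_ciInf fun k => by linarith [(key k).1]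
  have h4 : Δ.aD ε L (Δ.τ w m) - 1 / 2 ≤ Δ.aD ε L m :=
    le_ciInf fun k => by linarith [(key k).2]
  exact abs_le.2 ⟨by linarith, by linarith⟩

end Tri

end Crest.Agent.R103
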