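import Mathlib

/-! Row 103: the abstract Hilbert space framework.  Definitions. -/

set_option autoImplicit false
set_option linter.unusedVariables false

noncomputable section

open MeasureTheory Set Filter Topology
open scoped ComplexConjugate InnerProductSpace

namespace Crest.Agent.R103

/-- A strongly continuous unitary representation of the circle `ℝ / 2π`. -/
structure CircRep (H : Type*) [NormedAddCommGroup H] [InnerProductSpace ℂ H] where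
  R : ℝ → H →L[ℂ] H
  R_zero : ∀ p, R 0 p = p
  R_add : ∀ ψ ψ' p, R (ψ + ψ') p = R ψ (R ψ' p)
  R_two_pi : ∀ p, R (2 * Real.pi) p = p
  R_adj : ∀ ψ p q, ⟪R ψ p, q⟫_ℂ = ⟪p, R (-ψ) q⟫_ℂ
  R_cont : ∀ p, Continuous fun ψ => R ψ p

/-- Local translations `K`, rotations `R` and an auxiliary unitary group `S`.  `V σ` is the space
of vectors supported at distance `≥ σ` from the singularities. -/
structure Rep (H : Type*) [NormedAddCommGroup H] [InnerProductSpace ℂ H] extends CircRep H where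
  K : ℂ → H →L[ℂ] H
  S : ℝ → H →L[ℂ] H
  V : ℝ → Submodule ℂ H
  V_anti : ∀ {σ σ' : ℝ}, σ ≤ σ' → V σ' ≤ V σ
  V_closed : ∀ σ, IsClosed (V σ : Set H)
  K_norm : ∀ w p, ‖K w p‖ ≤ ‖p‖
  K_zero : ∀ p, K 0 p = p
  K_cont : ∀ p, Tendsto (fun w => K w p) (𝓝 0) (𝓝 p)
  K_mem : ∀ {σ : ℝ} (w : ℂ) {p : H}, p ∈ V σ → K w p ∈ V (σ - 2 * ‖w‖)
  K_add : ∀ {σ : ℝ} {w w' : ℂ} {p : H}, p ∈ V σ → 20 * (‖w‖ + ‖w'‖) ≤ σ →
    K w' (K w p) = K (w + w') p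
  K_adj : ∀ {σ : ℝ} {w : ℂ} (p : H) {q : H}, q ∈ V σ → 20 * ‖w‖ ≤ σ →
    ⟪K w p, q⟫_ℂ = ⟪p, K (-w) q⟫_ℂ
  R_mem : ∀ {σ : ℝ} (ψ : ℝ) {p : H}, p ∈ V σ → R ψ p ∈ V σ
  K_R : ∀ (w : ℂ) (ψ : ℝ) (p : H),
    K w (R ψ p) = R ψ (K (Complex.exp (-(ψ * Complex.I)) * w) p)
  S_zero : ∀ p, S 0 p = p
  S_add : ∀ s t p, S (s + t) p = S s (S t p)
  S_adj : ∀ s p q, ⟪S s p, q⟫_ℂ = ⟪p, S (-s) q⟫_ℂ
  S_cont : ∀ p, Continuous fun s => S s p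
  S_mem : ∀ {σ : ℝ} (s : ℝ) {p : H}, p ∈ V σ → S s p ∈ V σ
  K_S : ∀ w s p, K w (S s p) = S s (K w p)
  R_S : ∀ ψ s p, R ψ (S s p) = S s (R ψ p)

variable {H : Type*} [NormedAddCommGroup H] [InnerProductSpace ℂ H]

/-- The projection on the mode `n`. -/
def CircRep.P (ρ : CircRep H) (n : ℤ) (p : H) : H :=
  ((2 * Real.pi : ℝ) : ℂ)⁻¹ • ∫ ψ in (0 : ℝ)..2 * Real.pi, Complex.exp (-(n * ψ * Complex.I)) • ρ.R ψ p

/-- `u` is differentiable along the local translations, with partial derivatives `x`, `y`. -/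
def Rep.Diff (ρ : Rep H) (u x y : H) : Prop :=
  (fun w : ℂ => ρ.K w u - u - ((w.re : ℂ) • x + (w.im : ℂ) • y)) =o[𝓝 0] fun w : ℂ => w

/-- Box average (not normalised), twisted by `S (θ a)`. -/
def Rep.box (ρ : Rep H) (θ ε₁ ε₂ : ℝ) (f : H) : H :=
  ∫ a in (0 : ℝ)..ε₁, ∫ b in (0 : ℝ)..ε₂, ρ.K (a + b * Complex.I) (ρ.S (θ * a) f)

/-- The approximation hypothesis of the abstract theorem. -/
def Rep.Approx (ρ : Rep H) (F G : H) : Prop :=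
  ∀ η : ℝ, 0 < η → ∃ ε σ : ℝ, ∃ f g : H, 0 < ε ∧ ε ≤ η ∧ 200 * ε < σ ∧ f ∈ ρ.V σ ∧ g ∈ ρ.V σ ∧
    HasDerivAt (fun s : ℝ => ρ.S s f) g 0 ∧ ‖f - F‖ ≤ η ∧ ‖g - G‖ ≤ η ∧
    ‖ρ.K ε (ρ.S ε f) - f‖ ≤ η * ε ∧
    ‖ρ.K ε (ρ.S ε f) - f‖ * ‖ρ.K (ε * Complex.I) f - f‖ ≤ η * ε ^ 2

end Crest.Agent.R103
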