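import Crest.Agent.R103.Modes

/-! Row 103: the mode-wise Pestov inequality. -/

set_option autoImplicit false
set_option linter.unusedVariables false

noncomputable section

open MeasureTheory Set Filter Topology
open scoped ComplexConjugate InnerProductSpace

namespace Crest.Agent.R103

variable {H : Type*} [NormedAddCommGroup H] [InnerProductSpace ℂ H] [CompleteSpace H]

/-- Telescoping from `-∞`: `E N = a (N+1) + a N - c N` has increments `b N` and tends to `0`. -/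
lemma telescope {a b c : ℤ → ℝ} {β : ℝ} (h : ∀ n, a (n + 1) - a (n - 1) = b n + c n - c (n - 1))
    (ha : Tendsto a atBot (𝓝 0)) (hc : Tendsto c atBot (𝓝 0))
    (hb : ∀ s : Finset ℤ, ∑ n ∈ s, |b n| ≤ β) (N : ℤ) : a (N + 1) + a N - c N ≤ β := by
  have key : ∀ k : ℕ, a (N + 1) + a N - c N =
      a (N - k + 1) + a (N - k) - c (N - k) + ∑ j ∈ Finset.range k, b (N - j) := by
    intro k
    induction k with
    | zero => simp
    | succ k ih =>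
      rw [Finset.sum_range_succ, ih]
      have h1 := h (N - k)
      have e1 : N - ((k + 1 : ℕ) : ℤ) + 1 = N - k := by push_cast; ring
      have e2 : N - ((k + 1 : ℕ) : ℤ) = N - k - 1 := by push_cast; ring
      rw [e1, e2]
      linarith
  have hs : ∀ k : ℕ, ∑ j ∈ Finset.range k, b (N - j) ≤ β := by
    intro k
    refine le_trans ?_ (hb ((Finset.range k).image fun j : ℕ => N - j))
    rw [Finset.sum_image fun i _ j _ hij => by simpa using hij]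
    exact Finset.sum_le_sum fun j _ => le_abs_self _
  have t0 : Tendsto (fun k : ℕ => N - (k : ℤ)) atTop atBot :=
    tendsto_atBot_add_const_left _ _ (tendsto_neg_atTop_atBot.comp tendsto_natCast_atTop_atTop)
  have t1 : Tendsto (fun k : ℕ => N - (k : ℤ) + 1) atTop atBot :=
    tendsto_atBot_add_const_right _ _ t0
  have t2 : Tendsto (fun k : ℕ => a (N - k + 1) + a (N - k) - c (N - k) + β) atTop
      (𝓝 (0 + 0 - 0 + β)) := (((ha.comp t1).add (ha.comp t0)).sub (hc.comp t0)).add_const β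
  have := ge_of_tendsto' t2 fun k => (key k).trans_le (by linarith [hs k])
  linarith

lemma pestov_shift {a : ℤ → ℝ} (ha : ∀ n, 0 ≤ a n) (M : ℕ) {j : ℤ} (hj : |j| ≤ 1) :
    ∑ n ∈ Finset.Ioo (-(M : ℤ)) M, a (n + j) ≤ ∑ n ∈ Finset.Icc (-(M : ℤ)) M, a n := by
  rw [← Finset.sum_image (s := Finset.Ioo (-(M : ℤ)) M) (g := fun n => n + j) (f := a)
    fun i _ k _ h => by simpa using h]
  refine Finset.sum_le_sum_of_subset_of_nonneg (fun x hx => ?_) fun _ _ _ => ha _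
  obtain ⟨n, hn, rfl⟩ := Finset.mem_image.1 hx
  rw [Finset.mem_Ioo] at hn
  rw [Finset.mem_Icc]
  have := abs_le.1 hj
  omega

namespace CircRep

variable (ρ : CircRep H)

lemma pestov_cs (s : Finset ℤ) (p q : H) : ∑ n ∈ s, ‖ρ.P n p‖ * ‖ρ.P n q‖ ≤ ‖p‖ * ‖q‖ := by
  refine abs_le_of_sq_le_sq' ?_ (by positivity) |>.2
  refine (Finset.sum_mul_sq_le_sq_mul_sq s _ _).trans ?_
  rw [mul_pow]
  exact mul_le_mul (ρ.sum_norm_P_le s p) (ρ.sum_norm_P_le s q)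
    (Finset.sum_nonneg fun _ _ => sq_nonneg _) (sq_nonneg _)

lemma pestov_tendsto (p : H) : Tendsto (fun n : ℤ => ‖ρ.P n p‖) atBot (𝓝 0) := by
  have h1 := (ρ.hasSum_norm_P p).summable.tendsto_cofinite_zero
  have h2 := (h1.mono_left atBot_le_cofinite).sqrt
  simpa using h2

/-- Put `a m = ‖P (m+1) p‖² = ‖P (m-1) q‖²`, `c m = -re ⟪g, P m q⟫ = -re ⟪g, P (m+1) p⟫`,
`s = p + q + g`, `b n = re ⟪P n s, P n (q - p)⟫`.  With `A = P n p`, `B = P n q`: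
`a (n+1) - a (n-1) = ‖B‖² - ‖A‖² = re ⟪A + B, B - A⟫ = b n + c n - c (n-1)`, and
`∑ |b n| ≤ ‖s‖ ‖q - p‖ =: β` (Cauchy-Schwarz, Bessel).  By `telescope` at `N` and `N - 1`,
`a (N+1) + 2 a N + a (N-1) ≤ c N + c (N-1) + 2β`, and
`c N + c (N-1) = ‖P N g‖² - re ⟪P N g, P N s⟫`.  Let `e N = a (N+1) + a (N-1)
= (‖P N s - P N g‖² + ‖P N (q - p)‖²)/2` (parallelogram).  Sum over `|N| ≤ M` and use
`∑_{|N| < M} e N ≤ 2 ∑_{|N| ≤ M} a N`, `‖P N s - P N g‖² ≥ ‖P N g‖² - 2‖P N g‖ ‖P N s‖`. -/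
theorem pestov {p q g : H} (h1 : ∀ m : ℤ, ‖ρ.P (m + 1) p‖ = ‖ρ.P (m - 1) q‖)
    (h2 : ∀ m : ℤ, ⟪g, ρ.P (m + 1) p⟫_ℂ = ⟪ρ.P m q, g⟫_ℂ) (M : ℕ) :
    ∑ n ∈ Finset.Ioo (-(M : ℤ)) M, ‖ρ.P n (q - p)‖ ^ 2 ≤
      ‖g‖ ^ 2 - ∑ n ∈ Finset.Ioo (-(M : ℤ)) M, ‖ρ.P n g‖ ^ 2 + 3 * ‖g‖ * ‖p + q + g‖ +
        (4 * M + 2) * (‖p + q + g‖ * ‖q - p‖) := by
  set s : H := p + q + g with hs
  set β : ℝ := ‖s‖ * ‖q - p‖ with hβ
  set a : ℤ → ℝ := fun m => ‖ρ.P (m + 1) p‖ ^ 2 with ha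
  set c : ℤ → ℝ := fun m => -(⟪ρ.P m g, ρ.P m q⟫_ℂ).re with hc
  set b : ℤ → ℝ := fun n => (⟪ρ.P n s, ρ.P n (q - p)⟫_ℂ).re with hb
  have hA : ∀ n, a (n - 1) = ‖ρ.P n p‖ ^ 2 := fun n => by simp only [ha, sub_add_cancel]
  have hB : ∀ n, a (n + 1) = ‖ρ.P n q‖ ^ 2 := fun n => by
    simp only [ha]
    rw [h1, add_sub_cancel_right]
  have hc' : ∀ n, c (n - 1) = -(⟪ρ.P n g, ρ.P n p⟫_ℂ).re := fun n => by
    have h3 := h2 (n - 1)
    rw [sub_add_cancel] at h3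
    simp only [hc]
    rw [ρ.inner_P_P n g p, h3, ρ.inner_P_P, ← inner_conj_symm, Complex.conj_re]
  have hsn : ∀ n, ρ.P n s = ρ.P n p + ρ.P n q + ρ.P n g := fun n => by
    rw [hs, ρ.P_add, ρ.P_add]
  have hre : ∀ x y : H, (⟪x, y⟫_ℂ).re = (⟪y, x⟫_ℂ).re := fun x y => by
    rw [← inner_conj_symm, Complex.conj_re]
  have hself : ∀ x : H, (⟪x, x⟫_ℂ).re = ‖x‖ ^ 2 := fun x => inner_self_eq_norm_sq (𝕜 := ℂ) x
  have htel : ∀ n, a (n + 1) - a (n - 1) = b n + c n - c (n - 1) := fun n => by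
    rw [hA, hB, hc']
    simp only [hb, hc]
    rw [hsn, ρ.P_sub]
    simp only [inner_add_left, inner_sub_right, Complex.add_re, Complex.sub_re, hself]
    rw [hre (ρ.P n q) (ρ.P n p)]
    ring
  have hE : ∀ N, a (N + 1) + a N - c N ≤ β := by
    refine telescope htel ?_ ?_ fun t => ?_
    · have := ((ρ.pestov_tendsto p).comp (tendsto_atBot_add_const_right _ 1 tendsto_id)).pow 2
      simpa using this
    · refine squeeze_zero_norm (fun n => ?_) (by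
        simpa using (ρ.pestov_tendsto g).mul (ρ.pestov_tendsto q))
      simp only [hc, norm_neg]
      exact (Complex.abs_re_le_norm _).trans (norm_inner_le_norm _ _)
    · refine le_trans (Finset.sum_le_sum fun n _ => ?_) (ρ.pestov_cs t s (q - p))
      exact (Complex.abs_re_le_norm _).trans (norm_inner_le_norm _ _)
  have hloc : ∀ N, (a (N + 1) + a (N - 1)) + 2 * a N ≤
      ‖ρ.P N g‖ ^ 2 + ‖ρ.P N g‖ * ‖ρ.P N s‖ + 2 * β := fun N => by
    have e1 := hE N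
    have e2 := hE (N - 1)
    rw [sub_add_cancel, hc'] at e2
    have e3 : (⟪ρ.P N g, ρ.P N s⟫_ℂ).re = (⟪ρ.P N g, ρ.P N p⟫_ℂ).re +
        (⟪ρ.P N g, ρ.P N q⟫_ℂ).re + ‖ρ.P N g‖ ^ 2 := by
      rw [hsn]
      simp only [inner_add_right, Complex.add_re, hself]
    have e4 := (abs_le.1 ((Complex.abs_re_le_norm _).trans
      (norm_inner_le_norm (𝕜 := ℂ) (ρ.P N g) (ρ.P N s)))).1
    simp only [hc] at e1
    linarith
  have hpar : ∀ N, ‖ρ.P N (q - p)‖ ^ 2 + ‖ρ.P N g‖ ^ 2 - 2 * (‖ρ.P N g‖ * ‖ρ.P N s‖) ≤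
      2 * (a (N + 1) + a (N - 1)) := fun N => by
    rw [hA, hB, ρ.P_sub]
    have e1 := parallelogram_law_with_norm ℂ (ρ.P N q) (ρ.P N p)
    have e2 : ρ.P N q + ρ.P N p = ρ.P N s - ρ.P N g := by rw [hsn]; abel
    have e3 := abs_norm_sub_norm_le (ρ.P N s) (ρ.P N g)
    have e4 : (‖ρ.P N s‖ - ‖ρ.P N g‖) ^ 2 ≤ ‖ρ.P N s - ρ.P N g‖ ^ 2 := by
      rw [← sq_abs]
      exact pow_le_pow_left₀ (abs_nonneg _) e3 2
    rw [e2] at e1
    nlinarith [sq_nonneg ‖ρ.P N s‖]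
  have ha0 : ∀ n, 0 ≤ a n := fun n => sq_nonneg _
  set I := Finset.Ioo (-(M : ℤ)) M with hI
  set J := Finset.Icc (-(M : ℤ)) M with hJ
  have hIJ : I ⊆ J := Finset.Ioo_subset_Icc_self
  have hcard : (J.card : ℝ) = 2 * M + 1 := by
    have : J.card = 2 * M + 1 := by rw [hJ, Int.card_Icc]; omega
    rw [this]; push_cast; ring
  have s1 := Finset.sum_le_sum fun N (_ : N ∈ J) => hloc N
  have s2 := Finset.sum_le_sum fun N (_ : N ∈ I) => hpar N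
  have s3 : ∑ N ∈ I, (a (N + 1) + a (N - 1)) ≤ ∑ N ∈ J, (a (N + 1) + a (N - 1)) :=
    Finset.sum_le_sum_of_subset_of_nonneg hIJ fun _ _ _ => add_nonneg (ha0 _) (ha0 _)
  have s4 := pestov_shift ha0 M (j := 1) (by simp)
  have s5 := pestov_shift ha0 M (j := -1) (by simp)
  have s6 := ρ.sum_norm_P_le J g
  have s7 := ρ.pestov_cs J g s
  have s8 := ρ.pestov_cs I g s
  simp only [← sub_eq_add_neg] at s5
  simp only [Finset.sum_add_distrib, Finset.sum_sub_distrib, ← Finset.mul_sum, Finset.sum_const,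
    nsmul_eq_mul, hcard] at s1 s2 s3
  rw [← hI, ← hJ] at s4 s5
  nlinarith

/-- Fix `M > |n|`; by `pestov` the `limsup` of `‖P n (q k - p k)‖²` is at most the tail
`‖G‖² - ∑_{|n| < M} ‖P n G‖²`, which tends to `0` (`hasSum_norm_P`). -/
theorem tendsto_P {p q g : ℕ → H} {G : H}
    (h1 : ∀ k (m : ℤ), ‖ρ.P (m + 1) (p k)‖ = ‖ρ.P (m - 1) (q k)‖)
    (h2 : ∀ k (m : ℤ), ⟪g k, ρ.P (m + 1) (p k)⟫_ℂ = ⟪ρ.P m (q k), g k⟫_ℂ)
    (hg : Tendsto g atTop (𝓝 G)) (hs : Tendsto (fun k => p k + q k + g k) atTop (𝓝 0))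
    (hβ : Tendsto (fun k => ‖p k + q k + g k‖ * ‖q k - p k‖) atTop (𝓝 0)) (n : ℤ) :
    Tendsto (fun k => ρ.P n (q k - p k)) atTop (𝓝 0) := by
  have hP : ∀ m, Tendsto (fun k => ρ.P m (g k)) atTop (𝓝 (ρ.P m G)) := fun m => by
    rw [tendsto_iff_norm_sub_tendsto_zero] at hg ⊢
    refine squeeze_zero (fun _ => norm_nonneg _) (fun k => ?_) hg
    rw [← ρ.P_sub]
    exact ρ.norm_P_le _ _
  have htail : Tendsto (fun M : ℕ => ‖G‖ ^ 2 - ∑ m ∈ Finset.Ioo (-(M : ℤ)) M, ‖ρ.P m G‖ ^ 2)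
      atTop (𝓝 0) := by
    have t : Tendsto (fun M : ℕ => Finset.Ioo (-(M : ℤ)) M) atTop atTop := by
      refine tendsto_atTop_finset_of_monotone (fun i j hij => Finset.Ioo_subset_Ioo ?_ ?_)
        fun x => ⟨x.natAbs + 1, ?_⟩
      · omega
      · omega
      · rw [Finset.mem_Ioo]; omega
    have t' : Tendsto (fun s : Finset ℤ => ∑ m ∈ s, ‖ρ.P m G‖ ^ 2) atTop (𝓝 (‖G‖ ^ 2)) :=
      ρ.hasSum_norm_P G
    have := (t'.comp t).const_sub (‖G‖ ^ 2)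
    simpa using this
  rw [tendsto_zero_iff_norm_tendsto_zero]
  have : Tendsto (fun k => ‖ρ.P n (q k - p k)‖ ^ 2) atTop (𝓝 0) := by
    refine tendsto_order.2 ⟨fun e he => Eventually.of_forall fun k => he.trans_le (sq_nonneg _),
      fun e he => ?_⟩
    obtain ⟨M, hM1, hM2⟩ := ((htail.eventually (gt_mem_nhds he)).and
      (eventually_gt_atTop n.natAbs)).exists
    have t : Tendsto (fun k => ‖g k‖ ^ 2 - ∑ m ∈ Finset.Ioo (-(M : ℤ)) M, ‖ρ.P m (g k)‖ ^ 2 +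
        3 * ‖g k‖ * ‖p k + q k + g k‖ + (4 * M + 2) * (‖p k + q k + g k‖ * ‖q k - p k‖)) atTop
        (𝓝 (‖G‖ ^ 2 - ∑ m ∈ Finset.Ioo (-(M : ℤ)) M, ‖ρ.P m G‖ ^ 2 + 3 * ‖G‖ * ‖(0 : H)‖ +
          (4 * M + 2) * 0)) :=
      ((((hg.norm.pow 2).sub (tendsto_finsetSum _ fun m _ => (hP m).norm.pow 2))).add
        ((hg.norm.const_mul 3).mul hs.norm)).add (hβ.const_mul _)
    rw [norm_zero, mul_zero, mul_zero, add_zero, add_zero] at t
    filter_upwards [t.eventually (gt_mem_nhds hM1)] with k hk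
    refine lt_of_le_of_lt (le_trans ?_ (ρ.pestov (h1 k) (h2 k) M)) hk
    exact Finset.single_le_sum (f := fun m => ‖ρ.P m (q k - p k)‖ ^ 2) (fun _ _ => sq_nonneg _)
      (by rw [Finset.mem_Ioo]; omega)
  simpa using this.sqrt

end CircRep

end Crest.Agent.R103
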