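import Crest.Agent.R103.Box
import Crest.Agent.R103.Pestov

/-! Row 103: the abstract theorem. -/

set_option autoImplicit false
set_option linter.unusedVariables false

noncomputable section

open MeasureTheory Set Filter Topology
open scoped ComplexConjugate InnerProductSpace

namespace Crest.Agent.R103

variable {H : Type*} [NormedAddCommGroup H] [InnerProductSpace ℂ H] [CompleteSpace H]

namespace Rep

variable (ρ : Rep H)

lemma absMain_norm_int {ε : ℝ} (hε : 0 < ε) {φ : ℝ → H} {C : ℝ} (h : ∀ a, ‖φ a‖ ≤ C) :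
    ‖((ε ^ 2 : ℝ) : ℂ)⁻¹ • ∫ a in (0 : ℝ)..ε, φ a‖ ≤ C / ε := by
  have h1 : ‖∫ a in (0 : ℝ)..ε, φ a‖ ≤ C * |ε - 0| :=
    intervalIntegral.norm_integral_le_of_norm_le_const fun a _ => h a
  rw [sub_zero, abs_of_pos hε] at h1
  rw [norm_smul, norm_inv, Complex.norm_real, Real.norm_of_nonneg (by positivity)]
  calc (ε ^ 2)⁻¹ * ‖∫ a in (0 : ℝ)..ε, φ a‖ ≤ (ε ^ 2)⁻¹ * (C * ε) := by gcongr
    _ = C / ε := by field_simp

lemma absMain_step {F G : H} (h : ρ.Approx F G) {η : ℝ} (hη : 0 < η) :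
    ∃ (σ : ℝ) (u x y g : H), 0 < σ ∧ u ∈ ρ.V σ ∧ ρ.Diff u x y ∧
      HasDerivAt (fun s : ℝ => ρ.S s u) g 0 ∧ ‖u - F‖ ≤ η ∧ ‖g - G‖ ≤ η ∧ ‖x + g‖ ≤ η ∧
      ‖x + g‖ * ‖y‖ ≤ η := by
  obtain ⟨δ₁, hδ₁, h1⟩ := ρ.box_approx F hη
  obtain ⟨δ₂, hδ₂, h2⟩ := ρ.box_approx G hη
  obtain ⟨ε, σ, f, g, hε, hεδ, hσ, hf, hg, hd, hfF, hgG, ha, hb⟩ :=
    h (min η (min δ₁ δ₂)) (by positivity)
  have m0 : min η (min δ₁ δ₂) ≤ η := min_le_left _ _
  have m1 : min η (min δ₁ δ₂) ≤ δ₁ := (min_le_right _ _).trans (min_le_left _ _)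
  have m2 : min η (min δ₁ δ₂) ≤ δ₂ := (min_le_right _ _).trans (min_le_right _ _)
  have hs : 100 * (|ε| + |ε|) < σ := by rw [abs_of_pos hε]; linarith
  have hσ0 : 0 < σ / 2 := by linarith
  set c : ℂ := ((ε ^ 2 : ℝ) : ℂ)⁻¹ with hc
  have hu : c • ρ.box 1 ε ε f ∈ ρ.V (σ / 2) := Submodule.smul_mem _ _ (ρ.box_mem hf hs)
  have d1 : HasDerivAt (fun t : ℝ => ρ.K t (ρ.S t (c • ρ.box 1 ε ε f)))
      (c • ∫ b in (0 : ℝ)..ε, ρ.K (b * Complex.I) (ρ.K ε (ρ.S ε f) - f)) 0 := by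
    have := (ρ.box_deriv_re (θ := 1) hf hs).const_smul c
    simp only [one_mul] at this
    simpa only [map_smul] using! this
  have d2 : HasDerivAt (fun t : ℝ => ρ.K (t * Complex.I) (c • ρ.box 1 ε ε f))
      (c • ∫ a in (0 : ℝ)..ε, ρ.K a (ρ.S (1 * a) (ρ.K (ε * Complex.I) f - f))) 0 := by
    have := (ρ.box_deriv_im (θ := 1) hf hs).const_smul c
    simpa only [map_smul] using! this
  have d3 : HasDerivAt (fun t : ℝ => ρ.S t (c • ρ.box 1 ε ε f)) (c • ρ.box 1 ε ε g) 0 := by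
    have := (ρ.box_deriv_S (θ := 1) hf hg hs hd).const_smul c
    simpa only [map_smul] using! this
  have n1 : ‖c • ∫ b in (0 : ℝ)..ε, ρ.K (b * Complex.I) (ρ.K ε (ρ.S ε f) - f)‖ ≤
      ‖ρ.K ε (ρ.S ε f) - f‖ / ε := absMain_norm_int hε fun b => ρ.K_norm _ _
  have n2 : ‖c • ∫ a in (0 : ℝ)..ε, ρ.K a (ρ.S (1 * a) (ρ.K (ε * Complex.I) f - f))‖ ≤
      ‖ρ.K (ε * Complex.I) f - f‖ / ε :=
    absMain_norm_int hε fun a => (ρ.K_norm _ _).trans (ρ.norm_S _ _).le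
  refine ⟨σ / 2, _, _, _, _, hσ0, hu, ρ.diff_of_partial hσ0 hu (ρ.hasDerivAt_untwist d1 d3) d2, d3,
    h1 ε σ f hε (hεδ.trans m1) hσ hf (hfF.trans m1), h2 ε σ g hε (hεδ.trans m2) hσ hg (hgG.trans m2),
    ?_, ?_⟩
  · rw [sub_add_cancel]
    refine n1.trans ?_
    rw [div_le_iff₀ hε]
    exact ha.trans (by gcongr)
  · rw [sub_add_cancel]
    refine (mul_le_mul n1 n2 (norm_nonneg _) (by positivity)).trans ?_
    rw [div_mul_div_comm, div_le_iff₀ (by positivity), ← sq]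
    exact hb.trans (by gcongr)

lemma absMain_tendsto {E : Type*} [NormedAddCommGroup E] {u : ℕ → E} {F : E}
    (h : ∀ k : ℕ, ‖u k - F‖ ≤ 1 / ((k : ℝ) + 1)) : Tendsto u atTop (𝓝 F) := by
  rw [tendsto_iff_norm_sub_tendsto_zero]
  exact squeeze_zero (fun _ => norm_nonneg _) h tendsto_one_div_add_atTop_nhds_zero_nat

/-- For `η = 1/(k+1)` put `u = ε⁻² box 1 ε ε f`, `s = ε⁻² ∫ K (ib) (K ε S ε f - f)`,
`y = ε⁻² ∫ K a S a (K (iε) f - f)`, `g' = ε⁻² box 1 ε ε g`, `x = s - g'` (`hasDerivAt_untwist`,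
`diff_of_partial`).  Then `‖s‖ ≤ η`, `‖s‖ ‖y‖ ≤ η`, `u → F`, `g' → G` (`box_approx`).  With
`p = (x - i y)/2`, `q = (x + i y)/2`: `p + q + g' = s`, `q - p = i y`; `tendsto_P`. -/
theorem exists_seq {F G : H} (h : ρ.Approx F G) : ∃ u y : ℕ → H, Tendsto u atTop (𝓝 F) ∧
    (∀ k, HasDerivAt (fun b : ℝ => ρ.K (b * Complex.I) (u k)) (y k) 0) ∧
    ∀ n : ℤ, Tendsto (fun k => ρ.toCircRep.P n (y k)) atTop (𝓝 0) := by
  choose σ u x y g hσ hu hd hg h1 h2 h3 h4 using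
    fun k : ℕ => ρ.absMain_step h (Nat.one_div_pos_of_nat (α := ℝ) (n := k))
  refine ⟨u, y, absMain_tendsto h1, fun k => (hd k).hasDerivAt_im, fun n => ?_⟩
  have e1 : ∀ k, (2 : ℂ)⁻¹ • (x k - Complex.I • y k) + (2 : ℂ)⁻¹ • (x k + Complex.I • y k) + g k =
      x k + g k := fun k => by module
  have e2 : ∀ k, (2 : ℂ)⁻¹ • (x k + Complex.I • y k) - (2 : ℂ)⁻¹ • (x k - Complex.I • y k) =
      Complex.I • y k := fun k => by module
  have := ρ.toCircRep.tendsto_P (p := fun k => (2 : ℂ)⁻¹ • (x k - Complex.I • y k))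
    (q := fun k => (2 : ℂ)⁻¹ • (x k + Complex.I • y k)) (g := g) (G := G)
    (fun k m => ρ.modes_pq (hσ k) (hu k) (hd k) m)
    (fun k m => ρ.modes_g (hσ k) (hu k) (hd k) (hg k) m) (absMain_tendsto h2)
    (absMain_tendsto fun k => by simpa only [e1, sub_zero] using h3 k)
    (absMain_tendsto fun k => by
      rw [e1, e2, sub_zero, Real.norm_of_nonneg (by positivity), norm_smul, Complex.norm_I, one_mul]
      exact h4 k) n
  simp only [e2, CircRep.P_smul] at this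
  have h5 := this.const_smul (-Complex.I)
  simpa only [smul_smul, neg_mul, Complex.I_mul_I, neg_neg, one_smul, smul_zero] using h5

/-- For each `ψ`: `⟪y k, R ψ q⟫ = -⟪u k, R ψ (sin ψ x + cos ψ y)⟫` (`Diff.rot`,
`inner_skew_deriv`, `K_adj`).  Integrate against `e^{-inψ}`: the left side is `⟪P n (y k), q⟫ → 0`,
the right side converges (uniformly in `ψ`).  `fourier_unique` for
`ψ ↦ ⟪F, R ψ (sin ψ x + cos ψ y)⟫`. -/
theorem inner_deriv_eq_zero {F G : H} (h : ρ.Approx F G) {σ : ℝ} (hσ : 0 < σ) {q x y : H}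
    (hq : q ∈ ρ.V σ) (hd : ρ.Diff q x y) : ⟪F, y⟫_ℂ = 0 := by
  obtain ⟨u, z, hu, hz, hP⟩ := ρ.exists_seq h
  set w : ℝ → H := fun ψ => ρ.R ψ ((Real.sin ψ : ℂ) • x + (Real.cos ψ : ℂ) • y) with hw
  have hwc : Continuous w := by
    have : w = fun ψ => (Real.sin ψ : ℂ) • ρ.R ψ x + (Real.cos ψ : ℂ) • ρ.R ψ y := by
      funext ψ; simp only [hw, map_add, map_smul]
    rw [this]
    have h1 := ρ.R_cont x
    have h2 := ρ.R_cont y
    fun_prop
  have hwp : Function.Periodic w (2 * Real.pi) := fun ψ => by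
    simp only [hw, Real.sin_add_two_pi, Real.cos_add_two_pi]
    exact ρ.toCircRep.periodic_R _ ψ
  have key : ∀ k ψ, ⟪z k, ρ.R ψ q⟫_ℂ = -⟪u k, w ψ⟫_ℂ := fun k ψ =>
    inner_skew_deriv (B := fun b : ℝ => ρ.K (b * Complex.I)) (hz k) (hd.rot ψ).hasDerivAt_im
      ((ρ.deriv_adj_im hσ (ρ.R_mem ψ hq)).mono fun b hb => hb _)
  have hint : ∀ (n : ℤ) (v : H),
      ∫ ψ in (0 : ℝ)..2 * Real.pi, Complex.exp (-(n * ψ * Complex.I)) * ⟪v, w ψ⟫_ℂ =
        ⟪v, ∫ ψ in (0 : ℝ)..2 * Real.pi, Complex.exp (-(n * ψ * Complex.I)) • w ψ⟫_ℂ := by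
    intro n v
    have := (innerSL ℂ v).intervalIntegral_comp_comm
      (((modes_cont_exp n).smul hwc).intervalIntegrable (μ := volume) 0 (2 * Real.pi))
    simpa only [innerSL_apply_apply, Pi.smul_apply', inner_smul_right] using! this
  have h0 := fourier_unique (f := fun ψ => ⟪F, w ψ⟫_ℂ) (continuous_const.inner hwc)
    (fun ψ => by simp only [hwp ψ]) fun n => by
      rw [hint]
      set W := ∫ ψ in (0 : ℝ)..2 * Real.pi, Complex.exp (-(n * ψ * Complex.I)) • w ψ with hW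
      have e : ∀ k, ⟪u k, W⟫_ℂ = -((2 * Real.pi : ℝ) : ℂ) * ⟪ρ.toCircRep.P n (z k), q⟫_ℂ := by
        intro k
        have hne : ((2 * Real.pi : ℝ) : ℂ) ≠ 0 := by exact_mod_cast Real.two_pi_pos.ne'
        rw [ρ.toCircRep.P_adj, ρ.toCircRep.inner_P, hW, ← hint]
        simp only [key, mul_neg, intervalIntegral.integral_neg]
        rw [neg_mul, neg_neg, mul_inv_cancel_left₀ hne]
      have t1 : Tendsto (fun k => ⟪u k, W⟫_ℂ) atTop (𝓝 ⟪F, W⟫_ℂ) := hu.inner tendsto_const_nhds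
      have t2 : Tendsto (fun k => -((2 * Real.pi : ℝ) : ℂ) * ⟪ρ.toCircRep.P n (z k), q⟫_ℂ) atTop
          (𝓝 (-((2 * Real.pi : ℝ) : ℂ) * ⟪(0 : H), q⟫_ℂ)) :=
        ((hP n).inner tendsto_const_nhds).const_mul _
      rw [inner_zero_left, mul_zero] at t2
      simp only [e] at t1
      exact tendsto_nhds_unique t1 t2
  simpa [hw, ρ.R_zero] using h0

/-- Apply the previous lemma to `box 0 ε₁ b q`: `⟪F, ∫_0^{ε₁} K a z da⟫ = 0` for all small `ε₁`,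
`z = K (ib) q - q`; divide by `ε₁ → 0`. -/
theorem inner_K_im {F G : H} (h : ρ.Approx F G) {σ b : ℝ} {q : H} (hq : q ∈ ρ.V σ)
    (hb : 100 * |b| < σ) : ⟪F, ρ.K (b * Complex.I) q⟫_ℂ = ⟪F, q⟫_ℂ := by
  set z := ρ.K (b * Complex.I) q - q with hz
  have hb0 := abs_nonneg b
  have hσ : 0 < σ / 2 := by linarith
  have hzV : z ∈ ρ.V (σ / 2) := by
    refine Submodule.sub_mem _ (ρ.V_anti ?_ (ρ.K_mem _ hq)) (ρ.V_anti (by linarith) hq)
    rw [norm_mul, Complex.norm_I, mul_one, Complex.norm_real, Real.norm_eq_abs]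
    linarith
  have hev : ∀ᶠ ε in 𝓝 (0 : ℝ), 100 * (|ε| + |b|) < σ := by
    have : Continuous fun ε : ℝ => 100 * (|ε| + |b|) := by fun_prop
    exact this.continuousAt.eventually_lt continuousAt_const (by simpa using hb)
  have h0 : (fun ε : ℝ => ⟪F, ∫ a in (0 : ℝ)..ε, ρ.K a z⟫_ℂ) =ᶠ[𝓝 0] fun _ => 0 := by
    filter_upwards [hev] with ε hε
    have d1 := ρ.box_deriv_re (θ := 0) hq hε
    have d2 := ρ.box_deriv_im (θ := 0) hq hε
    simp only [zero_mul, ρ.S_zero] at d1 d2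
    exact ρ.inner_deriv_eq_zero h hσ (ρ.box_mem hq hε)
      (ρ.diff_of_partial hσ (ρ.box_mem hq hε) d1 d2)
  have hco : ContinuousOn (fun a : ℝ => ρ.K a z) (Metric.ball 0 (σ / 2 / 20)) := by
    refine (ρ.continuousOn_K hzV).comp Complex.continuous_ofReal.continuousOn fun a ha => ?_
    simpa using ha
  have hmem : (0 : ℝ) ∈ Metric.ball (0 : ℝ) (σ / 2 / 20) := Metric.mem_ball_self (by positivity)
  have hd : HasDerivAt (fun ε : ℝ => ∫ a in (0 : ℝ)..ε, ρ.K a z) (ρ.K (0 : ℝ) z) 0 :=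
    intervalIntegral.integral_hasDerivAt_right IntervalIntegrable.refl
      (hco.stronglyMeasurableAtFilter Metric.isOpen_ball 0 hmem)
      (hco.continuousAt (Metric.isOpen_ball.mem_nhds hmem))
  rw [Complex.ofReal_zero, ρ.K_zero] at hd
  have hd2 : HasDerivAt (fun ε : ℝ => ⟪F, ∫ a in (0 : ℝ)..ε, ρ.K a z⟫_ℂ) ⟪F, z⟫_ℂ 0 :=
    ((innerSL ℂ F).restrictScalars ℝ).hasFDerivAt.comp_hasDerivAt 0 hd
  have h1 : ⟪F, z⟫_ℂ = 0 := hd2.unique ((hasDerivAt_const (0 : ℝ) (0 : ℂ)).congr_of_eventuallyEq h0)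
  rwa [hz, inner_sub_right, sub_eq_zero] at h1

end Rep

end Crest.Agent.R103
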