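import Crest.Agent.R103.Defs

/-! Row 103: algebra of frames, reflections and signed distances (pure computations). -/

set_option autoImplicit false
set_option linter.unusedVariables false

noncomputable section

open MeasureTheory Set Filter Topology
open scoped ComplexConjugate

namespace Crest.Agent.R103

lemma norm_act (g : Fr) (w : ℂ) : ‖act g w‖ = ‖w‖ := by
  unfold act
  split_ifs <;> simp [norm_cis]
lemma act_add (g : Fr) (w w' : ℂ) : act g (w + w') = act g w + act g w' := by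
  unfold act
  split_ifs <;> simp [mul_add]
lemma act_zero (g : Fr) : act g 0 = 0 := by
  simp [act]
lemma act_neg (g : Fr) (w : ℂ) : act g (-w) = -act g w := by
  unfold act
  split_ifs <;> simp
lemma act_ofReal (g : Fr) (a : ℝ) : act g a = a * cis g.1 := by
  unfold act
  split_ifs <;> simp [mul_comm]
lemma act_mul_conj_re (g : Fr) (w : ℂ) : (act g w * conj (cis g.1)).re = w.re := by
  unfold act
  rw [mul_right_comm, cis_mul_conj, one_mul]
  split_ifs <;> simp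
lemma act_rotF (ψ : ℝ) (g : Fr) (w : ℂ) :
    act (rotF ψ g) w = act g (Complex.exp (ψ * Complex.I) * w) := by
  obtain ⟨θ, b⟩ := g
  cases b
  · simp only [act, rotF, cis_add, cis_coe, Bool.false_eq_true, if_false, map_mul,
      ← Complex.exp_conj, Complex.conj_ofReal, Complex.conj_I, mul_assoc]
    congr 3
    push_cast
    ring
  · simp only [act, rotF, cis_add, cis_coe, if_true, mul_assoc]
lemma act_bijective (g : Fr) : Function.Bijective (act g) := by
  have h : cis g.1 ≠ 0 := by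
    rw [← norm_ne_zero_iff, norm_cis]
    exact one_ne_zero
  have h1 : Function.Bijective fun w : ℂ => if g.2 then w else conj w := by
    cases g.2
    · exact (starRingAut : ℂ ≃+* ℂ).bijective
    · exact Function.bijective_id
  exact (mulLeft_bijective₀ _ h).comp h1
lemma rotF_zero (g : Fr) : rotF 0 g = g := by
  simp [rotF]
lemma rotF_add (ψ ψ' : ℝ) (g : Fr) : rotF (ψ + ψ') g = rotF ψ (rotF ψ' g) := by
  obtain ⟨θ, b⟩ := g
  cases b
  · simp only [rotF, Bool.false_eq_true, if_false, neg_add, AddCircle.coe_add, Prod.mk.injEq,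
      and_true]
    abel
  · simp only [rotF, if_true, AddCircle.coe_add, Prod.mk.injEq, and_true]
    abel
lemma rotF_two_pi (g : Fr) : rotF (2 * Real.pi) g = g := by
  obtain ⟨θ, b⟩ := g
  cases b
  · simp only [rotF, Bool.false_eq_true, if_false, AddCircle.coe_neg, AddCircle.coe_period,
      neg_zero, add_zero]
  · simp only [rotF, if_true, AddCircle.coe_period, add_zero]
lemma rot_zero (m : M) : rot 0 m = m := by
  rw [rot, rotF_zero]
lemma rot_add (ψ ψ' : ℝ) (m : M) : rot (ψ + ψ') m = rot ψ (rot ψ' m) := by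
  simp only [rot, rotF_add]
lemma rot_two_pi (m : M) : rot (2 * Real.pi) m = m := by
  rw [rot, rotF_two_pi]
lemma continuous_act : Continuous fun p : Fr × ℂ => act p.1 p.2 := by
  have hb : Continuous fun p : Fr × ℂ => p.1.2 := by fun_prop
  refine (continuous_cis.comp (by fun_prop)).mul ?_
  simp only [← Bool.cond_eq_ite]
  have : Continuous fun q : Bool × ℂ => bif q.1 then q.2 else conj q.2 := by
    refine continuous_prod_of_discrete_left.2 fun b => ?_
    cases b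
    · exact Complex.continuous_conj
    · exact continuous_id
  exact this.comp (hb.prodMk continuous_snd)
lemma continuous_rot : Continuous fun p : ℝ × M => rot p.1 p.2 := by
  have : Continuous fun q : Bool × ℝ => if q.1 then q.2 else -q.2 := by
    refine continuous_prod_of_discrete_left.2 fun b => ?_
    cases b
    · exact continuous_neg
    · exact continuous_id
  have h2 : Continuous fun p : ℝ × M => (((if p.2.2.2 then p.1 else -p.1 : ℝ)) : Ang) :=
    (AddCircle.continuous_mk' _).comp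
      (this.comp (f := fun p : ℝ × M => (p.2.2.2, p.1)) (by fun_prop))
  unfold rot rotF
  exact (by fun_prop : Continuous fun p : ℝ × M => p.2.1).prodMk
    (((by fun_prop : Continuous fun p : ℝ × M => p.2.2.1).add h2).prodMk (by fun_prop))

namespace Tri

variable (Δ : Tri)

lemma norm_ν (j : Fin 3) : ‖Δ.ν j‖ = 1 := by
  exact norm_cis _
lemma alg_ν_conj (j : Fin 3) : Δ.ν j * conj (Δ.ν j) = 1 := cis_mul_conj _

lemma alg_re (z : ℂ) : (z.re : ℂ) = (z + conj z) / 2 := by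
  rw [Complex.add_conj]; push_cast; ring

lemma alg_σ (j : Fin 3) (z : ℂ) :
    Δ.σ j z = Δ.A (j + 1) - Δ.ν j ^ 2 * conj (z - Δ.A (j + 1)) := by
  rw [σ, ℓ, alg_re, map_mul, Complex.conj_conj]
  linear_combination (-(z - Δ.A (j + 1))) * Δ.alg_ν_conj j

lemma ℓ_add (j : Fin 3) (z v : ℂ) : Δ.ℓ j (z + v) = Δ.ℓ j z + (v * conj (Δ.ν j)).re := by
  rw [ℓ, ℓ, ← Complex.add_re]
  congr 1
  ring
lemma ℓ_lip (j : Fin 3) (z z' : ℂ) : |Δ.ℓ j z - Δ.ℓ j z'| ≤ ‖z - z'‖ := by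
  have h := Δ.ℓ_add j z' (z - z')
  rw [add_sub_cancel] at h
  rw [h, add_sub_cancel_left]
  refine (Complex.abs_re_le_norm _).trans ?_
  rw [norm_mul, Complex.norm_conj, norm_ν, mul_one]
lemma d_lip (z z' : ℂ) : |Δ.d z - Δ.d z'| ≤ 2 * ‖z - z'‖ := by
  have h : ∀ i j, |Δ.ℓ i z + Δ.ℓ j z - (Δ.ℓ i z' + Δ.ℓ j z')| ≤ 2 * ‖z - z'‖ := fun i j => by
    have h1 := abs_le.1 (Δ.ℓ_lip i z z')
    have h2 := abs_le.1 (Δ.ℓ_lip j z z')
    rw [abs_le]
    constructor <;> linarith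
  unfold d
  exact (abs_min_sub_min_le_max _ _ _ _).trans (max_le (h _ _)
    ((abs_min_sub_min_le_max _ _ _ _).trans (max_le (h _ _) (h _ _))))
lemma continuous_ℓ (j : Fin 3) : Continuous (Δ.ℓ j) := by
  unfold ℓ
  fun_prop
lemma continuous_d : Continuous Δ.d := by
  have := Δ.continuous_ℓ
  unfold d
  fun_prop
lemma continuous_nv (j : Fin 3) : Continuous (Δ.nv j) := by
  have := continuous_cis
  unfold nv
  fun_prop
lemma continuous_refl (j : Fin 3) : Continuous (Δ.refl j) := by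
  have h1 := Δ.continuous_ℓ j
  have h2 : Continuous fun b : Bool => !b := continuous_of_discreteTopology
  unfold refl σ rf
  fun_prop
lemma continuous_rf (j : Fin 3) : Continuous (Δ.rf j) := by
  have h2 : Continuous fun b : Bool => !b := continuous_of_discreteTopology
  unfold rf
  fun_prop
lemma d_le (z : ℂ) {i j : Fin 3} (h : i ≠ j) : Δ.d z ≤ Δ.ℓ i z + Δ.ℓ j z := by
  have h1 : Δ.d z ≤ Δ.ℓ 1 z + Δ.ℓ 2 z := min_le_left _ _
  have h2 : Δ.d z ≤ Δ.ℓ 2 z + Δ.ℓ 0 z := (min_le_right _ _).trans (min_le_left _ _)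
  have h3 : Δ.d z ≤ Δ.ℓ 0 z + Δ.ℓ 1 z := (min_le_right _ _).trans (min_le_right _ _)
  fin_cases i <;> fin_cases j <;> simp at h ⊢ <;> linarith
lemma lt_d_iff (z : ℂ) (r : ℝ) :
    r < Δ.d z ↔ ∀ i j : Fin 3, i ≠ j → r < Δ.ℓ i z + Δ.ℓ j z := by
  refine ⟨fun h i j hij => h.trans_le (Δ.d_le z hij), fun h => ?_⟩
  exact lt_min (h _ _ (by decide)) (lt_min (h _ _ (by decide)) (h _ _ (by decide)))
/-- At most one side is close. -/
lemma exists_side {z : ℂ} {r : ℝ} (h : 2 * r < Δ.d z) : ∃ j, ∀ i, i ≠ j → r < Δ.ℓ i z := by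
  by_cases h0 : ∃ j, Δ.ℓ j z ≤ r
  · obtain ⟨j, hj⟩ := h0
    refine ⟨j, fun i hi => ?_⟩
    have := Δ.d_le z hi
    linarith
  · push Not at h0
    exact ⟨0, fun i _ => h0 i⟩
lemma ℓ_A_succ (j : Fin 3) : Δ.ℓ j (Δ.A (j + 1)) = 0 := by
  simp [ℓ]
lemma ℓ_A_succ_succ (j : Fin 3) : Δ.ℓ j (Δ.A (j + 2)) = 0 := by
  exact Δ.h0 j
lemma ℓ_A_self (j : Fin 3) : 0 < Δ.ℓ j (Δ.A j) := by
  exact Δ.hpos j
lemma ℓ_add_act_real (j : Fin 3) (m : M) (a : ℝ) :
    Δ.ℓ j (m.1 + act m.2 a) = Δ.ℓ j m.1 + a * Δ.nv j m.2 := by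
  rw [ℓ_add, act_ofReal, mul_assoc, Complex.re_ofReal_mul, nv]
lemma ℓ_σ (j : Fin 3) (z : ℂ) : Δ.ℓ j (Δ.σ j z) = -Δ.ℓ j z := by
  rw [σ, sub_eq_add_neg, ℓ_add, neg_mul, mul_assoc, alg_ν_conj]
  simp
  ring
lemma σ_σ (j : Fin 3) (z : ℂ) : Δ.σ j (Δ.σ j z) = z := by
  rw [σ, ℓ_σ, σ]
  push_cast
  ring
lemma norm_σ_sub (j : Fin 3) (z : ℂ) : ‖Δ.σ j z - z‖ = 2 * |Δ.ℓ j z| := by
  rw [σ, sub_sub_cancel_left, norm_neg, norm_mul, norm_mul, norm_ν]
  simp
lemma σ_of_ℓ_eq_zero (j : Fin 3) {z : ℂ} (h : Δ.ℓ j z = 0) : Δ.σ j z = z := by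
  simp [σ, h]
lemma norm_σ_sub_σ (j : Fin 3) (z z' : ℂ) : ‖Δ.σ j z - Δ.σ j z'‖ = ‖z - z'‖ := by
  have : Δ.σ j z - Δ.σ j z' = -(Δ.ν j ^ 2 * conj (z - z')) := by
    simp only [alg_σ, map_sub]
    ring
  rw [this, norm_neg, norm_mul, norm_pow, norm_ν, Complex.norm_conj]
  simp
/-- Reflecting a point on the wrong side brings it closer. -/
lemma norm_σ_sub_le (j : Fin 3) {y x : ℂ} (hy : Δ.ℓ j y ≤ 0) (hx : 0 ≤ Δ.ℓ j x) :
    ‖Δ.σ j y - x‖ ≤ ‖y - x‖ := by
  have h := Δ.ℓ_add j x (y - x)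
  rw [add_sub_cancel] at h
  have e : Δ.σ j y - x = (y - x) - (2 * Δ.ℓ j y : ℝ) * Δ.ν j := by
    rw [σ]; push_cast; ring
  have h1 : Complex.normSq (Δ.ν j) = 1 := by rw [Complex.normSq_eq_norm_sq, norm_ν]; norm_num
  rw [← sq_le_sq₀ (norm_nonneg _) (norm_nonneg _), ← Complex.normSq_eq_norm_sq,
    ← Complex.normSq_eq_norm_sq, e, Complex.normSq_sub, map_mul, map_mul, Complex.normSq_ofReal, h1,
    Complex.conj_ofReal, mul_left_comm (y - x), Complex.re_ofReal_mul]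
  have h2 : ((y - x) * conj (Δ.ν j)).re = Δ.ℓ j y - Δ.ℓ j x := by linarith
  rw [h2]
  nlinarith [mul_nonneg (neg_nonneg.2 hy) hx]
lemma cis_rf (j : Fin 3) (g : Fr) : cis (Δ.rf j g).1 = -(Δ.ν j) ^ 2 * conj (cis g.1) := by
  simp only [rf, cis_sub, cis_add, cis_pi, ν]
  ring
lemma cis_rf' (j : Fin 3) (g : Fr) :
    cis (Δ.rf j g).1 = cis g.1 - 2 * (Δ.nv j g : ℂ) * Δ.ν j := by
  rw [cis_rf, nv, alg_re, map_mul, Complex.conj_conj]
  linear_combination (cis g.1) * Δ.alg_ν_conj j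
lemma rf_rf (j : Fin 3) (g : Fr) : Δ.rf j (Δ.rf j g) = g := by
  simp [rf]
lemma refl_refl (j : Fin 3) (m : M) : Δ.refl j (Δ.refl j m) = m := by
  simp only [refl, σ_σ, rf_rf]
lemma nv_rf (j : Fin 3) (g : Fr) : Δ.nv j (Δ.rf j g) = -Δ.nv j g := by
  rw [nv, cis_rf', sub_mul, mul_assoc, alg_ν_conj, Complex.sub_re, ← nv]
  simp
  ring
lemma σ_add_act (j : Fin 3) (z : ℂ) (g : Fr) (w : ℂ) :
    Δ.σ j (z + act g w) = Δ.σ j z + act (Δ.rf j g) w := by
  rw [alg_σ, alg_σ, act, act, cis_rf]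
  obtain ⟨θ, b⟩ := g
  cases b <;> simp [rf] <;> ring
lemma rf_rotF (j : Fin 3) (ψ : ℝ) (g : Fr) : Δ.rf j (rotF ψ g) = rotF ψ (Δ.rf j g) := by
  obtain ⟨θ, b⟩ := g
  cases b
  · simp only [rf, rotF, Bool.false_eq_true, if_false, Bool.not_false, if_true, AddCircle.coe_neg,
      Prod.mk.injEq, and_true]
    abel
  · simp only [rf, rotF, Bool.false_eq_true, if_false, Bool.not_true, if_true, AddCircle.coe_neg,
      Prod.mk.injEq, and_true]
    abel
lemma rf_rf_eq (i j : Fin 3) (g : Fr) :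
    Δ.rf i (Δ.rf j g) = (Δ.β i + Δ.β i - (Δ.β j + Δ.β j) + g.1, g.2) := by
  simp only [rf, Bool.not_not, Prod.mk.injEq, and_true]
  abel
/-- The height function `⟨x - v, ω⟩` after a reflection. -/
lemma height_refl (j : Fin 3) (v y : ℂ) (g : Fr) :
    ((Δ.σ j y - v) * conj (cis (Δ.rf j g).1)).re =
      ((y - v) * conj (cis g.1)).re + 2 * Δ.ℓ j v * Δ.nv j g := by
  have h := Δ.ℓ_add j v (y - v)
  rw [add_sub_cancel] at h
  have e : (Δ.σ j y - v) * conj (cis (Δ.rf j g).1) =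
      (y - v) * conj (cis g.1) - (2 * Δ.nv j g : ℝ) * ((y - v) * conj (Δ.ν j)) -
        (2 * Δ.ℓ j y : ℝ) * conj (cis g.1 * conj (Δ.ν j)) + (4 * Δ.ℓ j y * Δ.nv j g : ℝ) := by
    rw [cis_rf', σ]
    simp only [map_sub, map_mul, Complex.conj_ofReal, map_ofNat, Complex.conj_conj]
    push_cast
    linear_combination (4 * (Δ.ℓ j y : ℂ) * Δ.nv j g) * Δ.alg_ν_conj j
  rw [e, Complex.add_re, Complex.sub_re, Complex.sub_re, Complex.re_ofReal_mul,
    Complex.re_ofReal_mul, Complex.conj_re, Complex.ofReal_re, ← nv]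
  have h2 : ((y - v) * conj (Δ.ν j)).re = Δ.ℓ j y - Δ.ℓ j v := by linarith
  rw [h2]
  ring
lemma Cl_of_Sig {m : M} (h : m ∈ Δ.Sig) : Δ.Cl m.1 := by
  exact fun j => (h j).elim le_of_lt fun h => h.1.ge
lemma Sig_of_T {m : M} (h : m.1 ∈ Δ.T) : m ∈ Δ.Sig := by
  exact fun j => Or.inl (h j)
lemma d_pos_of_T {z : ℂ} (h : z ∈ Δ.T) : 0 < Δ.d z := by
  exact (Δ.lt_d_iff z 0).2 fun i j _ => add_pos (h i) (h j)
lemma isOpen_T : IsOpen Δ.T := by
  rw [T, setOf_forall]
  exact isOpen_iInter_of_finite fun j => isOpen_lt continuous_const (Δ.continuous_ℓ j)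
lemma convex_T : Convex ℝ Δ.T := by
  intro x hx y hy a b ha hb hab j
  have e : Δ.ℓ j (a • x + b • y) = a * Δ.ℓ j x + b * Δ.ℓ j y := by
    have hb' : (b : ℂ) = 1 - a := by
      rw [← sub_eq_iff_eq_add'.2 hab.symm]; push_cast; ring
    rw [ℓ, ℓ, ℓ, ← Complex.re_ofReal_mul, ← Complex.re_ofReal_mul, ← Complex.add_re,
      Complex.real_smul, Complex.real_smul, hb']
    congr 1
    ring
  rw [e]
  have h1 := hx j
  have h2 := hy j
  rcases ha.eq_or_lt with rfl | ha'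
  · rw [zero_add] at hab
    simpa [hab] using h2
  · exact add_pos_of_pos_of_nonneg (mul_pos ha' h1) (mul_nonneg hb h2.le)
lemma measurableSet_Sig : MeasurableSet Δ.Sig := by
  rw [Sig, setOf_forall]
  refine MeasurableSet.iInter fun j => ?_
  have h1 : Measurable fun m : M => Δ.ℓ j m.1 := (Δ.continuous_ℓ j).measurable.comp measurable_fst
  have h2 : Measurable fun m : M => Δ.nv j m.2 :=
    (Δ.continuous_nv j).measurable.comp measurable_snd
  exact (measurableSet_lt measurable_const h1).union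
    ((measurableSet_eq_fun h1 measurable_const).inter (measurableSet_lt measurable_const h2))

end Tri

end Crest.Agent.R103
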