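import Crest.Agent.R103.RepK

/-! Row 103: properties of the rotation and flow operators; the representation. -/

set_option autoImplicit false
set_option linter.unusedVariables false

noncomputable section

open MeasureTheory Set Filter Topology
open scoped ComplexConjugate InnerProductSpace

namespace Crest.Agent.R103

lemma RepR_cont {H : Type*} [NormedAddCommGroup H] [NormedSpace ℂ H] {R : ℝ → H →L[ℂ] H}
    (hadd : ∀ s t p, R (s + t) p = R s (R t p))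
    (h0 : ∀ p, Tendsto (fun s => R s p) (𝓝 0) (𝓝 p)) (p : H) : Continuous fun s => R s p := by
  refine continuous_iff_continuousAt.2 fun s₀ => ?_
  have h1 : Tendsto (fun s : ℝ => s - s₀) (𝓝 s₀) (𝓝 0) := by
    have : Tendsto (fun s : ℝ => s - s₀) (𝓝 s₀) (𝓝 (s₀ - s₀)) :=
      tendsto_id.sub tendsto_const_nhds
    rwa [sub_self] at this
  have h2 := (h0 (R s₀ p)).comp h1
  refine h2.congr fun s => ?_
  simp only [Function.comp_apply]
  rw [← hadd, sub_add_cancel]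

namespace Tri

variable (Δ : Tri)

lemma opR_zero (p : Δ.HH) : Δ.opR 0 p = p := by
  refine Lp.ext ?_
  filter_upwards [Δ.opR_ae 0 p] with n hn
  rw [hn, rot_zero]
lemma opR_add (ψ ψ' : ℝ) (p : Δ.HH) : Δ.opR (ψ + ψ') p = Δ.opR ψ (Δ.opR ψ' p) := by
  refine Lp.ext ?_
  filter_upwards [Δ.opR_ae (ψ + ψ') p, Δ.opR_ae ψ (Δ.opR ψ' p),
    (Δ.mp_rot2 ψ).quasiMeasurePreserving.ae (Δ.opR_ae ψ' p)] with n h1 h2 h3
  rw [h1, h2, add_comm, rot_add]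
  exact h3.symm
lemma opR_two_pi (p : Δ.HH) : Δ.opR (2 * Real.pi) p = p := by
  refine Lp.ext ?_
  filter_upwards [Δ.opR_ae (2 * Real.pi) p] with n hn
  rw [hn, rot_two_pi]
lemma opR_adj (ψ : ℝ) (p q : Δ.HH) : ⟪Δ.opR ψ p, q⟫_ℂ = ⟪p, Δ.opR (-ψ) q⟫_ℂ := by
  refine koop_univ_adj (Δ.mp_rot2 ψ) (Δ.mp_rot2 (-ψ)) (Eventually.of_forall fun n => ?_) p q
  refine Prod.ext ?_ rfl
  show rot (-ψ) (rot ψ n.1) = n.1
  rw [← rot_add, neg_add_cancel, rot_zero]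
/-- `tendsto_koop` at `0` and the group law. -/
lemma opR_cont (p : Δ.HH) : Continuous fun ψ => Δ.opR ψ p := by
  refine RepR_cont Δ.opR_add (fun p => ?_) p
  refine tendsto_koop (E := fun _ => univ) (fun ψ => SubMP.of_mp (Δ.mp_rot2 ψ) _)
    (fun _ => MeasurableSet.univ) (fun ψ => (Δ.mp_rot2 ψ).measurable)
    (Eventually.of_forall fun n => ⟨Eventually.of_forall fun _ => mem_univ _, ?_⟩) p
  have hc : Continuous fun ψ : ℝ => rot ψ n.1 := continuous_rot.comp (Continuous.prodMk_left _)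
  have h1 := hc.tendsto 0
  rw [rot_zero] at h1
  exact h1.prodMk_nhds tendsto_const_nhds
lemma opR_mem {σ : ℝ} (ψ : ℝ) {p : Δ.HH} (hp : p ∈ Δ.subV σ) : Δ.opR ψ p ∈ Δ.subV σ := by
  rw [mem_subV] at hp ⊢
  filter_upwards [Δ.opR_ae ψ p, (Δ.mp_rot2 ψ).quasiMeasurePreserving.ae hp] with n h1 h2 h3
  rw [h1]
  exact h2 h3
lemma opS_zero (p : Δ.HH) : Δ.opS 0 p = p := by
  refine Lp.ext ?_
  filter_upwards [Δ.opS_ae 0 p] with n hn
  rw [hn, φ_zero]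
lemma opS_add (s t : ℝ) (p : Δ.HH) : Δ.opS (s + t) p = Δ.opS s (Δ.opS t p) := by
  refine Lp.ext ?_
  filter_upwards [Δ.opS_ae (s + t) p, Δ.opS_ae s (Δ.opS t p),
    (Δ.mp_S s).quasiMeasurePreserving.ae (Δ.opS_ae t p)] with n h1 h2 h3
  rw [h1, h2, add_comm, φ_add]
  exact h3.symm
lemma opS_adj (s : ℝ) (p q : Δ.HH) : ⟪Δ.opS s p, q⟫_ℂ = ⟪p, Δ.opS (-s) q⟫_ℂ := by
  refine koop_univ_adj (Δ.mp_S s) (Δ.mp_S (-s)) (Eventually.of_forall fun n => ?_) p q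
  refine Prod.ext rfl ?_
  show Δ.φ (-s) (Δ.φ s n.2) = n.2
  rw [← φ_add, neg_add_cancel, φ_zero]
/-- `tendsto_koop` at `0` (`tendsto_φ`) and the group law. -/
lemma opS_cont (p : Δ.HH) : Continuous fun s => Δ.opS s p := by
  refine RepR_cont Δ.opS_add (fun p => ?_) p
  refine tendsto_koop (E := fun _ => univ) (fun s => SubMP.of_mp (Δ.mp_S s) _)
    (fun _ => MeasurableSet.univ) (fun s => (Δ.mp_S s).measurable) ?_ p
  filter_upwards [Δ.ae_snd Δ.ae_mem_Ω, Δ.ae_snd Δ.ae_mem_T] with n h1 h2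
  exact ⟨Eventually.of_forall fun _ => mem_univ _,
    tendsto_const_nhds.prodMk_nhds (Δ.tendsto_φ h1 h2)⟩
lemma opS_mem {σ : ℝ} (s : ℝ) {p : Δ.HH} (hp : p ∈ Δ.subV σ) : Δ.opS s p ∈ Δ.subV σ := by
  rw [mem_subV] at hp ⊢
  filter_upwards [Δ.opS_ae s p, (Δ.mp_S s).quasiMeasurePreserving.ae hp] with n h1 h2 h3
  rw [h1]
  exact h2 h3
lemma opR_S (ψ s : ℝ) (p : Δ.HH) : Δ.opR ψ (Δ.opS s p) = Δ.opS s (Δ.opR ψ p) := by
  refine Lp.ext ?_
  filter_upwards [Δ.opR_ae ψ (Δ.opS s p), Δ.opS_ae s (Δ.opR ψ p),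
    (Δ.mp_rot2 ψ).quasiMeasurePreserving.ae (Δ.opS_ae s p),
    (Δ.mp_S s).quasiMeasurePreserving.ae (Δ.opR_ae ψ p)] with n h1 h2 h3 h4
  rw [h1, h2]
  exact h3.trans h4.symm

/-- The representation on `L²(M × M)`. -/
def rep : Rep Δ.HH where
  R := Δ.opR
  R_zero := Δ.opR_zero
  R_add := Δ.opR_add
  R_two_pi := Δ.opR_two_pi
  R_adj := Δ.opR_adj
  R_cont := Δ.opR_cont
  K := Δ.opK
  S := Δ.opS
  V := Δ.subV
  V_anti := fun h _ hp => Δ.subV_anti h hp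
  V_closed := Δ.subV_closed
  K_norm := fun _ _ => norm_koop_le _ _ _
  K_zero := Δ.opK_zero
  K_cont := Δ.opK_cont
  K_mem := Δ.opK_mem
  K_add := Δ.opK_add
  K_adj := Δ.opK_adj
  R_mem := Δ.opR_mem
  K_R := Δ.opK_R
  S_zero := Δ.opS_zero
  S_add := Δ.opS_add
  S_adj := Δ.opS_adj
  S_cont := Δ.opS_cont
  S_mem := Δ.opS_mem
  K_S := Δ.opK_S
  R_S := Δ.opR_S

end Tri

end Crest.Agent.R103
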