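import Crest.Agent.R103.Cut
import Crest.Agent.R103.RepR

/-! Row 103: the approximation hypothesis holds for bounded invariant functions. -/

set_option autoImplicit false
set_option linter.unusedVariables false

noncomputable section

open MeasureTheory Set Filter Topology
open scoped ComplexConjugate InnerProductSpace

namespace Crest.Agent.R103

namespace Tri

variable (Δ : Tri)

lemma approx_norm_sq {q : Δ.HH} {b : M → ℝ} (hb : Measurable b) {B : ℝ} (hB : ∀ m, |b m| ≤ B)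
    (h : ∀ᵐ n ∂Δ.μ2, ‖q n‖ ≤ |b n.1|) : ‖q‖ ^ 2 ≤ Δ.μ.real univ * ∫ m, b m ^ 2 ∂Δ.μ := by
  have hi : Integrable (fun n : M × M => b n.1 ^ 2) Δ.μ2 := by
    refine Integrable.of_bound ((hb.comp measurable_fst).pow_const 2).aestronglyMeasurable (B ^ 2)
      (Eventually.of_forall fun n => ?_)
    rw [Real.norm_eq_abs, abs_pow]
    exact pow_le_pow_left₀ (abs_nonneg _) (hB _) 2
  refine (norm_sq_le_of_ae (b := fun n : M × M => b n.1) hi h).trans (le_of_eq ?_)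
  exact integral_fun_fst (μ := Δ.μ) (ν := Δ.μ) fun m => b m ^ 2

lemma approx_mul_S {ζ : M → ℝ} {L : Δ.HH →L[ℂ] Δ.HH}
    (hL : ∀ p, L p =ᵐ[Δ.μ2] fun n => (ζ n.1 : ℂ) * p n) (s : ℝ) (p : Δ.HH) :
    Δ.opS s (L p) = L (Δ.opS s p) := by
  refine Lp.ext ?_
  filter_upwards [Δ.opS_ae s (L p), (Δ.mp_S s).quasiMeasurePreserving.ae (hL p), hL (Δ.opS s p),
    Δ.opS_ae s p] with n h1 h2 h3 h4
  rw [h1, h3, h4]
  exact h2

lemma approx_X {p : Δ.HH} (hp : ∀ᵐ n ∂Δ.μ2, ‖p n‖ ≤ 1) {ε : ℝ} (hε : 0 < ε)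
    (hinv : ∀ᵐ n ∂Δ.μ2, p (Δ.φ ε n.1, Δ.φ ε n.2) = p n) {ζ : M → ℝ}
    (h0 : ∀ m, Δ.d m.1 ≤ 400 * ε → ζ m = 0) {f : Δ.HH}
    (hf : f =ᵐ[Δ.μ2] fun n => (ζ n.1 : ℂ) * p n) :
    ∀ᵐ n ∂Δ.μ2, ‖(Δ.opK ε (Δ.opS ε f) - f) n‖ ≤ |ζ (Δ.φ ε n.1) - ζ n.1| := by
  have hn : ‖(ε : ℂ)‖ = ε := by rw [Complex.norm_real, Real.norm_eq_abs, abs_of_pos hε]
  filter_upwards [Lp.coeFn_sub (Δ.opK ε (Δ.opS ε f)) f, Δ.opK_ae ε (Δ.opS ε f),
    Δ.ae_τ2 ε (Δ.opS_ae ε f), (Δ.mp_φ2 ε ε).quasiMeasurePreserving.ae hf, hf, hinv, hp,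
    Δ.ae_fst Δ.ae_mem_Ω] with n h1 h2 h3 h4 h5 h6 h7 h8
  rw [h1, Pi.sub_apply, h2, h5]
  split_ifs with h
  · have h9 : Δ.φ ε n.1 = Δ.τ ε n.1 := by
      refine Δ.φ_eq_τ h8 ?_
      rw [hn] at h
      rw [abs_of_pos hε]
      linarith
    rw [h3 h, ← h9, h4, h6, ← sub_mul, norm_mul, ← Complex.ofReal_sub, Complex.norm_real,
      Real.norm_eq_abs]
    exact mul_le_of_le_one_right (abs_nonneg _) h7
  · rw [hn] at h
    rw [h0 n.1 (by linarith)]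
    simp

lemma approx_Y {p : Δ.HH} (hp : ∀ᵐ n ∂Δ.μ2, ‖p n‖ ≤ 1) {ε : ℝ} (hε : 0 < ε) {ζ : M → ℝ}
    (hζ : Measurable ζ) (hζ0 : ∀ m, 0 ≤ ζ m) (hζ1 : ∀ m, ζ m ≤ 1)
    (h0 : ∀ m, Δ.d m.1 ≤ 400 * ε → ζ m = 0) {f : Δ.HH}
    (hf : f =ᵐ[Δ.μ2] fun n => (ζ n.1 : ℂ) * p n) :
    ‖Δ.opK (ε * Complex.I) f - f‖ ≤ √(Δ.μ.real univ *
      ∫ m in {m | 100 * ε < Δ.d m.1}, (ζ (Δ.τ (ε * Complex.I) m) - ζ m) ^ 2 ∂Δ.μ) +
        ‖Δ.opK (ε * Complex.I) p - p‖ := by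
  set w : ℂ := ε * Complex.I with hw
  have hn : ‖w‖ = ε := by
    rw [hw, norm_mul, Complex.norm_I, mul_one, Complex.norm_real, Real.norm_eq_abs, abs_of_pos hε]
  have habs : ∀ m, |ζ m| ≤ 1 := fun m => abs_le.2 ⟨by linarith [hζ0 m], hζ1 m⟩
  obtain ⟨L, hL⟩ := exists_mul (μ := Δ.μ2) (hζ.comp measurable_fst) fun n => habs n.1
  set E : Set M := {m | 100 * ε < Δ.d m.1} with hE
  have hEm : MeasurableSet E := Δ.measurableSet_safe _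
  set b : M → ℝ := E.indicator fun m => ζ (Δ.τ w m) - ζ m with hb
  have hbm : Measurable b := ((hζ.comp (Δ.measurable_τ' w)).sub hζ).indicator hEm
  have hbB : ∀ m, |b m| ≤ 2 := fun m => by
    by_cases h : m ∈ E
    · rw [hb, indicator_of_mem h]
      refine (abs_sub _ _).trans ?_
      linarith [habs m, habs (Δ.τ w m)]
    · rw [hb, indicator_of_notMem h]; simp
  have h1 : ‖L (Δ.opK w p - p)‖ ≤ ‖Δ.opK w p - p‖ := by
    refine Lp.norm_le_norm_of_ae_le ?_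
    filter_upwards [hL (Δ.opK w p - p)] with n h
    rw [h, norm_mul, Complex.norm_real, Real.norm_eq_abs]
    exact mul_le_of_le_one_left (norm_nonneg _) (habs _)
  have h2 : ∀ᵐ n ∂Δ.μ2, ‖(Δ.opK w f - f - L (Δ.opK w p - p)) n‖ ≤ |b n.1| := by
    filter_upwards [Lp.coeFn_sub (Δ.opK w f - f) (L (Δ.opK w p - p)), Lp.coeFn_sub (Δ.opK w f) f,
      hL (Δ.opK w p - p), Lp.coeFn_sub (Δ.opK w p) p, Δ.opK_ae w f, Δ.opK_ae w p, Δ.ae_τ2 w hf,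
      Δ.ae_τ2 w hp, hf, Δ.ae_fst Δ.ae_mem_T] with n e1 e2 e3 e4 e5 e6 e7 e8 e9 e10
    rw [e1, Pi.sub_apply, e2, Pi.sub_apply, e3, e4, Pi.sub_apply, e5, e6, e9]
    simp only [Function.comp]
    by_cases h : n.1 ∈ E
    · have h' : 16 * ‖w‖ < Δ.d n.1.1 := by
        have : 100 * ε < Δ.d n.1.1 := h
        rw [hn]; linarith
      rw [if_pos h', if_pos h', e7 h', hb, indicator_of_mem h]
      have : (ζ (Δ.τ w n.1) : ℂ) * p (Δ.τ w n.1, n.2) - ζ n.1 * p n -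
          ζ n.1 * (p (Δ.τ w n.1, n.2) - p n) =
          ((ζ (Δ.τ w n.1) - ζ n.1 : ℝ) : ℂ) * p (Δ.τ w n.1, n.2) := by push_cast; ring
      rw [this, norm_mul, Complex.norm_real, Real.norm_eq_abs]
      exact mul_le_of_le_one_right (abs_nonneg _) (e8 h')
    · have h' : Δ.d n.1.1 ≤ 100 * ε := not_lt.1 h
      have h3 : ζ n.1 = 0 := h0 _ (by linarith)
      have h4 : ζ (Δ.τ w n.1) = 0 := by
        refine h0 _ ?_
        have := abs_le.1 (Δ.d_τ (m := n.1) (fun j => (e10 j).le) w)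
        rw [hn] at this
        linarith
      split_ifs with h5
      · rw [e7 h5, h3]
        simp [h4]
      · simp [h3]
  have h3 := Δ.approx_norm_sq hbm hbB h2
  have h4 : ∫ m, b m ^ 2 ∂Δ.μ = ∫ m in E, (ζ (Δ.τ w m) - ζ m) ^ 2 ∂Δ.μ := by
    rw [← integral_indicator hEm]
    refine integral_congr_ae (Eventually.of_forall fun m => ?_)
    by_cases h : m ∈ E
    · simp only [hb, indicator_of_mem h]
    · simp [hb, indicator_of_notMem h]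
  rw [h4] at h3
  have h5 := Real.le_sqrt_of_sq_le h3
  calc ‖Δ.opK w f - f‖ = ‖(Δ.opK w f - f - L (Δ.opK w p - p)) + L (Δ.opK w p - p)‖ := by
        rw [sub_add_cancel]
    _ ≤ _ := (norm_add_le _ _).trans (add_le_add h5 h1)

/-- `f = ζ p`, `g = ζ G` (`exists_mul` for `n ↦ ζ n.1`), `σ = 400 ε`; the multiplication operator
commutes with `opS`.  A.e. `(K ε S ε f - f) n = (ζ (φ ε n.1) - ζ n.1) p n` (`φ_eq_τ` where
`16 ε < d`; elsewhere both sides vanish, `d_φ`), and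
`(K (iε) f - f) n = 1_{100 ε < d} ((ζ ∘ τ - ζ) (K (iε) p) n + ζ (K (iε) p - p) n)`, so
`‖K (iε) f - f‖ ≤ √(B μ(M)) + ‖K (iε) p - p‖` and the last term tends to `0` (`opK_cont`).
Use `norm_sq_le_of_ae` and `integral_fun_fst`-type formulas. -/
theorem approx {p G : Δ.HH} {c : ℝ} (hp : ∀ᵐ n ∂Δ.μ2, ‖p n‖ ≤ 1) (hG : ∀ᵐ n ∂Δ.μ2, ‖G n‖ ≤ c)
    (hinv : ∀ t, ∀ᵐ n ∂Δ.μ2, p (Δ.φ t n.1, Δ.φ t n.2) = p n)
    (hd : HasDerivAt (fun s : ℝ => Δ.opS s p) G 0) : Δ.rep.Approx p G := by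
  intro η hη
  set m : ℝ := Δ.μ.real univ with hm
  have hm0 : 0 ≤ m := measureReal_nonneg
  set η' : ℝ := η ^ 2 / (4 * (m + 1) ^ 2 * (c ^ 2 + 1)) with hη'
  have hη'0 : 0 < η' := by positivity
  have hη'1 : 4 * (m + 1) ^ 2 * (c ^ 2 + 1) * η' = η ^ 2 := by rw [hη']; field_simp
  obtain ⟨C', ε₀, hC', hε₀, hcut⟩ := Δ.exists_cutoff hη'0
  set κ : ℝ := √(m * C') with hκ
  have hκ0 : 0 ≤ κ := Real.sqrt_nonneg _
  have hev : ∀ᶠ ε : ℝ in 𝓝[>] 0, (0 < ε ∧ ε < ε₀ ∧ ε ≤ η ∧ κ * ε ≤ η) ∧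
      κ * ‖Δ.opK (ε * Complex.I) p - p‖ ≤ η / 2 := by
    have t0 : Tendsto (fun ε : ℝ => ε) (𝓝[>] 0) (𝓝 0) := tendsto_nhdsWithin_of_tendsto_nhds tendsto_id
    have t1 : Tendsto (fun ε : ℝ => (ε : ℂ) * Complex.I) (𝓝[>] 0) (𝓝 0) := by
      have : Continuous fun ε : ℝ => (ε : ℂ) * Complex.I := by fun_prop
      simpa using tendsto_nhdsWithin_of_tendsto_nhds (s := Ioi 0) (this.tendsto 0)
    have t2 : Tendsto (fun ε : ℝ => κ * ‖Δ.opK (ε * Complex.I) p - p‖) (𝓝[>] 0) (𝓝 0) := by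
      simpa using (tendsto_iff_norm_sub_tendsto_zero.1 ((Δ.opK_cont p).comp t1)).const_mul κ
    have t3 : Tendsto (fun ε : ℝ => κ * ε) (𝓝[>] 0) (𝓝 0) := by simpa using t0.const_mul κ
    filter_upwards [self_mem_nhdsWithin, t0.eventually (gt_mem_nhds hε₀),
      t0.eventually (ge_mem_nhds hη), t3.eventually (ge_mem_nhds hη),
      t2.eventually (ge_mem_nhds (half_pos hη))] with ε h1 h2 h3 h4 h5
    exact ⟨⟨h1, h2, h3, h4⟩, h5⟩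
  obtain ⟨ε, ⟨hε, hε1, hε2, hε3⟩, hε4⟩ := hev.exists
  obtain ⟨ζ, hζ, hζ0, hζ1, h0, h1, hA, hAB⟩ := hcut ε hε hε1
  have habs : ∀ m, |ζ m| ≤ 1 := fun m => abs_le.2 ⟨by linarith [hζ0 m], hζ1 m⟩
  obtain ⟨L, hL⟩ := exists_mul (μ := Δ.μ2) (hζ.comp measurable_fst) fun n => habs n.1
  have hV : ∀ q, L q ∈ Δ.subV (400 * ε) := fun q => by
    rw [mem_subV]
    filter_upwards [hL q] with n h h'
    rw [h]
    simp [h0 n.1 h'.le]
  have happ : ∀ (q : Δ.HH) (B : ℝ), (∀ᵐ n ∂Δ.μ2, ‖q n‖ ≤ B) → ‖L q - q‖ ^ 2 ≤ B ^ 2 * (m * η') := by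
    intro q B hq
    have h2 := Δ.approx_norm_sq (q := L q - q) (b := fun x => |B| * (1 - ζ x))
      ((measurable_const.sub hζ).const_mul _) (B := |B|) (fun x => by
        rw [abs_mul, abs_abs]
        exact mul_le_of_le_one_right (abs_nonneg _)
          (abs_le.2 ⟨by linarith [hζ1 x], by linarith [hζ0 x]⟩)) (by
        filter_upwards [Lp.coeFn_sub (L q) q, hL q, hq] with n e1 e2 e3
        rw [e1, Pi.sub_apply, e2]
        have : ((ζ ∘ Prod.fst) n : ℂ) * q n - q n = -(((1 - ζ n.1 : ℝ) : ℂ) * q n) := by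
          simp only [Function.comp]; push_cast; ring
        rw [this, norm_neg, norm_mul, Complex.norm_real, Real.norm_eq_abs, abs_mul, abs_abs,
          mul_comm]
        exact mul_le_mul_of_nonneg_right (e3.trans (le_abs_self _)) (abs_nonneg _))
    simp only [mul_pow, sq_abs] at h2
    rw [integral_const_mul] at h2
    calc _ ≤ _ := h2
      _ = B ^ 2 * (m * ∫ x, (1 - ζ x) ^ 2 ∂Δ.μ) := by ring
      _ ≤ _ := by gcongr
  set A : ℝ := ∫ m, (ζ (Δ.φ ε m) - ζ m) ^ 2 ∂Δ.μ with hAdef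
  set B : ℝ := ∫ m in {m | 100 * ε < Δ.d m.1}, (ζ (Δ.τ (ε * Complex.I) m) - ζ m) ^ 2 ∂Δ.μ
    with hBdef
  have hA0 : 0 ≤ A := integral_nonneg fun _ => sq_nonneg _
  have hX : ‖Δ.opK ε (Δ.opS ε (L p)) - L p‖ ≤ √(m * A) := by
    refine Real.le_sqrt_of_sq_le (Δ.approx_norm_sq (b := fun x => ζ (Δ.φ ε x) - ζ x)
      ((hζ.comp (Δ.measurable_φ' ε)).sub hζ) (B := 2) (fun x => ?_)
      (Δ.approx_X hp hε (hinv ε) h0 (hL p)))
    refine (abs_sub _ _).trans ?_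
    linarith [habs x, habs (Δ.φ ε x)]
  have hX' : √(m * A) ≤ κ * ε ^ 2 := by
    rw [hκ, ← Real.sqrt_sq (by positivity : 0 ≤ ε ^ 2), ← Real.sqrt_mul (by positivity)]
    refine Real.sqrt_le_sqrt ?_
    calc m * A ≤ m * (C' * ε ^ 4) := by gcongr
      _ = _ := by ring
  have hY := Δ.approx_Y hp hε hζ hζ0 hζ1 h0 (hL p)
  have hAB' : √(m * A) * √(m * B) ≤ η / 2 * ε ^ 2 := by
    rw [← Real.sqrt_mul (by positivity)]
    refine Real.sqrt_le_iff.2 ⟨by positivity, ?_⟩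
    have h5 : m ^ 2 * η' ≤ η ^ 2 / 4 := by
      have : m ^ 2 ≤ (m + 1) ^ 2 * (c ^ 2 + 1) := by nlinarith [sq_nonneg c, sq_nonneg (m + 1)]
      nlinarith
    calc m * A * (m * B) = m ^ 2 * (A * B) := by ring
      _ ≤ m ^ 2 * (η' * ε ^ 4) := by gcongr
      _ = m ^ 2 * η' * ε ^ 4 := by ring
      _ ≤ η ^ 2 / 4 * ε ^ 4 := by gcongr
      _ = _ := by ring
  refine ⟨ε, 400 * ε, L p, L G, hε, hε2, by linarith, hV p, hV G, ?_, ?_, ?_, ?_, ?_⟩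
  · have := (L.restrictScalars ℝ).hasFDerivAt.comp_hasDerivAt (0 : ℝ) hd
    refine this.congr_of_eventuallyEq (Eventually.of_forall fun s => ?_)
    exact Δ.approx_mul_S hL s p
  · refine abs_le_of_sq_le_sq' ((happ p 1 hp).trans ?_) hη.le |>.2
    have : m ≤ 4 * (m + 1) ^ 2 * (c ^ 2 + 1) := by nlinarith [sq_nonneg c, sq_nonneg (m + 1)]
    nlinarith
  · refine abs_le_of_sq_le_sq' ((happ G c hG).trans ?_) hη.le |>.2
    have : c ^ 2 * m ≤ 4 * (m + 1) ^ 2 * (c ^ 2 + 1) := by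
      nlinarith [sq_nonneg c, sq_nonneg (m + 1), mul_nonneg (sq_nonneg c) hm0,
        mul_nonneg (sq_nonneg c) (sq_nonneg m)]
    nlinarith
  · change ‖Δ.opK ε (Δ.opS ε (L p)) - L p‖ ≤ η * ε
    calc _ ≤ κ * ε ^ 2 := hX.trans hX'
      _ = κ * ε * ε := by ring
      _ ≤ _ := by gcongr
  · change ‖Δ.opK ε (Δ.opS ε (L p)) - L p‖ * ‖Δ.opK (ε * Complex.I) (L p) - L p‖ ≤ η * ε ^ 2
    calc _ ≤ √(m * A) * (√(m * B) + ‖Δ.opK (ε * Complex.I) p - p‖) := by gcongr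
      _ = √(m * A) * √(m * B) + √(m * A) * ‖Δ.opK (ε * Complex.I) p - p‖ := by ring
      _ ≤ η / 2 * ε ^ 2 + κ * ε ^ 2 * ‖Δ.opK (ε * Complex.I) p - p‖ := by gcongr
      _ = η / 2 * ε ^ 2 + κ * ‖Δ.opK (ε * Complex.I) p - p‖ * ε ^ 2 := by ring
      _ ≤ η / 2 * ε ^ 2 + η / 2 * ε ^ 2 := by gcongr
      _ = _ := by ring

end Tri

end Crest.Agent.R103
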