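import Crest.Agent.R103.Traj

/-! Row 103: explicit approximations of the flow. -/

set_option autoImplicit false
set_option linter.unusedVariables false

noncomputable section

open MeasureTheory Set Filter Topology
open scoped ComplexConjugate

namespace Crest.Agent.R103

namespace Tri

variable (Δ : Tri)

/-- Two-sided iterates of the step `a`. -/
def it (a : ℝ) (k : ℤ) (m : M) : M :=
  if 0 ≤ k then (Δ.τ a)^[k.toNat] m else (Δ.τ ((-a : ℝ) : ℂ))^[(-k).toNat] m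
/-- The explicit approximate flow with step `a`. -/
def apx (a t : ℝ) (m : M) : M := Δ.τ ((t - ⌊t / a⌋ * a : ℝ) : ℂ) (Δ.it a ⌊t / a⌋ m)
/-- Points whose first `k` forward and backward iterates are safe. -/
def G (a : ℝ) (k : ℕ) : Set M :=
  Δ.Sig ∩ ({m | ∀ j < k, (Δ.τ a)^[j] m ∈ {m : M | 16 * |a| < Δ.d m.1}} ∩
    {m | ∀ j < k, (Δ.τ ((-a : ℝ) : ℂ))^[j] m ∈ {m : M | 16 * |a| < Δ.d m.1}})

lemma measurableSet_G (a : ℝ) (k : ℕ) : MeasurableSet (Δ.G a k) := by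
  have h1 : MeasurableSet {m : M | 16 * |a| < Δ.d m.1} :=
    (isOpen_lt continuous_const (Δ.continuous_d.comp continuous_fst)).measurableSet
  have h2 : ∀ w : ℂ, MeasurableSet
      {m | ∀ j < k, (Δ.τ w)^[j] m ∈ {m : M | 16 * |a| < Δ.d m.1}} := by
    intro w
    simp only [ofPred_forall]
    exact MeasurableSet.iInter fun j => MeasurableSet.iInter fun _ =>
      (Δ.measurable_τ' w).iterate j h1
  exact Δ.measurableSet_Sig.inter ((h2 _).inter (h2 _))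
lemma apx_meas_it (a : ℝ) : Measurable fun q : M × ℤ => Δ.it a q.2 q.1 := by
  refine measurable_from_prod_countable_left fun k => ?_
  by_cases hk : 0 ≤ k
  · simp only [it, if_pos hk]
    exact (Δ.measurable_τ' _).iterate _
  · simp only [it, if_neg hk]
    exact (Δ.measurable_τ' _).iterate _

/-- Countably many measurable branches (`measurable_from_prod_countable`-style or
`Measurable.find`; `Int.measurable_floor`). -/
lemma measurable_apx (a : ℝ) : Measurable fun p : ℝ × M => Δ.apx a p.1 p.2 := by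
  have h2 : Measurable fun p : ℝ × M => ⌊p.1 / a⌋ :=
    Int.measurable_floor.comp (measurable_fst.div_const a)
  have h3 : Measurable fun p : ℝ × M => ((p.1 - ⌊p.1 / a⌋ * a : ℝ) : ℂ) :=
    Complex.measurable_ofReal.comp (measurable_fst.sub
      (((measurable_of_countable fun k : ℤ => (k : ℝ)).comp h2).mul_const a))
  have h4 := (Δ.apx_meas_it a).comp (measurable_snd.prodMk h2)
  have h5 := Δ.measurable_τ.comp (h3.prodMk h4)
  simpa only [apx, Function.comp_def] using h5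
lemma apx_zero {a : ℝ} {m : M} (h : m ∈ Δ.Sig) : Δ.apx a 0 m = m := by
  simpa [apx, it] using Δ.τ_zero h
lemma apx_it_nat (a : ℝ) (j : ℕ) (m : M) : Δ.it a j m = (Δ.τ a)^[j] m := by
  simp [it]
lemma apx_it_neg (a : ℝ) (j : ℕ) (m : M) : Δ.it a (-j) m = (Δ.τ ((-a : ℝ) : ℂ))^[j] m := by
  rcases Nat.eq_zero_or_pos j with rfl | hj
  · simp [it]
  · rw [it, if_neg (by omega), neg_neg, Int.toNat_natCast]
lemma apx_iter_Sig {b : ℝ} {k : ℕ} {m : M} (h : m ∈ Δ.Sig)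
    (hd : ∀ j < k, 16 * |b| < Δ.d ((Δ.τ b)^[j] m).1) : ∀ j ≤ k, (Δ.τ b)^[j] m ∈ Δ.Sig := by
  intro j hj
  induction j with
  | zero => exact h
  | succ j ih =>
    rw [Function.iterate_succ_apply']
    have h1 := ih (by omega)
    refine Δ.τ_mem_Sig (Δ.Cl_of_Sig h1) ?_ (Δ.ND_of_Sig h1 b)
    rw [Complex.norm_real, Real.norm_eq_abs]
    linarith [hd j (by omega), abs_nonneg b]
lemma apx_it {a : ℝ} {k : ℕ} {m : M} (h : m ∈ Δ.G a k) {i : ℤ} (hi : i.natAbs < k) :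
    Δ.it a i m ∈ Δ.Sig ∧ 16 * |a| < Δ.d (Δ.it a i m).1 := by
  obtain ⟨j, rfl | rfl⟩ := Int.eq_nat_or_neg i
  · rw [apx_it_nat]
    rw [Int.natAbs_natCast] at hi
    exact ⟨Δ.apx_iter_Sig h.1 h.2.1 j hi.le, h.2.1 j hi⟩
  · rw [apx_it_neg]
    rw [Int.natAbs_neg, Int.natAbs_natCast] at hi
    exact ⟨Δ.apx_iter_Sig h.1 (fun l hl => by rw [abs_neg]; exact h.2.2 l hl) j hi.le, h.2.2 j hi⟩
lemma apx_it_succ {a : ℝ} {k : ℕ} {m : M} (h : m ∈ Δ.G a k) {i : ℤ} (hi : i.natAbs < k) :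
    Δ.it a (i + 1) m = Δ.τ a (Δ.it a i m) := by
  rcases le_or_gt 0 i with h0 | h0
  · obtain ⟨j, rfl⟩ := Int.eq_ofNat_of_zero_le h0
    rw [← Nat.cast_succ, apx_it_nat, apx_it_nat, Function.iterate_succ_apply']
  · obtain ⟨j, hj⟩ : ∃ j : ℕ, i + 1 = -j := ⟨(-(i + 1)).toNat, by omega⟩
    obtain ⟨h1, h2⟩ := Δ.apx_it h (i := i + 1) (by omega)
    have e : i = -((j + 1 : ℕ) : ℤ) := by omega
    have e1 := Δ.τ_neg_τ (w := ((-a : ℝ) : ℂ)) h1
      (by rwa [Complex.norm_real, Real.norm_eq_abs, abs_neg])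
    rw [← Complex.ofReal_neg, neg_neg] at e1
    rw [← e1, hj, e, apx_it_neg, apx_it_neg, Function.iterate_succ_apply']

/-- For `|i| < k` the points `it a i m` are safe and in `Sig`, and `it a (i+1) m = τ a (it a i m)`
(`τ_neg_τ` for negative `i`).  Hence (by `τ_τ`) `apx a t m = τ (t - i a) (it a i m)` for
`t ∈ ((i-1) a, (i+1) a)`; conclude with `trajOn_τ` (`r = 2a`), `IsTrajOn.shift` and
`isTrajOn_of_local`. -/
lemma trajOn_apx {a : ℝ} (ha : 0 < a) {k : ℕ} {m : M} (h : m ∈ Δ.G a (k + 2)) :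
    Δ.IsTrajOn (fun t => Δ.apx a t m) (Ioo (-(k * a)) (k * a)) := by
  refine Δ.isTrajOn_of_local fun s hs => ?_
  set i := ⌊s / a⌋ with hi
  have h1 : (i : ℝ) * a ≤ s := (le_div_iff₀ ha).1 (Int.floor_le _)
  have h2 : s < (i + 1 : ℝ) * a := (div_lt_iff₀ ha).1 (Int.lt_floor_add_one _)
  have h3 : i < k := by
    have : (i : ℝ) < k := lt_of_mul_lt_mul_right (h1.trans_lt hs.2) ha.le
    exact_mod_cast this
  have h4 : -(k : ℤ) < i + 1 := by
    have : (-k : ℝ) < i + 1 := lt_of_mul_lt_mul_right (by linarith [hs.1]) ha.le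
    exact_mod_cast this
  obtain ⟨hS, hd⟩ := Δ.apx_it h (i := i) (by omega)
  obtain ⟨hS', hd'⟩ := Δ.apx_it h (i := i - 1) (by omega)
  rw [abs_of_pos ha] at hd hd'
  refine ⟨_, _, ?_, (Δ.trajOn_τ hS (r := 2 * a) (by linarith)).shift (-(i * a)), ?_⟩
  · exact ⟨by linarith, by linarith⟩
  · filter_upwards [Ioo_mem_nhds (show (i - 1 : ℝ) * a < s by linarith) h2] with t ht
    rcases le_or_gt ((i : ℝ) * a) t with h5 | h5
    · have e : ⌊t / a⌋ = i := Int.floor_eq_iff.2 ⟨(le_div_iff₀ ha).2 h5, (div_lt_iff₀ ha).2 ht.2⟩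
      rw [apx, e, neg_add_eq_sub]
    · have e : ⌊t / a⌋ = i - 1 := Int.floor_eq_iff.2 ⟨(le_div_iff₀ ha).2 (by push_cast; exact ht.1.le),
        (div_lt_iff₀ ha).2 (by push_cast; linarith)⟩
      have e1 := Δ.apx_it_succ h (i := i - 1) (by omega)
      rw [sub_add_cancel] at e1
      rw [apx, e, e1, Δ.τ_τ (Δ.Cl_of_Sig hS') ?_ ?_, ← Complex.ofReal_add]
      · congr 2
        push_cast
        ring
      · rw [Complex.norm_real, Complex.norm_real, Real.norm_of_nonneg ha.le,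
          Real.norm_of_nonpos (by linarith)]
        linarith [ht.1]
      · rw [← Complex.ofReal_add]
        exact Δ.ND_of_Sig hS' _
lemma apx_iter_eq {γ : ℝ → M} (h : Δ.IsTraj γ) {b : ℝ} {k : ℕ}
    (hd : ∀ j < k, 16 * |b| < Δ.d (γ (j * b)).1) :
    ∀ j < k, 16 * |b| < Δ.d ((Δ.τ b)^[j] (γ 0)).1 := by
  have e : ∀ j < k, (Δ.τ b)^[j] (γ 0) = γ (j * b) := by
    intro j hj
    induction j with
    | zero => simp
    | succ j ih =>
      rw [Function.iterate_succ_apply', ih (by omega), Nat.cast_succ, add_one_mul, h.eq_τ]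
      linarith [hd j (by omega), abs_nonneg b]
  intro j hj
  rw [e j hj]
  exact hd j hj
lemma apx_ev {m : M} (h : m ∈ Δ.Ω) (N : ℕ) :
    ∀ᶠ n : ℕ in atTop, m ∈ Δ.G (1 / (n + 1 : ℝ)) (N * (n + 1) + 2) := by
  have hS := Δ.Sig_of_Ω h
  obtain ⟨γ, hγ, rfl⟩ := h
  obtain ⟨s, -, hs⟩ := (isCompact_Icc (a := -(N + 2 : ℝ)) (b := N + 2)).exists_isMinOn
    ⟨0, by constructor <;> linarith [(Nat.cast_nonneg N : (0 : ℝ) ≤ N)]⟩
    (Δ.continuous_d.comp hγ.continuous_pos).continuousOn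
  have h0 : 0 < Δ.d (γ s).1 := (hγ s trivial).2.1
  have h1 : Tendsto (fun n : ℕ => 16 * (1 / (n + 1 : ℝ))) atTop (𝓝 (16 * 0)) :=
    tendsto_one_div_add_atTop_nhds_zero_nat.const_mul 16
  filter_upwards [h1.eventually_lt_const (by simpa using h0)] with n hn
  have hp : (0 : ℝ) < n + 1 := by positivity
  have key : ∀ b : ℝ, |b| = 1 / (n + 1 : ℝ) → ∀ j < N * (n + 1) + 2,
      16 * |b| < Δ.d ((Δ.τ b)^[j] (γ 0)).1 := by
    intro b hb
    refine Δ.apx_iter_eq hγ fun j hj => ?_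
    rw [hb]
    refine hn.trans_le (hs (abs_le.1 ?_))
    have : (j : ℝ) ≤ N * (n + 1) + 2 := by exact_mod_cast hj.le
    rw [abs_mul, hb, Nat.abs_cast, mul_one_div, div_le_iff₀ hp]
    nlinarith [(Nat.cast_nonneg n : (0 : ℝ) ≤ n)]
  have ha : |1 / (n + 1 : ℝ)| = 1 / (n + 1 : ℝ) := abs_of_pos (by positivity)
  refine ⟨hS, key _ ha, fun j hj => ?_⟩
  have := key (-(1 / (n + 1 : ℝ))) (by rw [abs_neg, ha]) j hj
  rwa [abs_neg] at this

/-- `⊆`: `d` is bounded below on the compact piece `[-N-2, N+2]` of the trajectory and the iterates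
are `γ (± j a)` (`IsTraj.eq_τ`).  `⊇`: choose `n N`; the trajectories `apx (1/(n N+1)) · m` on
`(-N, N)` are compatible (`IsTrajOn.unique`, `apx_zero`); put
`γ t = apx (1/(n (⌈|t|⌉₊+1) + 1)) t m` and use `isTrajOn_of_local`. -/
lemma Ω_eq : Δ.Ω = ⋂ N : ℕ, ⋃ n : ℕ, Δ.G (1 / (n + 1 : ℝ)) (N * (n + 1) + 2) := by
  refine Subset.antisymm (fun m h => mem_iInter.2 fun N => mem_iUnion.2 (Δ.apx_ev h N).exists)
    fun m h => ?_
  choose n hn using fun N => mem_iUnion.1 (mem_iInter.1 h N)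
  have hS : m ∈ Δ.Sig := (hn 0).1
  have h1 : ∀ N : ℕ, Δ.IsTrajOn (fun t => Δ.apx (1 / (n N + 1 : ℝ)) t m) (Ioo (-N) N) := by
    intro N
    have := Δ.trajOn_apx (by positivity) (hn N)
    rwa [show ((N * (n N + 1) : ℕ) : ℝ) * (1 / (n N + 1 : ℝ)) = N by push_cast; field_simp] at this
  have h2 : ∀ (N N' : ℕ) (t : ℝ), |t| < N → |t| < N' →
      Δ.apx (1 / (n N + 1 : ℝ)) t m = Δ.apx (1 / (n N' + 1 : ℝ)) t m := by
    intro N N' t ht ht'
    have hI : |t| < min (N : ℝ) N' := lt_min ht ht'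
    have h0 : 0 < min (N : ℝ) N' := (abs_nonneg t).trans_lt hI
    exact IsTrajOn.unique (I := Ioo (-min (N : ℝ) N') (min (N : ℝ) N')) isPreconnected_Ioo
      ((h1 N).mono (Ioo_subset_Ioo (neg_le_neg (min_le_left _ _)) (min_le_left _ _)))
      ((h1 N').mono (Ioo_subset_Ioo (neg_le_neg (min_le_right _ _)) (min_le_right _ _)))
      (s := 0) ⟨by linarith, h0⟩ (by rw [Δ.apx_zero hS, Δ.apx_zero hS]) t (abs_lt.1 hI)
  have h3 : ∀ t : ℝ, |t| < ((⌈|t|⌉₊ + 1 : ℕ) : ℝ) := fun t => by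
    push_cast
    linarith [Nat.le_ceil |t|]
  refine ⟨fun t => Δ.apx (1 / (n (⌈|t|⌉₊ + 1) + 1 : ℝ)) t m,
    Δ.isTrajOn_of_local fun s _ => ⟨_, _, abs_lt.1 (h3 s), h1 _, ?_⟩, Δ.apx_zero hS⟩
  filter_upwards [Ioo_mem_nhds (abs_lt.1 (h3 s)).1 (abs_lt.1 (h3 s)).2] with t ht
  exact h2 _ _ t (h3 t) (abs_lt.2 ht)
/-- Same argument as `⊆` above, for all small steps. -/
lemma eventually_mem_G {m : M} (h : m ∈ Δ.Ω) (N : ℕ) :
    ∀ᶠ n : ℕ in atTop, m ∈ Δ.G (1 / (n + 1 : ℝ)) (N * (n + 1) + 2) := by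
  exact Δ.apx_ev h N
lemma φ_eq_apx {m : M} (h : m ∈ Δ.Ω) {a : ℝ} (ha : 0 < a) {k : ℕ} (hG : m ∈ Δ.G a (k + 2))
    {t : ℝ} (ht : |t| < k * a) : Δ.φ t m = Δ.apx a t m := by
  have h0 : 0 < k * a := (abs_nonneg t).trans_lt ht
  exact IsTrajOn.unique isPreconnected_Ioo ((Δ.isTraj_φ h).mono (subset_univ _))
    (Δ.trajOn_apx ha hG) (s := 0) ⟨by linarith, h0⟩ (by rw [Δ.φ_zero, Δ.apx_zero hG.1]) t
    (abs_lt.1 ht)

end Tri

end Crest.Agent.R103
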