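import Crest.Agent.R103.Alg

/-! Row 103: barycentric coordinates and areas. -/

set_option autoImplicit false
set_option linter.unusedVariables false

noncomputable section

open MeasureTheory Set Filter Topology
open scoped ComplexConjugate

namespace Crest.Agent.R103

namespace Tri

variable (Δ : Tri)

lemma bary_ℓ_seg (j : Fin 3) (a b : ℂ) (s : ℝ) :
    Δ.ℓ j (a + s * (b - a)) = (1 - s) * Δ.ℓ j a + s * Δ.ℓ j b := by
  simp only [ℓ, Complex.mul_re, Complex.sub_re, Complex.sub_im, Complex.add_re, Complex.add_im,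
    Complex.mul_im, Complex.ofReal_re, Complex.ofReal_im]
  ring

lemma bary_ℓ_comb (j : Fin 3) (a b c : ℂ) (s t : ℝ) :
    Δ.ℓ j (a + s * (b - a) + t * (c - a)) =
      (1 - s - t) * Δ.ℓ j a + s * Δ.ℓ j b + t * Δ.ℓ j c := by
  simp only [ℓ, Complex.mul_re, Complex.sub_re, Complex.sub_im, Complex.add_re, Complex.add_im,
    Complex.mul_im, Complex.ofReal_re, Complex.ofReal_im]
  ring

lemma bary_ne_cases {i j : Fin 3} (h : i ≠ j) : i = j + 1 ∨ i = j + 2 := by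
  revert i j
  decide

lemma bary_ℓ_A_ne {i j : Fin 3} (h : i ≠ j) : Δ.ℓ j (Δ.A i) = 0 := by
  rcases bary_ne_cases h with rfl | rfl
  · exact Δ.ℓ_A_succ j
  · exact Δ.ℓ_A_succ_succ j

lemma bary_sum3 {E : Type*} [AddCommMonoid E] (f : Fin 3 → E) (j : Fin 3) :
    ∑ i, f i = f j + f (j + 1) + f (j + 2) := by
  rw [Fin.sum_univ_three]
  fin_cases j
  · rfl
  · show f 0 + f 1 + f 2 = f 1 + f 2 + f 0
    abel
  · show f 0 + f 1 + f 2 = f 2 + f 0 + f 1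
    abel

/-- The three vertices are affinely independent (`h0`, `hpos`), so real affine identities can be
checked on them.  Concretely: `A 1 - A 0`, `A 2 - A 0` is a real basis of `ℂ`. -/
lemma exists_bary (z : ℂ) :
    ∃ s t : ℝ, z = Δ.A 0 + s * (Δ.A 1 - Δ.A 0) + t * (Δ.A 2 - Δ.A 0) := by
  have e1 := Δ.h0 2
  have e2 := Δ.hpos 2
  have e3 := Δ.h0 1
  have e4 := Δ.hpos 1
  have hn := norm_cis (Δ.β 2)
  rw [show (2 : Fin 3) + 2 = 1 from rfl, show (2 : Fin 3) + 1 = 0 from rfl] at e1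
  rw [show (2 : Fin 3) + 1 = 0 from rfl] at e2
  rw [show (1 : Fin 3) + 2 = 0 from rfl, show (1 : Fin 3) + 1 = 2 from rfl] at e3
  rw [show (1 : Fin 3) + 1 = 2 from rfl] at e4
  have hu : Δ.A 1 - Δ.A 0 ≠ 0 := by
    intro h
    rw [sub_eq_zero.1 h] at e4
    exact e4.ne' e3
  set u := Δ.A 1 - Δ.A 0 with hu'
  set w := Δ.A 2 - Δ.A 0 with hw'
  set n := cis (Δ.β 2)
  have hn2 : n.re ^ 2 + n.im ^ 2 = 1 := by
    have := Complex.sq_norm n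
    rw [hn, Complex.normSq_apply] at this
    linarith
  simp only [Complex.mul_re, Complex.conj_re, Complex.conj_im] at e1 e2
  have hD : u.re * w.im - u.im * w.re ≠ 0 := by
    intro hD
    have h1 : (u.im * n.re - u.re * n.im) * (w.re * n.re - w.im * -n.im) = 0 := by
      linear_combination (-(n.re ^ 2 + n.im ^ 2)) * hD + (w.im * n.re - w.re * n.im) * e1
    have h2 : u.im * n.re - u.re * n.im = 0 := (mul_eq_zero.1 h1).resolve_right e2.ne'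
    apply hu
    apply Complex.ext
    · simp only [Complex.zero_re]
      linear_combination n.re * e1 - n.im * h2 - u.re * hn2
    · simp only [Complex.zero_im]
      linear_combination n.im * e1 + n.re * h2 - u.im * hn2
  obtain ⟨D, hD'⟩ : ∃ D, D = u.re * w.im - u.im * w.re := ⟨_, rfl⟩
  rw [← hD'] at hD
  refine ⟨((z - Δ.A 0).re * w.im - (z - Δ.A 0).im * w.re) / D,
    (u.re * (z - Δ.A 0).im - u.im * (z - Δ.A 0).re) / D, ?_⟩
  apply Complex.ext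
  · simp only [Complex.add_re, Complex.mul_re, Complex.ofReal_re, Complex.ofReal_im,
      Complex.sub_re, Complex.sub_im]
    field_simp
    rw [hD']
    ring
  · simp only [Complex.add_im, Complex.mul_im, Complex.ofReal_re, Complex.ofReal_im,
      Complex.sub_re, Complex.sub_im]
    field_simp
    rw [hD']
    ring
lemma bary_coords (z : ℂ) :
    ∃ s t : ℝ, z = Δ.A 0 + s * (Δ.A 1 - Δ.A 0) + t * (Δ.A 2 - Δ.A 0) ∧
      Δ.ℓ 0 z / Δ.ℓ 0 (Δ.A 0) = 1 - s - t ∧ Δ.ℓ 1 z / Δ.ℓ 1 (Δ.A 1) = s ∧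
      Δ.ℓ 2 z / Δ.ℓ 2 (Δ.A 2) = t := by
  obtain ⟨s, t, hz⟩ := Δ.exists_bary z
  refine ⟨s, t, hz, ?_, ?_, ?_⟩
  · rw [div_eq_iff (Δ.ℓ_A_self 0).ne']
    conv_lhs => rw [hz, bary_ℓ_comb]
    rw [Δ.bary_ℓ_A_ne (i := 1) (j := 0) (by decide), Δ.bary_ℓ_A_ne (i := 2) (j := 0) (by decide)]
    ring
  · rw [div_eq_iff (Δ.ℓ_A_self 1).ne']
    conv_lhs => rw [hz, bary_ℓ_comb]
    rw [Δ.bary_ℓ_A_ne (i := 0) (j := 1) (by decide), Δ.bary_ℓ_A_ne (i := 2) (j := 1) (by decide)]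
    ring
  · rw [div_eq_iff (Δ.ℓ_A_self 2).ne']
    conv_lhs => rw [hz, bary_ℓ_comb]
    rw [Δ.bary_ℓ_A_ne (i := 0) (j := 2) (by decide), Δ.bary_ℓ_A_ne (i := 1) (j := 2) (by decide)]
    ring
lemma sum_bary (z : ℂ) : ∑ j, Δ.ℓ j z / Δ.ℓ j (Δ.A j) = 1 := by
  obtain ⟨s, t, -, h0, h1, h2⟩ := Δ.bary_coords z
  rw [Fin.sum_univ_three, h0, h1, h2]
  ring
lemma bary (z : ℂ) : ∑ j, ((Δ.ℓ j z / Δ.ℓ j (Δ.A j) : ℝ) : ℂ) * Δ.A j = z := by
  obtain ⟨s, t, hz, h0, h1, h2⟩ := Δ.bary_coords z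
  rw [Fin.sum_univ_three, h0, h1, h2]
  conv_rhs => rw [hz]
  push_cast
  ring
lemma exists_bound : ∃ R : ℝ, ∀ z, Δ.Cl z → ‖z‖ ≤ R := by
  refine ⟨∑ j, ‖Δ.A j‖, fun z hz => ?_⟩
  have hnn : ∀ j, 0 ≤ Δ.ℓ j z / Δ.ℓ j (Δ.A j) := fun j => div_nonneg (hz j) (Δ.ℓ_A_self j).le
  conv_lhs => rw [← Δ.bary z]
  refine (norm_sum_le _ _).trans (Finset.sum_le_sum fun j _ => ?_)
  rw [norm_mul, Complex.norm_real, Real.norm_eq_abs, abs_of_nonneg (hnn j)]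
  refine mul_le_of_le_one_left (norm_nonneg _) ?_
  rw [← Δ.sum_bary z]
  exact Finset.single_le_sum (f := fun j => Δ.ℓ j z / Δ.ℓ j (Δ.A j)) (fun i _ => hnn i)
    (Finset.mem_univ j)
lemma T_nonempty : Δ.T.Nonempty := by
  refine ⟨Δ.A 0 + ((1 / 3 : ℝ) : ℂ) * (Δ.A 1 - Δ.A 0) + ((1 / 3 : ℝ) : ℂ) * (Δ.A 2 - Δ.A 0),
    fun j => ?_⟩
  rw [bary_ℓ_comb]
  have h : (1 - 1 / 3 - 1 / 3) * Δ.ℓ j (Δ.A 0) + 1 / 3 * Δ.ℓ j (Δ.A 1) + 1 / 3 * Δ.ℓ j (Δ.A 2) =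
      1 / 3 * ∑ i, Δ.ℓ j (Δ.A i) := by
    rw [Fin.sum_univ_three]
    ring
  rw [h, bary_sum3 _ j, Δ.ℓ_A_succ, Δ.ℓ_A_succ_succ]
  have := Δ.ℓ_A_self j
  linarith
lemma volume_T_pos : 0 < volume Δ.T := Δ.isOpen_T.measure_pos volume Δ.T_nonempty
lemma volume_T_lt_top : volume Δ.T < ⊤ := by
  obtain ⟨R, hR⟩ := Δ.exists_bound
  refine lt_of_le_of_lt (measure_mono (t := Metric.closedBall (0 : ℂ) R) fun z hz => ?_)
    measure_closedBall_lt_top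
  rw [mem_closedBall_zero_iff]
  exact hR z fun j => (hz j).le
lemma bary_near (k : Fin 3) {z : ℂ} {r : ℝ} (hz : z ∈ Δ.T) (hr : 0 < r)
    (h : ∀ i, i ≠ k → Δ.ℓ i z ≤ r) :
    ‖z - Δ.A k‖ ≤ (∑ k', ∑ i, ‖Δ.A i - Δ.A k'‖ / Δ.ℓ i (Δ.A i)) * r := by
  have h1 : z - Δ.A k = ∑ i, ((Δ.ℓ i z / Δ.ℓ i (Δ.A i) : ℝ) : ℂ) * (Δ.A i - Δ.A k) := by
    simp only [mul_sub, Finset.sum_sub_distrib]
    rw [Δ.bary z, ← Finset.sum_mul, ← Complex.ofReal_sum, Δ.sum_bary z]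
    simp
  have h2 : ‖z - Δ.A k‖ ≤ (∑ i, ‖Δ.A i - Δ.A k‖ / Δ.ℓ i (Δ.A i)) * r := by
    rw [h1, Finset.sum_mul]
    refine (norm_sum_le _ _).trans (Finset.sum_le_sum fun i _ => ?_)
    by_cases hi : i = k
    · subst hi
      simp
    · have hp := Δ.ℓ_A_self i
      rw [norm_mul, Complex.norm_real, Real.norm_eq_abs, abs_of_nonneg (div_pos (hz i) hp).le]
      calc Δ.ℓ i z / Δ.ℓ i (Δ.A i) * ‖Δ.A i - Δ.A k‖
          ≤ r / Δ.ℓ i (Δ.A i) * ‖Δ.A i - Δ.A k‖ := by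
            gcongr
            exact h i hi
        _ = _ := by ring
  refine h2.trans (mul_le_mul_of_nonneg_right ?_ hr.le)
  exact Finset.single_le_sum (f := fun k' => ∑ i, ‖Δ.A i - Δ.A k'‖ / Δ.ℓ i (Δ.A i))
    (fun k' _ => Finset.sum_nonneg fun i _ => div_nonneg (norm_nonneg _) (Δ.ℓ_A_self i).le)
    (Finset.mem_univ k)

lemma bary_side (j : Fin 3) {s : ℝ} (hs : s ∈ Ioo (0 : ℝ) 1) :
    Δ.ℓ j (Δ.A (j + 1) + s * (Δ.A (j + 2) - Δ.A (j + 1))) = 0 ∧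
      ∀ i, i ≠ j → 0 < Δ.ℓ i (Δ.A (j + 1) + s * (Δ.A (j + 2) - Δ.A (j + 1))) := by
  refine ⟨by rw [bary_ℓ_seg, Δ.ℓ_A_succ, Δ.ℓ_A_succ_succ]; ring, fun i hi => ?_⟩
  have h12 : j + 1 ≠ j + 2 := (by decide : ∀ j : Fin 3, j + 1 ≠ j + 2) j
  rw [bary_ℓ_seg]
  rcases bary_ne_cases hi with rfl | rfl
  · rw [Δ.bary_ℓ_A_ne h12.symm]
    have := mul_pos (sub_pos.2 hs.2) (Δ.ℓ_A_self (j + 1))
    linarith
  · rw [Δ.bary_ℓ_A_ne h12]
    have := mul_pos hs.1 (Δ.ℓ_A_self (j + 2))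
    linarith

/-- If `ℓ i z + ℓ j z ≤ r` (`i ≠ j`) then by `bary` `z` is within `C r` of the third vertex. -/
lemma volume_d_le : ∃ C : ℝ, 0 < C ∧ ∀ r : ℝ, 0 < r →
    volume {z | z ∈ Δ.T ∧ Δ.d z ≤ r} ≤ ENNReal.ofReal (C * r ^ 2) := by
  set K := ∑ k', ∑ i, ‖Δ.A i - Δ.A k'‖ / Δ.ℓ i (Δ.A i) with hK
  have hK0 : 0 ≤ K := Finset.sum_nonneg fun k' _ => Finset.sum_nonneg fun i _ =>
    div_nonneg (norm_nonneg _) (Δ.ℓ_A_self i).le
  refine ⟨3 * Real.pi * K ^ 2 + 1, by positivity, fun r hr => ?_⟩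
  have hsub : {z | z ∈ Δ.T ∧ Δ.d z ≤ r} ⊆ ⋃ k, Metric.closedBall (Δ.A k) (K * r) := by
    rintro z ⟨hz, hd⟩
    have h1 : ¬ r < Δ.d z := not_lt.2 hd
    rw [lt_d_iff] at h1
    push Not at h1
    obtain ⟨i, j, hij, h⟩ := h1
    obtain ⟨k, hk⟩ :=
      (by decide : ∀ i j : Fin 3, i ≠ j → ∃ k : Fin 3, ∀ l, l ≠ k → l = i ∨ l = j) i j hij
    refine mem_iUnion.2 ⟨k, ?_⟩
    rw [mem_closedBall_iff_norm]
    refine Δ.bary_near k hz hr fun l hl => ?_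
    have hi := hz i
    have hj := hz j
    rcases hk l hl with rfl | rfl <;> linarith
  refine (measure_mono hsub).trans ((measure_iUnion_fintype_le _ _).trans ?_)
  simp only [Complex.volume_closedBall, Finset.sum_const, Finset.card_univ, Fintype.card_fin,
    nsmul_eq_mul]
  have hpi : ((NNReal.pi : NNReal) : ENNReal) = ENNReal.ofReal Real.pi := by
    rw [← NNReal.coe_real_pi, ENNReal.ofReal_coe_nnreal]
  rw [hpi, ← ENNReal.ofReal_pow (by positivity), ← ENNReal.ofReal_mul (by positivity),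
    ← ENNReal.ofReal_natCast, ← ENNReal.ofReal_mul (by positivity)]
  apply ENNReal.ofReal_le_ofReal
  push_cast
  nlinarith [sq_nonneg r]
/-- Near the midpoint `p` of side `j`: `x = p + δ ν j`, `v = -2δ ν j`. -/
lemma exists_cross (κ : ℝ) (j : Fin 3) :
    ∃ x ∈ Δ.T, ∃ v : ℂ, κ * ‖v‖ < Δ.d x ∧ Δ.ℓ j (x + v) < 0 := by
  obtain ⟨hp0, hp1⟩ := Δ.bary_side j (s := 1 / 2) ⟨by norm_num, by norm_num⟩
  set p := Δ.A (j + 1) + ((1 / 2 : ℝ) : ℂ) * (Δ.A (j + 2) - Δ.A (j + 1))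
  have hd : 0 < Δ.d p := by
    rw [lt_d_iff]
    intro i i' hii
    by_cases hi : i = j
    · subst hi
      rw [hp0, zero_add]
      exact hp1 i' hii.symm
    · by_cases hi' : i' = j
      · subst hi'
        rw [hp0, add_zero]
        exact hp1 i hi
      · exact add_pos (hp1 i hi) (hp1 i' hi')
  set δ := Δ.d p / (2 * |κ| + 3) with hδ
  have hκ := abs_nonneg κ
  have hδ0 : 0 < δ := div_pos hd (by positivity)
  have hδ1 : δ * (2 * |κ| + 3) = Δ.d p := div_mul_cancel₀ _ (by positivity)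
  have hνν : (Δ.ν j * conj (Δ.ν j)).re = 1 := by
    rw [ν, cis_mul_conj, Complex.one_re]
  have hn : ∀ a : ℝ, ‖(a : ℂ) * Δ.ν j‖ = |a| := fun a => by
    rw [norm_mul, Δ.norm_ν, Complex.norm_real, Real.norm_eq_abs, mul_one]
  have hℓ : ∀ (y : ℂ) (a : ℝ), Δ.ℓ j (y + (a : ℂ) * Δ.ν j) = Δ.ℓ j y + a := fun y a => by
    rw [ℓ_add, mul_assoc, Complex.re_ofReal_mul, hνν, mul_one]
  have hx : ‖p + (δ : ℂ) * Δ.ν j - p‖ = δ := by
    rw [add_sub_cancel_left, hn, abs_of_pos hδ0]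
  refine ⟨p + (δ : ℂ) * Δ.ν j, fun i => ?_, ((-2 * δ : ℝ) : ℂ) * Δ.ν j, ?_, ?_⟩
  · by_cases hi : i = j
    · subst hi
      rw [hℓ, hp0, zero_add]
      exact hδ0
    · have h1 := Δ.ℓ_lip i (p + (δ : ℂ) * Δ.ν j) p
      have h2 := Δ.d_le p hi
      rw [hx, abs_le] at h1
      rw [hp0] at h2
      nlinarith [h1.1]
  · have h1 := Δ.d_lip (p + (δ : ℂ) * Δ.ν j) p
    rw [hx, abs_le] at h1
    rw [hn, abs_of_neg (by linarith)]
    have h2 : κ * δ ≤ |κ| * δ := mul_le_mul_of_nonneg_right (le_abs_self κ) hδ0.le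
    nlinarith [h1.1]
  · rw [hℓ, hℓ, hp0]
    linarith
/-- Points of the open side `j`. -/
lemma side_iff (j : Fin 3) (z : ℂ) :
    (Δ.ℓ j z = 0 ∧ ∀ i, i ≠ j → 0 < Δ.ℓ i z) ↔
      ∃ s ∈ Ioo (0 : ℝ) 1, z = Δ.A (j + 1) + s * (Δ.A (j + 2) - Δ.A (j + 1)) := by
  constructor
  · rintro ⟨h0, h1⟩
    have hj1 : j + 1 ≠ j := (by decide : ∀ j : Fin 3, j + 1 ≠ j) j
    have hj2 : j + 2 ≠ j := (by decide : ∀ j : Fin 3, j + 2 ≠ j) j
    have hs := Δ.sum_bary z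
    have hb := Δ.bary z
    rw [bary_sum3 _ j, h0, zero_div, zero_add] at hs
    rw [bary_sum3 _ j, h0, zero_div, Complex.ofReal_zero, zero_mul, zero_add] at hb
    have p1 := div_pos (h1 _ hj1) (Δ.ℓ_A_self (j + 1))
    have p2 := div_pos (h1 _ hj2) (Δ.ℓ_A_self (j + 2))
    refine ⟨Δ.ℓ (j + 2) z / Δ.ℓ (j + 2) (Δ.A (j + 2)), ⟨p2, by linarith⟩, ?_⟩
    rw [eq_sub_of_add_eq hs] at hb
    conv_lhs => rw [← hb]
    push_cast
    ring
  · rintro ⟨s, hs, rfl⟩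
    exact Δ.bary_side j hs

end Tri

end Crest.Agent.R103
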