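import Crest.Agent.R103.Deriv

/-! Row 103: box averages are differentiable. -/

set_option autoImplicit false
set_option linter.unusedVariables false
set_option linter.unusedSectionVars false

noncomputable section

open MeasureTheory Set Filter Topology
open scoped ComplexConjugate InnerProductSpace

namespace Crest.Agent.R103

variable {H : Type*} [NormedAddCommGroup H] [InnerProductSpace ℂ H] [CompleteSpace H]

/-- clamp to `[-r, r]` -/
def box_cl (r x : ℝ) : ℝ := max (-r) (min x r)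

lemma box_cl_cont (r : ℝ) : Continuous (box_cl r) := by
  unfold box_cl
  fun_prop

lemma box_cl_abs {r : ℝ} (hr : 0 ≤ r) (x : ℝ) : |box_cl r x| ≤ r :=
  abs_le.mpr ⟨le_max_left _ _, max_le (by linarith) (min_le_right _ _)⟩

lemma box_cl_eq {r x : ℝ} (hx : |x| ≤ r) : box_cl r x = x := by
  unfold box_cl
  rw [min_eq_left (abs_le.mp hx).2, max_eq_right (abs_le.mp hx).1]

lemma box_norm (a b : ℝ) : ‖(a : ℂ) + b * Complex.I‖ ≤ |a| + |b| := by
  refine (norm_add_le _ _).trans ?_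
  simp

lemma box_abs_le {ε a : ℝ} (ha : a ∈ uIcc 0 ε) : |a| ≤ |ε| := by
  have := abs_sub_left_of_mem_uIcc ha
  simpa using this

lemma box_int_mem {V : Submodule ℂ H} (hV : IsClosed (V : Set H)) {g : ℝ → H} {ε : ℝ}
    (hg : ∀ x ∈ uIcc 0 ε, g x ∈ V) : ∫ x in (0 : ℝ)..ε, g x ∈ V := by
  by_cases hi : IntervalIntegrable g volume 0 ε
  · have : CompleteSpace V := hV.completeSpace_coe
    rw [← Submodule.starProjection_eq_self_iff, ← V.starProjection.intervalIntegral_comp_comm hi]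
    exact intervalIntegral.integral_congr fun x hx =>
      Submodule.starProjection_eq_self_iff.mpr (hg x hx)
  · rw [intervalIntegral.integral_undef hi]
    exact V.zero_mem

lemma box_inner_cont {G : ℝ × ℝ → H} (hG : Continuous G) (ε : ℝ) :
    Continuous fun a : ℝ => ∫ b in (0 : ℝ)..ε, G (a, b) :=
  intervalIntegral.continuous_parametric_intervalIntegral_of_continuous'
    (f := fun a b => G (a, b)) hG 0 ε

lemma box_clm {G : ℝ × ℝ → H} (hG : Continuous G) (L : H →L[ℂ] H) (ε₁ ε₂ : ℝ) :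
    L (∫ a in (0 : ℝ)..ε₁, ∫ b in (0 : ℝ)..ε₂, G (a, b)) =
      ∫ a in (0 : ℝ)..ε₁, ∫ b in (0 : ℝ)..ε₂, L (G (a, b)) := by
  rw [← L.intervalIntegral_comp_comm ((box_inner_cont hG ε₂).intervalIntegrable _ _)]
  refine intervalIntegral.integral_congr fun a _ => ?_
  exact (L.intervalIntegral_comp_comm
    ((hG.comp (continuous_const.prodMk continuous_id)).intervalIntegrable _ _)).symm

lemma box_swap {G : ℝ × ℝ → H} (hG : Continuous G) (ε₁ ε₂ : ℝ) :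
    ∫ a in (0 : ℝ)..ε₁, ∫ b in (0 : ℝ)..ε₂, G (a, b) =
      ∫ b in (0 : ℝ)..ε₂, ∫ a in (0 : ℝ)..ε₁, G (a, b) :=
  intervalIntegral_intervalIntegral_swap (F := fun a b => G (a, b))
    ((hG.continuousOn.integrableOn_compact (isCompact_uIcc.prod isCompact_uIcc)).mono_set
      (prod_mono uIoc_subset_uIcc uIoc_subset_uIcc))

lemma box_shift {G : ℝ × ℝ → H} (hG : Continuous G) (ε₁ ε₂ : ℝ) :
    HasDerivAt (fun t : ℝ => ∫ a in (0 : ℝ)..ε₁, ∫ b in (0 : ℝ)..ε₂, G (a + t, b))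
      (∫ b in (0 : ℝ)..ε₂, (G (ε₁, b) - G (0, b))) 0 := by
  have hΦ := box_inner_cont hG ε₂
  set Φ : ℝ → H := fun a => ∫ b in (0 : ℝ)..ε₂, G (a, b) with hΦdef
  have e1 : (fun t : ℝ => ∫ a in (0 : ℝ)..ε₁, ∫ b in (0 : ℝ)..ε₂, G (a + t, b)) =
      fun t : ℝ => (∫ a in (0 : ℝ)..(ε₁ + t), Φ a) - ∫ a in (0 : ℝ)..t, Φ a := by
    funext t
    rw [intervalIntegral.integral_interval_sub_left (hΦ.intervalIntegrable _ _)
      (hΦ.intervalIntegrable _ _)]
    have := intervalIntegral.integral_comp_add_right (a := 0) (b := ε₁) Φ t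
    rw [zero_add] at this
    exact this
  have e2 : ∫ b in (0 : ℝ)..ε₂, (G (ε₁, b) - G (0, b)) = Φ ε₁ - Φ 0 :=
    intervalIntegral.integral_sub
      ((hG.comp (continuous_const.prodMk continuous_id)).intervalIntegrable _ _)
      ((hG.comp (continuous_const.prodMk continuous_id)).intervalIntegrable _ _)
  rw [e1, e2]
  refine HasDerivAt.sub ?_ (hΦ.integral_hasStrictDerivAt 0 0).hasDerivAt
  have h1 := (hΦ.integral_hasStrictDerivAt 0 (ε₁ + 0)).hasDerivAt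
  have h2 := h1.comp_const_add ε₁ 0
  rw [add_zero] at h2
  exact h2

namespace Rep

variable (ρ : Rep H)

lemma box_S_cont : Continuous fun x : ℝ × H => ρ.S x.1 x.2 :=
  continuous_prod_of_continuous_lipschitzWith' _ 1
    (fun a => LipschitzWith.of_dist_le_mul fun p q => by
      rw [dist_eq_norm, dist_eq_norm, ← map_sub, ρ.norm_S]
      simp)
    fun p => ρ.S_cont p

/-- `K (w + w') f = K w' (K w f)` and `K_cont`. -/
lemma continuousOn_K {σ : ℝ} {f : H} (hf : f ∈ ρ.V σ) :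
    ContinuousOn (fun w => ρ.K w f) (Metric.ball 0 (σ / 20)) := by
  intro w₀ hw₀
  refine ContinuousAt.continuousWithinAt ?_
  have h0 : ‖w₀‖ < σ / 20 := by simpa using hw₀
  have h1 : Tendsto (fun w : ℂ => w - w₀) (𝓝 w₀) (𝓝 0) := by
    have : Tendsto (fun w : ℂ => w - w₀) (𝓝 w₀) (𝓝 (w₀ - w₀)) := tendsto_id.sub_const w₀
    rwa [sub_self] at this
  refine ((ρ.K_cont (ρ.K w₀ f)).comp h1).congr' ?_
  filter_upwards [Metric.ball_mem_nhds w₀ (sub_pos.mpr h0)] with w hw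
  rw [Metric.mem_ball, dist_eq_norm] at hw
  show ρ.K (w - w₀) (ρ.K w₀ f) = ρ.K w f
  rw [ρ.K_add hf (by linarith), add_sub_cancel]
lemma continuousOn_KS {σ : ℝ} (θ : ℝ) {f : H} (hf : f ∈ ρ.V σ) :
    ContinuousOn (fun z : ℝ × ℝ => ρ.K (z.1 + z.2 * Complex.I) (ρ.S (θ * z.1) f))
      {z | |z.1| + |z.2| < σ / 20} := by
  have h1 : ContinuousOn (fun z : ℝ × ℝ => ρ.K (z.1 + z.2 * Complex.I) f)
      {z | |z.1| + |z.2| < σ / 20} :=
    (ρ.continuousOn_K hf).comp (f := fun z : ℝ × ℝ => (z.1 : ℂ) + z.2 * Complex.I) (by fun_prop)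
      fun z hz => by
        rw [Metric.mem_ball, dist_zero_right]
        exact (box_norm _ _).trans_lt hz
  have h2 : ContinuousOn (fun z : ℝ × ℝ => θ * z.1) {z | |z.1| + |z.2| < σ / 20} := by fun_prop
  refine (ρ.box_S_cont.comp_continuousOn (h2.prodMk h1)).congr fun z _ => ?_
  exact ρ.K_S _ _ _

/-- the integrand with clamped translation vector -/
def boxG (σ θ : ℝ) (f : H) (z : ℝ × ℝ) : H :=
  ρ.K (box_cl (σ / 50) z.1 + box_cl (σ / 50) z.2 * Complex.I) (ρ.S (θ * z.1) f)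

lemma boxG_cont {σ : ℝ} (hσ : 0 < σ) (θ : ℝ) {f : H} (hf : f ∈ ρ.V σ) :
    Continuous (ρ.boxG σ θ f) := by
  have hc := box_cl_cont (σ / 50)
  have h1 : Continuous fun z : ℝ × ℝ =>
      ρ.K (box_cl (σ / 50) z.1 + box_cl (σ / 50) z.2 * Complex.I) f :=
    (ρ.continuousOn_K hf).comp_continuous
      (f := fun z : ℝ × ℝ => (box_cl (σ / 50) z.1 : ℂ) + box_cl (σ / 50) z.2 * Complex.I)
      (by fun_prop) fun z => by
        rw [Metric.mem_ball, dist_zero_right]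
        have h2 := box_cl_abs (r := σ / 50) (by positivity) z.1
        have h3 := box_cl_abs (r := σ / 50) (by positivity) z.2
        exact (box_norm _ _).trans_lt (by linarith)
  have h2 : Continuous fun z : ℝ × ℝ => θ * z.1 := by fun_prop
  refine (ρ.box_S_cont.comp (h2.prodMk h1)).congr fun z => ?_
  exact (ρ.K_S _ _ _).symm

lemma boxG_eq {σ a b : ℝ} (θ : ℝ) (f : H) (ha : |a| ≤ σ / 50) (hb : |b| ≤ σ / 50) :
    ρ.boxG σ θ f (a, b) = ρ.K (a + b * Complex.I) (ρ.S (θ * a) f) := by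
  unfold boxG
  rw [box_cl_eq ha, box_cl_eq hb]

lemma box_eq {σ ε₁ ε₂ : ℝ} (θ : ℝ) (f : H) (h : 100 * (|ε₁| + |ε₂|) < σ) :
    ρ.box θ ε₁ ε₂ f = ∫ a in (0 : ℝ)..ε₁, ∫ b in (0 : ℝ)..ε₂, ρ.boxG σ θ f (a, b) := by
  refine intervalIntegral.integral_congr fun a ha => intervalIntegral.integral_congr fun b hb => ?_
  have h1 := box_abs_le ha
  have h2 := box_abs_le hb
  have h3 := abs_nonneg ε₁
  have h4 := abs_nonneg ε₂
  exact (ρ.boxG_eq θ f (by linarith) (by linarith)).symm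

lemma box_pos {σ ε₁ ε₂ : ℝ} (h : 100 * (|ε₁| + |ε₂|) < σ) : 0 < σ :=
  lt_of_le_of_lt (by positivity) h

/-- Integrals of continuous functions with values in a closed subspace. -/
lemma box_mem {σ θ ε₁ ε₂ : ℝ} {f : H} (hf : f ∈ ρ.V σ) (h : 100 * (|ε₁| + |ε₂|) < σ) :
    ρ.box θ ε₁ ε₂ f ∈ ρ.V (σ / 2) := by
  refine box_int_mem (ρ.V_closed _) fun a ha => box_int_mem (ρ.V_closed _) fun b hb => ?_
  refine ρ.V_anti ?_ (ρ.K_mem _ (ρ.S_mem _ hf))
  have h1 := box_abs_le ha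
  have h2 := box_abs_le hb
  have h3 := box_norm a b
  have h4 := box_pos h
  linarith
/-- `K t (S (θ t) box) = ∫_{t}^{ε₁ + t} ∫_0^{ε₂} K (a + ib) (S (θ a) f)` for small `t`; FTC for the
continuous function `a ↦ ∫_0^{ε₂} …`. -/
lemma box_deriv_re {σ θ ε₁ ε₂ : ℝ} {f : H} (hf : f ∈ ρ.V σ) (h : 100 * (|ε₁| + |ε₂|) < σ) :
    HasDerivAt (fun t : ℝ => ρ.K t (ρ.S (θ * t) (ρ.box θ ε₁ ε₂ f)))
      (∫ b in (0 : ℝ)..ε₂, ρ.K (b * Complex.I) (ρ.K ε₁ (ρ.S (θ * ε₁) f) - f)) 0 := by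
  have hσ := box_pos h
  have hG := ρ.boxG_cont hσ θ hf
  have h3 := abs_nonneg ε₁
  have h4 := abs_nonneg ε₂
  have e2 : ∫ b in (0 : ℝ)..ε₂, ρ.K (b * Complex.I) (ρ.K ε₁ (ρ.S (θ * ε₁) f) - f) =
      ∫ b in (0 : ℝ)..ε₂, (ρ.boxG σ θ f (ε₁, b) - ρ.boxG σ θ f (0, b)) := by
    refine intervalIntegral.integral_congr fun b hb => ?_
    have h2 := box_abs_le hb
    show ρ.K (b * Complex.I) (ρ.K ε₁ (ρ.S (θ * ε₁) f) - f) =
      ρ.boxG σ θ f (ε₁, b) - ρ.boxG σ θ f (0, b)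
    rw [ρ.boxG_eq θ f (by linarith) (by linarith),
      ρ.boxG_eq θ f (by rw [abs_zero]; linarith) (by linarith), map_sub,
      ρ.K_add (ρ.S_mem _ hf) (by simp; linarith)]
    simp [ρ.S_zero]
  rw [e2]
  refine (box_shift hG ε₁ ε₂).congr_of_eventuallyEq ?_
  filter_upwards [Metric.ball_mem_nhds (0 : ℝ) (show 0 < σ / 100 by positivity)] with t ht
  rw [Metric.mem_ball, dist_zero_right, Real.norm_eq_abs] at ht
  have := box_clm hG ((ρ.K t).comp (ρ.S (θ * t))) ε₁ ε₂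
  rw [← ρ.box_eq θ f h] at this
  refine Eq.trans this ?_
  refine intervalIntegral.integral_congr fun a ha => intervalIntegral.integral_congr fun b hb => ?_
  have h1 := box_abs_le ha
  have h2 := box_abs_le hb
  have h5 := abs_add_le a t
  have h6 := box_norm a b
  show ρ.K t (ρ.S (θ * t) (ρ.boxG σ θ f (a, b))) = ρ.boxG σ θ f (a + t, b)
  rw [ρ.boxG_eq θ f (by linarith) (by linarith), ρ.boxG_eq θ f (by linarith) (by linarith),
    ← ρ.K_S, ← ρ.S_add, ρ.K_add (ρ.S_mem _ hf) (by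
      rw [Complex.norm_real, Real.norm_eq_abs]; linarith)]
  congr 1
  · congr 1
    push_cast
    ring
  · congr 2
    ring
/-- Same after exchanging the integrals (or differentiate under the outer integral). -/
lemma box_deriv_im {σ θ ε₁ ε₂ : ℝ} {f : H} (hf : f ∈ ρ.V σ) (h : 100 * (|ε₁| + |ε₂|) < σ) :
    HasDerivAt (fun t : ℝ => ρ.K (t * Complex.I) (ρ.box θ ε₁ ε₂ f))
      (∫ a in (0 : ℝ)..ε₁, ρ.K a (ρ.S (θ * a) (ρ.K (ε₂ * Complex.I) f - f))) 0 := by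
  have hσ := box_pos h
  have hG := ρ.boxG_cont hσ θ hf
  have hG' : Continuous fun z : ℝ × ℝ => ρ.boxG σ θ f (z.2, z.1) := hG.comp continuous_swap
  have h3 := abs_nonneg ε₁
  have h4 := abs_nonneg ε₂
  have e2 : ∫ a in (0 : ℝ)..ε₁, ρ.K a (ρ.S (θ * a) (ρ.K (ε₂ * Complex.I) f - f)) =
      ∫ a in (0 : ℝ)..ε₁, (ρ.boxG σ θ f (a, ε₂) - ρ.boxG σ θ f (a, 0)) := by
    refine intervalIntegral.integral_congr fun a ha => ?_
    have h2 := box_abs_le ha
    show ρ.K a (ρ.S (θ * a) (ρ.K (ε₂ * Complex.I) f - f)) =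
      ρ.boxG σ θ f (a, ε₂) - ρ.boxG σ θ f (a, 0)
    rw [ρ.boxG_eq θ f (by linarith) (by linarith),
      ρ.boxG_eq θ f (by linarith) (by rw [abs_zero]; linarith), map_sub, map_sub, ← ρ.K_S,
      ρ.K_add (ρ.S_mem _ hf) (by simp; linarith), add_comm]
    simp
  rw [e2]
  refine (box_shift hG' ε₂ ε₁).congr_of_eventuallyEq ?_
  filter_upwards [Metric.ball_mem_nhds (0 : ℝ) (show 0 < σ / 100 by positivity)] with t ht
  rw [Metric.mem_ball, dist_zero_right, Real.norm_eq_abs] at ht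
  have := box_clm hG' (ρ.K (t * Complex.I)) ε₂ ε₁
  rw [ρ.box_eq θ f h, box_swap hG]
  refine Eq.trans this ?_
  refine intervalIntegral.integral_congr fun b hb => intervalIntegral.integral_congr fun a ha => ?_
  have h1 := box_abs_le ha
  have h2 := box_abs_le hb
  have h5 := abs_add_le b t
  have h6 := box_norm a b
  show ρ.K (t * Complex.I) (ρ.boxG σ θ f (a, b)) = ρ.boxG σ θ f (a, b + t)
  rw [ρ.boxG_eq θ f (by linarith) (by linarith), ρ.boxG_eq θ f (by linarith) (by linarith),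
    ρ.K_add (ρ.S_mem _ hf) (by
      rw [norm_mul, Complex.norm_I, mul_one, Complex.norm_real, Real.norm_eq_abs]; linarith)]
  congr 2
  push_cast
  ring
lemma box_add {σ θ ε₁ ε₂ : ℝ} {f g : H} (hf : f ∈ ρ.V σ) (hg : g ∈ ρ.V σ)
    (h : 100 * (|ε₁| + |ε₂|) < σ) : ρ.box θ ε₁ ε₂ (f + g) = ρ.box θ ε₁ ε₂ f + ρ.box θ ε₁ ε₂ g := by
  have hσ := box_pos h
  have hF := ρ.boxG_cont hσ θ hf
  have hG := ρ.boxG_cont hσ θ hg
  rw [ρ.box_eq θ f h, ρ.box_eq θ g h, ρ.box_eq θ (f + g) h, ← intervalIntegral.integral_add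
    ((box_inner_cont hF ε₂).intervalIntegrable _ _) ((box_inner_cont hG ε₂).intervalIntegrable _ _)]
  refine intervalIntegral.integral_congr fun a _ => ?_
  refine Eq.trans ?_ (intervalIntegral.integral_add
    ((hF.comp (continuous_const.prodMk continuous_id)).intervalIntegrable _ _)
    ((hG.comp (continuous_const.prodMk continuous_id)).intervalIntegrable _ _))
  refine intervalIntegral.integral_congr fun b _ => ?_
  simp [boxG]
lemma box_smul (θ ε₁ ε₂ : ℝ) (c : ℂ) (f : H) : ρ.box θ ε₁ ε₂ (c • f) = c • ρ.box θ ε₁ ε₂ f := by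
  unfold box
  simp only [map_smul, intervalIntegral.integral_smul]
lemma norm_box_le (θ ε₁ ε₂ : ℝ) (f : H) : ‖ρ.box θ ε₁ ε₂ f‖ ≤ |ε₁| * |ε₂| * ‖f‖ := by
  refine (intervalIntegral.norm_integral_le_of_norm_le_const (C := ‖f‖ * |ε₂ - 0|) fun a _ =>
    intervalIntegral.norm_integral_le_of_norm_le_const fun b _ => ?_).trans (le_of_eq ?_)
  · exact (ρ.K_norm _ _).trans (ρ.norm_S _ _).le
  · rw [sub_zero, sub_zero]
    ring
/-- `S t box f = box (S t f)`, and `box` is linear and bounded on `V σ`. -/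
lemma box_deriv_S {σ θ ε₁ ε₂ : ℝ} {f g : H} (hf : f ∈ ρ.V σ) (hg : g ∈ ρ.V σ)
    (h : 100 * (|ε₁| + |ε₂|) < σ) (hd : HasDerivAt (fun s : ℝ => ρ.S s f) g 0) :
    HasDerivAt (fun s : ℝ => ρ.S s (ρ.box θ ε₁ ε₂ f)) (ρ.box θ ε₁ ε₂ g) 0 := by
  have hσ := box_pos h
  have e1 : ∀ s : ℝ, ρ.S s (ρ.box θ ε₁ ε₂ f) = ρ.box θ ε₁ ε₂ (ρ.S s f) := fun s => by
    rw [ρ.box_eq θ f h, ρ.box_eq θ _ h, box_clm (ρ.boxG_cont hσ θ hf)]
    refine intervalIntegral.integral_congr fun a _ => intervalIntegral.integral_congr fun b _ => ?_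
    show ρ.S s (ρ.boxG σ θ f (a, b)) = ρ.boxG σ θ (ρ.S s f) (a, b)
    unfold boxG
    rw [← ρ.K_S, ← ρ.S_add, ← ρ.S_add, add_comm s]
  rw [hasDerivAt_iff_isLittleO] at hd ⊢
  refine Asymptotics.IsBigO.trans_isLittleO ?_ hd
  refine Asymptotics.IsBigO.of_bound (|ε₁| * |ε₂|) (Eventually.of_forall fun s => ?_)
  have e2 : ρ.S s f - ρ.S 0 f - (s - 0) • g =
      ρ.S s f + (-1 : ℂ) • ρ.S 0 f + (-((s - 0 : ℝ) : ℂ)) • g := by
    rw [neg_smul, neg_smul, one_smul, Complex.coe_smul, sub_eq_add_neg, sub_eq_add_neg]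
  have e3 : ρ.S s (ρ.box θ ε₁ ε₂ f) - ρ.S 0 (ρ.box θ ε₁ ε₂ f) - (s - 0) • ρ.box θ ε₁ ε₂ g =
      ρ.box θ ε₁ ε₂ (ρ.S s f - ρ.S 0 f - (s - 0) • g) := by
    have m1 := ρ.S_mem s hf
    have m2 := (ρ.V σ).smul_mem (-1 : ℂ) (ρ.S_mem 0 hf)
    rw [e2, ρ.box_add ((ρ.V σ).add_mem m1 m2) ((ρ.V σ).smul_mem _ hg) h, ρ.box_add m1 m2 h,
      ρ.box_smul, ρ.box_smul, e1, e1, neg_smul, neg_smul, one_smul, Complex.coe_smul,
      sub_eq_add_neg, sub_eq_add_neg]
  rw [e3]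
  exact ρ.norm_box_le _ _ _ _
/-- `‖K w (S a f) - f‖ ≤ ‖K w (S a F) - F‖ + 2 ‖f - F‖`, and `K w (S a F) → F`. -/
lemma box_approx (F : H) {η : ℝ} (hη : 0 < η) : ∃ δ : ℝ, 0 < δ ∧ ∀ (ε σ : ℝ) (f : H), 0 < ε →
    ε ≤ δ → 200 * ε < σ → f ∈ ρ.V σ → ‖f - F‖ ≤ δ →
      ‖((ε ^ 2 : ℝ) : ℂ)⁻¹ • ρ.box 1 ε ε f - F‖ ≤ η := by
  have hη' : 0 < η / 3 := by positivity
  obtain ⟨δ₁, hδ₁, h1⟩ := Metric.tendsto_nhds_nhds.mp (ρ.K_cont F) _ hη'
  obtain ⟨δ₂, hδ₂, h2⟩ := Metric.continuousAt_iff.mp ((ρ.S_cont F).continuousAt (x := 0)) _ hη'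
  refine ⟨min (min (δ₁ / 4) (δ₂ / 2)) (η / 3), by positivity, fun ε σ f hε hδ hσ hf hF => ?_⟩
  have d1 : ε ≤ δ₁ / 4 := hδ.trans ((min_le_left _ _).trans (min_le_left _ _))
  have d2 : ε ≤ δ₂ / 2 := hδ.trans ((min_le_left _ _).trans (min_le_right _ _))
  have d3 : ‖f - F‖ ≤ η / 3 := hF.trans (min_le_right _ _)
  have ha : |ε| = ε := abs_of_pos hε
  have h : 100 * (|ε| + |ε|) < σ := by rw [ha]; linarith
  have hG := ρ.boxG_cont (box_pos h) 1 hf
  have e1 : ρ.box 1 ε ε f - ((ε ^ 2 : ℝ) : ℂ) • F =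
      ∫ a in (0 : ℝ)..ε, ∫ b in (0 : ℝ)..ε, (ρ.boxG σ 1 f (a, b) - F) := by
    have e2 : ((ε ^ 2 : ℝ) : ℂ) • F = ∫ a in (0 : ℝ)..ε, ∫ b in (0 : ℝ)..ε, F := by
      rw [intervalIntegral.integral_const, intervalIntegral.integral_const, Complex.coe_smul,
        smul_smul, sub_zero, sq]
    rw [ρ.box_eq 1 f h, e2, ← intervalIntegral.integral_sub
      ((box_inner_cont hG ε).intervalIntegrable _ _) intervalIntegrable_const]
    refine intervalIntegral.integral_congr fun a _ => ?_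
    exact (intervalIntegral.integral_sub
      ((hG.comp (continuous_const.prodMk continuous_id)).intervalIntegrable _ _)
      intervalIntegrable_const).symm
  have e3 : ‖ρ.box 1 ε ε f - ((ε ^ 2 : ℝ) : ℂ) • F‖ ≤ η * |ε - 0| * |ε - 0| := by
    rw [e1]
    refine intervalIntegral.norm_integral_le_of_norm_le_const fun a ha' =>
      intervalIntegral.norm_integral_le_of_norm_le_const fun b hb' => ?_
    have k1 := box_abs_le (uIoc_subset_uIcc ha')
    have k2 := box_abs_le (uIoc_subset_uIcc hb')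
    have k3 := box_norm a b
    rw [ρ.boxG_eq 1 f (by linarith) (by linarith), one_mul]
    have k4 := h1 (x := a + b * Complex.I) (by rw [dist_zero_right]; linarith)
    have k5 := h2 (x := a) (by rw [dist_zero_right, Real.norm_eq_abs]; linarith)
    rw [dist_eq_norm] at k4 k5
    rw [ρ.S_zero] at k5
    have k6 : ρ.K (a + b * Complex.I) (ρ.S a f) - F = ρ.K (a + b * Complex.I) (ρ.S a (f - F)) +
        ρ.K (a + b * Complex.I) (ρ.S a F - F) + (ρ.K (a + b * Complex.I) F - F) := by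
      simp only [map_sub]
      abel
    have k7 := (ρ.K_norm (a + b * Complex.I) _).trans (ρ.norm_S a (f - F)).le
    have k8 := ρ.K_norm (a + b * Complex.I) (ρ.S a F - F)
    rw [k6]
    refine (norm_add₃_le).trans ?_
    linarith
  have hne : ((ε ^ 2 : ℝ) : ℂ) ≠ 0 := by exact_mod_cast (pow_pos hε 2).ne'
  have e4 : ((ε ^ 2 : ℝ) : ℂ)⁻¹ • ρ.box 1 ε ε f - F =
      ((ε ^ 2 : ℝ) : ℂ)⁻¹ • (ρ.box 1 ε ε f - ((ε ^ 2 : ℝ) : ℂ) • F) := by
    rw [smul_sub, smul_smul, inv_mul_cancel₀ hne, one_smul]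
  rw [e4, norm_smul, norm_inv, Complex.norm_real, Real.norm_eq_abs, abs_of_pos (pow_pos hε 2),
    inv_mul_le_iff₀ (pow_pos hε 2)]
  rw [sub_zero, ha] at e3
  nlinarith

end Rep

end Crest.Agent.R103
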