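import Crest.Prelude.Def_Billiard
import Crest.Agent.R103.Bary

/-! Row 103: dictionary between the statement's plane and the model. -/

set_option autoImplicit false
set_option linter.unusedVariables false

noncomputable section

open MeasureTheory Set Filter Topology
open scoped ComplexConjugate

namespace Crest.Agent.R103

open Crest.AnalysisR.Billiard

/-- `ℂ ≃ Plane`. -/
def e : ℂ ≃ₗᵢ[ℝ] Plane := Complex.orthonormalBasisOneI.repr

/-- The projection from the double to the phase space of the statement. -/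
def pr (m : M) : Phase := (e m.1, ⟨e (cis m.2.1), by simp [norm_cis]⟩)

/-- The model triangle has the vertices `A`. -/
def Link (A : Fin 3 → Plane) (Δ : Tri) : Prop := ∀ i, e (Δ.A i) = A i

lemma pr_inj {m m' : M} (h : pr m = pr m') (hb : m.2.2 = m'.2.2) : m = m' := by
  have h1 : e m.1 = e m'.1 := congrArg Prod.fst h
  have h2 : e (cis m.2.1) = e (cis m'.2.1) := congrArg (fun p : Phase => (p.2 : Plane)) h
  exact Prod.ext (e.injective h1) (Prod.ext (cis_injective (e.injective h2)) hb)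
lemma exists_pr (p : Phase) (b : Bool) : ∃ m : M, pr m = p ∧ m.2.2 = b := by
  obtain ⟨θ, hθ⟩ := exists_cis (z := e.symm p.2) (by simp)
  refine ⟨(e.symm p.1, θ, b), Prod.ext (by simp [pr]) (Subtype.ext ?_), rfl⟩
  simp [pr, hθ]
lemma continuous_pr : Continuous pr := by
  exact (e.continuous.comp continuous_fst).prodMk (Continuous.subtype_mk
    (e.continuous.comp (continuous_cis.comp (continuous_fst.comp continuous_snd))) _)
lemma inner_e (z w : ℂ) : inner ℝ (e z) (e w) = (z * conj w).re := by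
  rw [e.inner_map_map, real_inner_comm, Complex.inner]

lemma link_det {a : Fin 3 → ℂ} (h : AffineIndependent ℝ a) :
    ((a 1).re - (a 0).re) * ((a 2).im - (a 0).im) - ((a 2).re - (a 0).re) * ((a 1).im - (a 0).im) ≠ 0 := by
  intro h0
  have hinj := h.injective
  rw [affineIndependent_iff] at h
  have h1 := h Finset.univ ![(a 1).im - (a 2).im, (a 2).im - (a 0).im, (a 0).im - (a 1).im]
    (by simp [Fin.sum_univ_three]) (by
      apply Complex.ext <;> simp [Fin.sum_univ_three] <;> linarith) 2 (Finset.mem_univ _)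
  have h2 := h Finset.univ ![(a 1).re - (a 2).re, (a 2).re - (a 0).re, (a 0).re - (a 1).re]
    (by simp [Fin.sum_univ_three]) (by
      apply Complex.ext <;> simp [Fin.sum_univ_three] <;> linarith) 2 (Finset.mem_univ _)
  simp only [Matrix.cons_val] at h1 h2
  have : a 0 = a 1 := Complex.ext (by linarith) (by linarith)
  exact absurd (hinj this) (by decide)

lemma link_normal {p u : ℂ} (h : (p * conj (Complex.I * u)).re ≠ 0) :
    ∃ β : Ang, (u * conj (cis β)).re = 0 ∧ 0 < (p * conj (cis β)).re := by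
  obtain ⟨D, hD⟩ : ∃ D, D = (p * conj (Complex.I * u)).re := ⟨_, rfl⟩
  rw [← hD] at h
  have hu : u ≠ 0 := by rintro rfl; simp at hD; exact h hD
  have hu' : 0 < ‖u‖ := norm_pos_iff.2 hu
  have hD' : 0 < |D| := abs_pos.2 h
  obtain ⟨β, hβ⟩ := exists_cis (z := ((D / (|D| * ‖u‖) : ℝ) : ℂ) * (Complex.I * u)) (by
    rw [norm_mul, norm_mul, Complex.norm_I, Complex.norm_real, Real.norm_eq_abs, abs_div, abs_mul,
      abs_abs, abs_norm]
    field_simp)
  refine ⟨β, ?_, ?_⟩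
  · rw [hβ, map_mul, Complex.conj_ofReal, mul_left_comm, Complex.re_ofReal_mul]
    have : (u * conj (Complex.I * u)).re = 0 := by simp; ring
    rw [this, mul_zero]
  · rw [hβ, map_mul, Complex.conj_ofReal, mul_left_comm, Complex.re_ofReal_mul, ← hD,
      div_mul_eq_mul_div]
    exact div_pos (mul_self_pos.2 h) (mul_pos hD' hu')

/-- `ν j = ± i (A (j+2) - A (j+1)) / ‖·‖` (`exists_cis`), the sign chosen by the side of `A j`;
`A j` is not on the line by affine independence. -/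
lemma exists_link {A : Fin 3 → Plane} (hA : AffineIndependent ℝ A) : ∃ Δ : Tri, Link A Δ := by
  obtain ⟨a, ha⟩ : ∃ a : Fin 3 → ℂ, ∀ i, e (a i) = A i := ⟨fun i => e.symm (A i), fun i => by simp⟩
  have hA' : AffineIndependent ℝ a := by
    refine AffineIndependent.of_comp e.toLinearEquiv.toLinearMap.toAffineMap ?_
    have : (e.toLinearEquiv.toLinearMap.toAffineMap ∘ a) = A := funext ha
    rw [this]
    exact hA
  have hD := link_det hA'
  have h : ∀ j : Fin 3, ((a j - a (j + 1)) * conj (Complex.I * (a (j + 2) - a (j + 1)))).re ≠ 0 := by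
    intro j h0
    apply hD
    fin_cases j <;> simp at h0 <;> linarith
  choose β h0 h1 using fun j => link_normal (h j)
  exact ⟨⟨a, β, h0, h1⟩, ha⟩
lemma link_ℓ_A_nonneg (Δ : Tri) (j i : Fin 3) : 0 ≤ Δ.ℓ j (Δ.A i) := by
  have : ∀ j i : Fin 3, i = j ∨ i = j + 1 ∨ i = j + 2 := by decide
  rcases this j i with rfl | rfl | rfl
  · exact (Δ.ℓ_A_self _).le
  · exact (Δ.ℓ_A_succ _).ge
  · exact (Δ.ℓ_A_succ_succ _).ge

lemma link_interior (Δ : Tri) : interior (convexHull ℝ (Set.range Δ.A)) = Δ.T := by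
  apply Subset.antisymm
  · intro z hz j
    have hc : Convex ℝ {z | 0 ≤ Δ.ℓ j z} := by
      intro x hx y hy a b ha hb hab
      have e1 : Δ.ℓ j (a • x + b • y) = a * Δ.ℓ j x + b * Δ.ℓ j y := by
        obtain rfl : b = 1 - a := by linarith
        simp [Tri.ℓ]; ring
      change 0 ≤ Δ.ℓ j _
      rw [e1]
      exact add_nonneg (mul_nonneg ha hx) (mul_nonneg hb hy)
    have hs : convexHull ℝ (Set.range Δ.A) ⊆ {z | 0 ≤ Δ.ℓ j z} :=
      convexHull_min (by rintro _ ⟨i, rfl⟩; exact link_ℓ_A_nonneg Δ j i) hc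
    obtain ⟨r, hr, hb⟩ := Metric.mem_nhds_iff.1 (mem_interior_iff_mem_nhds.1 hz)
    have hm : z + ((-(r / 2) : ℝ) : ℂ) * Δ.ν j ∈ Metric.ball z r := by
      rw [Metric.mem_ball, dist_eq_norm, add_sub_cancel_left, norm_mul, Δ.norm_ν, Complex.norm_real,
        Real.norm_eq_abs, abs_neg, abs_of_pos (half_pos hr)]
      linarith
    have h1 : 0 ≤ Δ.ℓ j _ := hs (hb hm)
    rw [Δ.ℓ_add, mul_assoc, Tri.ν, cis_mul_conj, mul_one, Complex.ofReal_re] at h1
    linarith
  · refine interior_maximal (fun z hz => ?_) Δ.isOpen_T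
    rw [← Δ.bary z]
    exact (convex_convexHull ℝ _).sum_mem (w := fun j => Δ.ℓ j z / Δ.ℓ j (Δ.A j))
      (fun j _ => div_nonneg (hz j).le (Δ.ℓ_A_self j).le) (Δ.sum_bary z)
      fun j _ => subset_convexHull ℝ _ ⟨j, rfl⟩

/-- `convexHull` of the vertices is the closed triangle (`bary`, `sum_bary`), whose interior is
`T` (or `AffineBasis.interior_convexHull`); `e` is a homeomorphism. -/
lemma Link.interior_eq {A : Fin 3 → Plane} {Δ : Tri} (h : Link A Δ) :
    interior (convexHull ℝ (Set.range A)) = e '' Δ.T := by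
  have h1 : Set.range A = e '' Set.range Δ.A := by
    rw [← Set.range_comp]
    congr 1
    funext i
    exact (h i).symm
  have h2 : convexHull ℝ (e '' Set.range Δ.A) = e '' convexHull ℝ (Set.range Δ.A) :=
    (e.toLinearEquiv.toLinearMap.image_convexHull _).symm
  rw [h1, h2, ← link_interior Δ]
  exact (e.toHomeomorph.image_interior _).symm
/-- `side_iff`. -/
lemma Link.mem_openSide {A : Fin 3 → Plane} {Δ : Tri} (h : Link A Δ) (j : Fin 3) (z : ℂ) :
    e z ∈ openSide A j ↔ (Δ.ℓ j z = 0 ∧ ∀ i, i ≠ j → 0 < Δ.ℓ i z) := by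
  rw [Δ.side_iff, openSide, mem_image]
  refine exists_congr fun s => and_congr_right fun _ => ?_
  rw [← h (j + 1), ← h (j + 2), AffineMap.lineMap_apply, vsub_eq_sub, vadd_eq_add, ← map_sub,
    ← map_smul, ← map_add, e.injective.eq_iff, Complex.real_smul, add_comm, eq_comm]
lemma link_side (Δ : Tri) (j : Fin 3) :
    ∃ t : ℝ, t ≠ 0 ∧ Δ.A (j + 2) - Δ.A (j + 1) = Complex.I * t * Δ.ν j := by
  have hν : Δ.ν j * conj (Δ.ν j) = 1 := cis_mul_conj _
  have h0 : ((Δ.A (j + 2) - Δ.A (j + 1)) * conj (Δ.ν j)).re = 0 := Δ.h0 j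
  have h1 := Complex.re_add_im ((Δ.A (j + 2) - Δ.A (j + 1)) * conj (Δ.ν j))
  rw [h0] at h1
  have h2 : Δ.A (j + 2) - Δ.A (j + 1) =
      Complex.I * ((Δ.A (j + 2) - Δ.A (j + 1)) * conj (Δ.ν j)).im * Δ.ν j := by
    push_cast at h1
    linear_combination -(Δ.ν j) * h1 - (Δ.A (j + 2) - Δ.A (j + 1)) * hν
  refine ⟨_, fun ht => ?_, h2⟩
  rw [ht] at h2
  have h3 : Δ.A (j + 2) = Δ.A (j + 1) := by simpa [sub_eq_zero] using h2
  have h4 := Δ.ℓ_A_succ (j + 1)
  rw [add_assoc, show (1 : Fin 3) + 1 = 2 from rfl, h3] at h4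
  exact (Δ.ℓ_A_self (j + 1)).ne' h4

/-- `u = A (j+2) - A (j+1) ≠ 0` is `i ν j` times a real number (`h0`). -/
lemma Link.mirror_eq {A : Fin 3 → Plane} {Δ : Tri} (h : Link A Δ) (j : Fin 3) (g : Fr) :
    mirror (sideVec A j) (e (cis g.1)) = e (cis (Δ.rf j g).1) := by
  obtain ⟨t, ht, hu⟩ := link_side Δ j
  rw [mirror, sideVec, ← h (j + 1), ← h (j + 2), ← map_sub, inner_e, inner_e, ← map_smul, ← map_sub,
    Δ.cis_rf', hu, Tri.nv]
  congr 1
  have hν : Δ.ν j * conj (Δ.ν j) = 1 := cis_mul_conj _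
  obtain ⟨c, hc⟩ : ∃ c, cis g.1 = c * Δ.ν j :=
    ⟨cis g.1 * conj (Δ.ν j), by rw [mul_assoc, mul_comm (conj _), hν, mul_one]⟩
  rw [hc]
  generalize Δ.ν j = ν at hν
  have e1 : c * ν * conj (Complex.I * t * ν) = -(Complex.I * t * c) := by
    simp only [map_mul, Complex.conj_I, Complex.conj_ofReal]
    linear_combination (-(Complex.I * t * c)) * hν
  have e2 : Complex.I * t * ν * conj (Complex.I * t * ν) = ((t * t : ℝ) : ℂ) := by
    simp only [map_mul, Complex.conj_I, Complex.conj_ofReal]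
    push_cast
    linear_combination (t * t : ℂ) * hν - (t * t * ν * conj ν) * Complex.I_mul_I
  have e3 : c * ν * conj ν = c := by rw [mul_assoc, hν, mul_one]
  have e4 : (-(Complex.I * t * c)).re = t * c.im := by simp
  rw [e1, e2, e3, e4, Complex.ofReal_re, Complex.real_smul]
  have ht' : (t : ℂ) ≠ 0 := by exact_mod_cast ht
  push_cast
  field_simp
  linear_combination (2 * ν) * Complex.re_add_im c
/-- With `u = A (k+1) - A k`, `v = A (k+2) - A k`: `u ⟂ ν (k+2)`, `v ⟂ ν (k+1)`, so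
`(ν (k+1) / ν (k+2))² = (v/‖v‖)² / (u/‖u‖)² = exp (± 2 i α)` with `α` the angle
(`Complex.angle_eq_abs_arg`; `e` preserves angles).  If `n • (2β (k+1) - 2β (k+2)) = 0`, `n > 0`,
then `exp (2 i n α) = 1`, so `α / π` is rational. -/
lemma Link.irr {A : Fin 3 → Plane} {Δ : Tri} (h : Link A Δ)
    (hirr : ∃ i : Fin 3,
      Irrational (EuclideanGeometry.angle (A (i + 1)) (A i) (A (i + 2)) / Real.pi)) :
    Δ.Irr := by
  obtain ⟨k, hk⟩ := hirr
  refine ⟨k, ?_⟩
  by_contra hn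
  obtain ⟨t, ht, hu⟩ := link_side Δ (k + 2)
  obtain ⟨t', ht', hv⟩ := link_side Δ (k + 1)
  have i1 : ∀ k : Fin 3, k + 2 + 2 = k + 1 ∧ k + 2 + 1 = k ∧ k + 1 + 2 = k ∧ k + 1 + 1 = k + 2 := by
    decide
  rw [(i1 k).1, (i1 k).2.1] at hu
  rw [(i1 k).2.2.1, (i1 k).2.2.2] at hv
  have hv' : Δ.A (k + 2) - Δ.A k = -(Complex.I * t' * Δ.ν (k + 1)) := by rw [← hv]; ring
  have hν : ∀ j, Δ.ν j * conj (Δ.ν j) = 1 := fun j => cis_mul_conj _
  have hν0 : ∀ j, Δ.ν j ≠ 0 := fun j h0 => by simpa [h0] using hν j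
  have htc : (t : ℂ) ≠ 0 := by exact_mod_cast ht
  have htc' : (t' : ℂ) ≠ 0 := by exact_mod_cast ht'
  obtain ⟨q, hq⟩ : ∃ q : ℂ, q = ((-(t / t') : ℝ) : ℂ) * (Δ.ν (k + 2) * conj (Δ.ν (k + 1))) := ⟨_, rfl⟩
  have hang : EuclideanGeometry.angle (A (k + 1)) (A k) (A (k + 2)) = |q.arg| := by
    rw [EuclideanGeometry.angle, vsub_eq_sub, vsub_eq_sub, ← h (k + 1), ← h (k + 2), ← h k,
      ← map_sub, ← map_sub]
    have := e.toLinearIsometry.angle_map (Δ.A (k + 1) - Δ.A k) (Δ.A (k + 2) - Δ.A k)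
    simp only [LinearIsometryEquiv.coe_toLinearIsometry] at this
    rw [this, hu, hv', Complex.angle_eq_abs_arg (by simp [htc, hν0]) (by simp [htc', hν0]), hq]
    congr 2
    have := hν0 (k + 1)
    push_cast
    field_simp
    linear_combination (Δ.ν (k + 2)) * hν (k + 1)
  have hr : (t / t') ≠ 0 := div_ne_zero ht ht'
  have hq1 : ‖q‖ = |t / t'| := by
    rw [hq, norm_mul, norm_mul, Complex.norm_conj, Δ.norm_ν, Δ.norm_ν, Complex.norm_real,
      Real.norm_eq_abs, abs_neg]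
    ring
  have hq2 : ((q.arg + q.arg : ℝ) : Ang) =
      -(Δ.β (k + 1) + Δ.β (k + 1) - (Δ.β (k + 2) + Δ.β (k + 2))) := by
    apply cis_injective
    rw [neg_sub, cis_sub, cis_add, cis_add, AddCircle.coe_add, cis_add, cis_coe, map_mul]
    have h1 := Complex.norm_mul_exp_arg_mul_I q
    have h2 : ((‖q‖ : ℝ) : ℂ) ^ 2 = ((t / t' : ℝ) : ℂ) ^ 2 := by
      rw [hq1]; exact_mod_cast sq_abs (t / t')
    have h3 : ((t / t' : ℝ) : ℂ) ^ 2 ≠ 0 := pow_ne_zero _ (by exact_mod_cast hr)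
    apply mul_left_cancel₀ h3
    have h4 : q ^ 2 = ((t / t' : ℝ) : ℂ) ^ 2 * (Δ.ν (k + 2) * conj (Δ.ν (k + 1))) ^ 2 := by
      rw [hq, Complex.ofReal_neg]; ring
    simp only [Tri.ν] at h4
    generalize Complex.exp (q.arg * Complex.I) = E at h1
    linear_combination (-E ^ 2) * h2 + ((‖q‖ : ℂ) * E + q) * h1 + h4
  obtain ⟨n, hn'⟩ : ∃ n, n = addOrderOf (Δ.β (k + 1) + Δ.β (k + 1) - (Δ.β (k + 2) + Δ.β (k + 2))) :=
    ⟨_, rfl⟩
  have h5 : ((n • (q.arg + q.arg) : ℝ) : Ang) = 0 := by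
    rw [AddCircle.coe_nsmul, hq2, smul_neg, hn', addOrderOf_nsmul_eq_zero, neg_zero]
  obtain ⟨m, hm⟩ := (AddCircle.coe_eq_zero_iff _).1 h5
  rw [← hn'] at hn
  have hn0 : (n : ℝ) ≠ 0 := by exact_mod_cast hn
  apply hk
  refine ⟨|(m : ℚ) / n|, ?_⟩
  rw [hang]
  have h6 : q.arg = (m : ℝ) / n * Real.pi := by
    rw [zsmul_eq_mul, nsmul_eq_mul] at hm
    field_simp
    linarith
  rw [h6, abs_mul, abs_of_pos Real.pi_pos, mul_div_cancel_right₀ _ Real.pi_ne_zero]
  push_cast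
  rfl

end Crest.Agent.R103
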