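import Crest.Agent.R103.Geo

/-! Row 103: trajectories and the flow on `Ω` (pointwise facts). -/

set_option autoImplicit false
set_option linter.unusedVariables false

noncomputable section

open MeasureTheory Set Filter Topology
open scoped ComplexConjugate

namespace Crest.Agent.R103

lemma traj_tendsto_add (s : ℝ) : Tendsto (fun a : ℝ => s + a) (𝓝 0) (𝓝 s) := by
  have : Continuous fun a : ℝ => s + a := by fun_prop
  simpa using this.tendsto 0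

lemma traj_eventually_of_add {p : ℝ → Prop} {x : ℝ} (h : ∀ᶠ a in 𝓝 0, p (x + a)) :
    ∀ᶠ y in 𝓝 x, p y := by
  have h1 : Tendsto (fun y : ℝ => y - x) (𝓝 x) (𝓝 0) := by
    have : Continuous fun y : ℝ => y - x := by fun_prop
    simpa using this.tendsto x
  filter_upwards [h1.eventually h] with y hy
  simpa using hy

lemma traj_small {r : ℝ} (hr : 0 < r) : ∀ᶠ a : ℝ in 𝓝 0, 16 * ‖(a : ℂ)‖ < r := by
  have h1 : Continuous fun a : ℝ => 16 * ‖(a : ℂ)‖ := by fun_prop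
  have h2 : Tendsto (fun a : ℝ => 16 * ‖(a : ℂ)‖) (𝓝 0) (𝓝 0) := by simpa using h1.tendsto 0
  exact h2.eventually (gt_mem_nhds hr)

namespace Tri

variable (Δ : Tri)

lemma traj_local {Δ : Tri} {γ : ℝ → M} (h : Δ.IsTraj γ) (x : ℝ) :
    ∀ᶠ y in 𝓝 x, ‖(γ y).1 - (γ x).1‖ ≤ |y - x| := by
  obtain ⟨h1, -, h3⟩ := h x (mem_univ _)
  apply traj_eventually_of_add
  filter_upwards [h3] with a ha
  have := Δ.norm_τ_sub_le (Δ.Cl_of_Sig h1) (a : ℂ)
  rw [ha]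
  simpa using this

lemma traj_continuous {Δ : Tri} {γ : ℝ → M} (h : Δ.IsTraj γ) : Continuous fun t => (γ t).1 := by
  refine continuous_iff_continuousAt.2 fun x => ?_
  refine tendsto_iff_norm_sub_tendsto_zero.2 ?_
  have h1 : Tendsto (fun y : ℝ => |y - x|) (𝓝 x) (𝓝 0) := by
    have : Continuous fun y : ℝ => |y - x| := by fun_prop
    simpa using this.tendsto x
  exact squeeze_zero' (Eventually.of_forall fun _ => norm_nonneg _) (traj_local h x) h1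

/-- `τ_mem_Sig`, `d_τ`, `τ_τ` with `ND_of_Sig` (for `|s| < r`, `|s| + |a| < r` for small `a`). -/
lemma trajOn_τ {m : M} (h : m ∈ Δ.Sig) {r : ℝ} (hr : 8 * r ≤ Δ.d m.1) :
    Δ.IsTrajOn (fun a : ℝ => Δ.τ a m) (Ioo (-r) r) := by
  intro s hs
  have hs' : |s| < r := abs_lt.2 hs
  have hc := Δ.Cl_of_Sig h
  have hn : ∀ a : ℝ, ‖(a : ℂ)‖ = |a| := fun a => by simp
  refine ⟨Δ.τ_mem_Sig hc (by rw [hn]; linarith) (Δ.ND_of_Sig h s), ?_, ?_⟩
  · have := abs_le.1 (Δ.d_τ hc (s : ℂ))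
    rw [hn] at this
    linarith [this.1, abs_nonneg s]
  · have h1 : ∀ᶠ a : ℝ in 𝓝 0, |a| < r - |s| := by
      have : Tendsto (fun a : ℝ => |a|) (𝓝 0) (𝓝 0) := by simpa using continuous_abs.tendsto (0:ℝ)
      exact this.eventually (gt_mem_nhds (by linarith))
    filter_upwards [h1] with a ha
    have h2 : Δ.ND ((s : ℂ) + a) m := by
      have := Δ.ND_of_Sig h (s + a)
      rwa [Complex.ofReal_add] at this
    rw [Δ.τ_τ hc (by rw [hn, hn]; linarith) h2, Complex.ofReal_add]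
lemma IsTrajOn.mono {Δ : Tri} {γ : ℝ → M} {I J : Set ℝ} (h : Δ.IsTrajOn γ I) (hJ : J ⊆ I) :
    Δ.IsTrajOn γ J := by
  exact fun s hs => h s (hJ hs)
lemma IsTrajOn.shift {Δ : Tri} {γ : ℝ → M} {I : Set ℝ} (h : Δ.IsTrajOn γ I) (t : ℝ) :
    Δ.IsTrajOn (fun s => γ (t + s)) ((fun s => t + s) ⁻¹' I) := by
  intro s hs
  obtain ⟨h1, h2, h3⟩ := h (t + s) hs
  refine ⟨h1, h2, ?_⟩
  filter_upwards [h3] with a ha
  rw [← ha, add_assoc]
/-- Being a trajectory is a local property. -/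
lemma isTrajOn_of_local {γ : ℝ → M} {I : Set ℝ}
    (h : ∀ s ∈ I, ∃ γ' J, s ∈ J ∧ Δ.IsTrajOn γ' J ∧ γ =ᶠ[𝓝 s] γ') : Δ.IsTrajOn γ I := by
  intro s hs
  obtain ⟨γ', J, hJ, h1, h2⟩ := h s hs
  obtain ⟨a1, a2, a3⟩ := h1 s hJ
  have e : γ s = γ' s := h2.eq_of_nhds
  rw [e]
  refine ⟨a1, a2, ?_⟩
  filter_upwards [a3, (traj_tendsto_add s).eventually h2] with a ha hb
  rw [← ha]; exact hb
/-- The agreement set is open (local rule) and closed in `I`: if `γ`, `γ'` agree at points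
`s + a` with `a` arbitrarily small then `τ a (γ s) = τ a (γ' s)` and `τ_neg_τ` gives
`γ s = γ' s`.  (`IsPreconnected.subset_of_closure_inter_subset` or
`IsPreconnected.subset_isClopen`-type lemmas; equivalently the predicate `γ s = γ' s` is locally
constant on `I`.) -/
lemma IsTrajOn.unique {Δ : Tri} {γ γ' : ℝ → M} {I : Set ℝ} (hI : IsPreconnected I)
    (h : Δ.IsTrajOn γ I) (h' : Δ.IsTrajOn γ' I) {s : ℝ} (hs : s ∈ I) (he : γ s = γ' s) :
    ∀ t ∈ I, γ t = γ' t := by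
  intro t ht
  refine hI.induction₂' (fun x y => γ x = γ' x → γ y = γ' y) ?_ ?_ hs ht he
  · intro x hx
    refine eventually_nhdsWithin_of_eventually_nhds ?_
    obtain ⟨a1, a2, a3⟩ := h x hx
    obtain ⟨b1, b2, b3⟩ := h' x hx
    apply traj_eventually_of_add
    filter_upwards [a3, b3, traj_small a2, traj_small b2] with a ha hb hc hd
    refine ⟨fun e => by rw [ha, hb, e], fun e => ?_⟩
    rw [ha, hb] at e
    rw [← Δ.τ_neg_τ a1 hc, e, Δ.τ_neg_τ b1 hd]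
  · exact fun _ _ _ _ _ _ h1 h2 h3 => h2 (h1 h3)
/-- Strong local rule: `trajOn_τ` with `r = d/8` and `unique` on `Ioo (-r) r`. -/
lemma IsTraj.eq_τ {Δ : Tri} {γ : ℝ → M} (h : Δ.IsTraj γ) (s : ℝ) {a : ℝ}
    (ha : 8 * |a| < Δ.d (γ s).1) : γ (s + a) = Δ.τ a (γ s) := by
  obtain ⟨h1, h2, -⟩ := h s (mem_univ s)
  have h3 := Δ.trajOn_τ h1 (r := Δ.d (γ s).1 / 8) (by linarith)
  have h4 : Δ.IsTrajOn (fun a => γ (s + a)) (Ioo (-(Δ.d (γ s).1 / 8)) (Δ.d (γ s).1 / 8)) :=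
    (IsTrajOn.shift h s).mono fun _ _ => mem_univ _
  refine IsTrajOn.unique isPreconnected_Ioo h4 h3 (s := 0) ⟨by linarith, by linarith⟩ ?_ a
    (abs_lt.1 (by linarith))
  simp only [add_zero, Complex.ofReal_zero]
  exact (Δ.τ_zero h1).symm
/-- The position is locally, hence globally, `1`-Lipschitz (`norm_τ_sub_le`). -/
lemma IsTraj.norm_sub_le {Δ : Tri} {γ : ℝ → M} (h : Δ.IsTraj γ) (s t : ℝ) :
    ‖(γ t).1 - (γ s).1‖ ≤ |t - s| := by
  have key : ∀ s t : ℝ, s ≤ t → ‖(γ t).1 - (γ s).1‖ ≤ t - s := by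
    intro s t hst
    have hcl : IsClosed {x : ℝ | ‖(γ x).1 - (γ s).1‖ ≤ x - s} :=
      isClosed_le ((traj_continuous h).sub continuous_const).norm (by fun_prop)
    refine IsClosed.Icc_subset_of_forall_mem_nhdsWithin (a := s) (b := t)
      (hcl.inter isClosed_Icc) (by simp) ?_ ⟨hst, le_rfl⟩
    intro x hx
    have h1 : ∀ᶠ y in 𝓝 x, ‖(γ y).1 - (γ x).1‖ ≤ |y - x| := traj_local h x
    filter_upwards [eventually_nhdsWithin_of_eventually_nhds h1, self_mem_nhdsWithin] with y hy hxy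
    have h2 : x < y := hxy
    have h3 : ‖(γ x).1 - (γ s).1‖ ≤ x - s := hx.1
    rw [abs_of_pos (by linarith)] at hy
    have h4 := norm_sub_le_norm_sub_add_norm_sub (γ y).1 (γ x).1 (γ s).1
    show ‖(γ y).1 - (γ s).1‖ ≤ y - s
    linarith
  rcases le_total s t with hst | hst
  · rw [abs_of_nonneg (by linarith)]; exact key s t hst
  · rw [abs_of_nonpos (by linarith), norm_sub_rev]
    have := key t s hst
    linarith
lemma IsTraj.continuous_pos {Δ : Tri} {γ : ℝ → M} (h : Δ.IsTraj γ) :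
    Continuous fun t => (γ t).1 := by
  exact traj_continuous h

lemma isTraj_φ {m : M} (h : m ∈ Δ.Ω) : Δ.IsTraj fun t => Δ.φ t m := by
  have e : (fun t => Δ.φ t m) = Exists.choose h := by
    funext t; simp only [φ, dif_pos h]
  rw [e]; exact (Exists.choose_spec h).1
lemma φ_zero (m : M) : Δ.φ 0 m = m := by
  unfold φ
  split_ifs with h
  · exact (Exists.choose_spec h).2
  · rfl
lemma IsTraj.φ_eq {Δ : Tri} {γ : ℝ → M} (h : Δ.IsTraj γ) (s t : ℝ) :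
    Δ.φ t (γ s) = γ (s + t) := by
  have h1 : Δ.IsTraj fun a => γ (s + a) := (IsTrajOn.shift h s).mono fun _ _ => mem_univ _
  have hm : γ s ∈ Δ.Ω := ⟨_, h1, by simp⟩
  refine IsTrajOn.unique isPreconnected_univ (Δ.isTraj_φ hm) h1 (s := 0) (mem_univ _) ?_ t
    (mem_univ _)
  simp [φ_zero]
lemma IsTraj.mem_Ω {Δ : Tri} {γ : ℝ → M} (h : Δ.IsTraj γ) (s : ℝ) : γ s ∈ Δ.Ω := by
  exact ⟨fun a => γ (s + a), (IsTrajOn.shift h s).mono fun _ _ => mem_univ _, by simp⟩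
lemma φ_mem {m : M} (h : m ∈ Δ.Ω) (t : ℝ) : Δ.φ t m ∈ Δ.Ω := by
  exact (Δ.isTraj_φ h).mem_Ω t
lemma φ_add (s t : ℝ) (m : M) : Δ.φ (s + t) m = Δ.φ s (Δ.φ t m) := by
  by_cases h : m ∈ Δ.Ω
  · rw [add_comm]; exact ((Δ.isTraj_φ h).φ_eq t s).symm
  · have e : ∀ t, Δ.φ t m = m := fun t => by simp only [φ, dif_neg h]
    rw [e, e, e]
lemma Sig_of_Ω {m : M} (h : m ∈ Δ.Ω) : m ∈ Δ.Sig := by
  obtain ⟨γ, h1, rfl⟩ := h
  exact (h1 0 (mem_univ _)).1
lemma d_pos_of_Ω {m : M} (h : m ∈ Δ.Ω) : 0 < Δ.d m.1 := by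
  obtain ⟨γ, h1, rfl⟩ := h
  exact (h1 0 (mem_univ _)).2.1
lemma φ_eq_τ {m : M} (h : m ∈ Δ.Ω) {a : ℝ} (ha : 8 * |a| < Δ.d m.1) : Δ.φ a m = Δ.τ a m := by
  have := (Δ.isTraj_φ h).eq_τ 0 (a := a) (by simpa only [φ_zero] using ha)
  simpa only [φ_zero, zero_add] using this
lemma d_φ (m : M) (t : ℝ) : |Δ.d (Δ.φ t m).1 - Δ.d m.1| ≤ 2 * |t| := by
  by_cases h : m ∈ Δ.Ω
  · have h1 := (Δ.isTraj_φ h).norm_sub_le 0 t
    simp only [φ_zero, sub_zero] at h1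
    have h2 := Δ.d_lip (Δ.φ t m).1 m.1
    linarith
  · simp only [φ, dif_neg h, sub_self, abs_zero]
    positivity
lemma tendsto_φ {m : M} (h : m ∈ Δ.Ω) (hT : m.1 ∈ Δ.T) :
    Tendsto (fun t => Δ.φ t m) (𝓝 0) (𝓝 m) := by
  have h1 : Tendsto (fun t : ℝ => Δ.τ t m) (𝓝 0) (𝓝 m) :=
    (Δ.tendsto_τ hT).comp (by simpa using Complex.continuous_ofReal.tendsto 0)
  refine h1.congr' ?_
  filter_upwards [traj_small (Δ.d_pos_of_Ω h)] with a ha
  refine (Δ.φ_eq_τ h ?_).symm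
  rw [Complex.norm_real, Real.norm_eq_abs] at ha
  linarith [abs_nonneg a]

end Tri

end Crest.Agent.R103
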