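import Crest.Prelude.Def_Billiard
import Crest.Agent.R103.Link
import Crest.Agent.R103.Traj

/-! Row 103: a flight chain gives a trajectory. -/

set_option autoImplicit false
set_option linter.unusedVariables false

noncomputable section

open MeasureTheory Set Filter Topology
open scoped ComplexConjugate

namespace Crest.Agent.R103

open Crest.AnalysisR.Billiard

lemma ChainTraj_index {t : ℤ → ℝ} (ht : StrictMono t) {k k' : ℤ} {s : ℝ} (h1 : t k ≤ s)
    (h2 : s < t (k + 1)) (h1' : t k' ≤ s) (h2' : s < t (k' + 1)) : k = k' :=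
  le_antisymm (Int.lt_add_one_iff.1 (ht.lt_iff_lt.1 (h1.trans_lt h2')))
    (Int.lt_add_one_iff.1 (ht.lt_iff_lt.1 (h1'.trans_lt h2)))

lemma ChainTraj_exists_index {t : ℤ → ℝ} (ht : StrictMono t) (h1 : Tendsto t atTop atTop)
    (h2 : Tendsto t atBot atBot) (s : ℝ) : ∃ k, t k ≤ s ∧ s < t (k + 1) := by
  obtain ⟨N, hN⟩ := (h1.eventually (eventually_gt_atTop s)).exists
  obtain ⟨k, hk, hmax⟩ := Int.exists_greatest_of_bdd (P := fun k => t k ≤ s)
    ⟨N, fun z hz => (ht.lt_iff_lt.1 (hz.trans_lt hN)).le⟩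
    (h2.eventually (eventually_le_atBot s)).exists
  exact ⟨k, hk, lt_of_not_ge fun h => by have := hmax _ h; omega⟩

lemma ChainTraj_model (Δ : Tri) (t : ℤ → ℝ) (Q : ℤ → ℂ) (g : ℤ → Fr) (j : ℤ → Fin 3)
    (ht : StrictMono t) (hex : ∀ s, ∃ k, t k ≤ s ∧ s < t (k + 1))
    (hQ : ∀ k, Δ.ℓ (j k) (Q k) = 0 ∧ ∀ i, i ≠ j k → 0 < Δ.ℓ i (Q k)) (hj : ∀ k, j (k + 1) ≠ j k)
    (hstep : ∀ k, Q (k + 1) = Q k + act (g k) ((t (k + 1) - t k : ℝ) : ℂ))
    (hr : ∀ k, g (k + 1) = Δ.rf (j (k + 1)) (g k)) :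
    ∃ γ, Δ.IsTraj γ ∧ ∀ k s, t k ≤ s → s < t (k + 1) →
      γ s = (Q k + act (g k) ((s - t k : ℝ) : ℂ), g k) := by
  choose κ hκ using hex
  obtain ⟨γ, hγ⟩ : ∃ γ : ℝ → M, ∀ k s, t k ≤ s → s < t (k + 1) →
      γ s = (Q k + act (g k) ((s - t k : ℝ) : ℂ), g k) :=
    ⟨fun s => (Q (κ s) + act (g (κ s)) ((s - t (κ s) : ℝ) : ℂ), g (κ s)), fun k s h1 h2 => by
      rw [ChainTraj_index ht h1 h2 (hκ s).1 (hκ s).2]⟩
  refine ⟨γ, fun s _ => ?_, hγ⟩
  have hL : ∀ k, 0 < t (k + 1) - t k := fun k => sub_pos.2 (ht (by omega))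
  have hl : ∀ k i (a : ℝ), Δ.ℓ i (Q k + act (g k) a) = Δ.ℓ i (Q k) + a * Δ.nv i (g k) :=
    fun k i a => Δ.ℓ_add_act_real i (Q k, g k) a
  have hCl : ∀ k, Δ.Cl (Q k) := fun k i => by
    rcases eq_or_ne i (j k) with rfl | hi
    · exact (hQ k).1.ge
    · exact ((hQ k).2 i hi).le
  have hnv : ∀ k, 0 < Δ.nv (j k) (g k) := fun k => by
    have := (hQ (k + 1)).2 _ (hj k).symm
    rw [hstep, hl, (hQ k).1, zero_add] at this
    exact (mul_pos_iff_of_pos_left (hL k)).1 this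
  have hT : ∀ k (a : ℝ), 0 < a → a < t (k + 1) - t k → Q k + act (g k) a ∈ Δ.T := by
    intro k a h0 h1 i
    have e1 := hCl k i
    have e2 := hCl (k + 1) i
    have e3 : 0 < Δ.ℓ i (Q k) ∨ 0 < Δ.ℓ i (Q (k + 1)) := by
      rcases eq_or_ne i (j k) with rfl | hi
      · exact Or.inr ((hQ (k + 1)).2 _ (hj k).symm)
      · exact Or.inl ((hQ k).2 i hi)
    rw [hstep, hl] at e2 e3
    rw [hl]
    refine (mul_pos_iff_of_pos_left (hL k)).1 ?_
    rcases e3 with e3 | e3 <;> linarith [mul_pos (sub_pos.2 h1) e3, mul_pos h0 e3,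
      mul_nonneg (sub_pos.2 h1).le e1, mul_nonneg h0.le e2]
  have hfwd : ∀ k (s a : ℝ), t k ≤ s → s < t (k + 1) → t k < s + a → s + a < t (k + 1) →
      γ (s + a) = Δ.τ a (γ s) := fun k s a h1 h2 h3 h4 => by
    have e : Q k + act (g k) ((s - t k : ℝ) : ℂ) + act (g k) a =
        Q k + act (g k) ((s + a - t k : ℝ) : ℂ) := by
      rw [add_assoc, ← act_add]
      congr 2
      push_cast
      ring
    rw [hγ k _ h3.le h4, hγ k s h1 h2, Δ.τ_of_mem_T, e]
    exact e ▸ hT k _ (sub_pos.2 h3) (by linarith)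
  obtain ⟨k, h1, h2⟩ : ∃ k, t k ≤ s ∧ s < t (k + 1) := ⟨_, hκ s⟩
  have ev : ∀ {x y : ℝ}, x < s → s < y → ∀ᶠ a : ℝ in 𝓝 0, x < s + a ∧ s + a < y :=
    fun {x y} hx hy => by
      filter_upwards [Ioo_mem_nhds (sub_neg.2 hx) (sub_pos.2 hy)] with a ha
      exact ⟨by linarith [ha.1], by linarith [ha.2]⟩
  rcases h1.eq_or_lt with rfl | h1'
  · have e0 : γ (t k) = (Q k, g k) := by
      rw [hγ k _ h1 h2, sub_self, Complex.ofReal_zero, act_zero, add_zero]
    have hS : γ (t k) ∈ Δ.Sig := fun i => by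
      rw [e0]
      rcases eq_or_ne i (j k) with rfl | hi
      · exact Or.inr ⟨(hQ k).1, hnv k⟩
      · exact Or.inl ((hQ k).2 i hi)
    have hd : 0 < Δ.d (Q k) := (Δ.lt_d_iff _ _).2 fun i i' hi => by
      rcases eq_or_ne i (j k) with rfl | hi'
      · linarith [hCl k (j k), (hQ k).2 i' hi.symm]
      · linarith [hCl k i', (hQ k).2 i hi']
    refine ⟨hS, e0 ▸ hd, ?_⟩
    obtain ⟨k, rfl⟩ : ∃ k', k = k' + 1 := ⟨k - 1, by omega⟩
    have ev2 : ∀ᶠ a : ℝ in 𝓝 0, 8 * ‖(a : ℂ)‖ < Δ.d (Q (k + 1)) :=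
      ContinuousAt.eventually_lt (by fun_prop) continuousAt_const (by simpa using hd)
    filter_upwards [ev (ht (by omega : k < k + 1)) h2, ev2] with a ha ha'
    rcases lt_trichotomy a 0 with h0 | rfl | h0
    · have e1 : Δ.rf (j (k + 1)) (g (k + 1)) = g k := by rw [hr, Δ.rf_rf]
      rw [hγ k _ ha.1.le (by linarith), e0, Δ.τ_of_neg (j := j (k + 1)) (hCl _) ha' (by
        rw [hl, (hQ _).1, zero_add]; exact mul_neg_of_neg_of_pos h0 (hnv _)), Tri.refl]
      simp only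
      rw [Δ.σ_add_act, Δ.σ_of_ℓ_eq_zero _ (hQ _).1, e1, hstep, add_assoc, ← act_add]
      congr 3
      push_cast
      ring
    · rw [add_zero, Complex.ofReal_zero, Δ.τ_zero hS]
    · exact hfwd _ _ a h1 h2 (by linarith) ha.2
  · have hm : (γ s).1 ∈ Δ.T := by
      rw [hγ k s h1 h2]
      exact hT k _ (sub_pos.2 h1') (by linarith)
    exact ⟨Δ.Sig_of_T hm, Δ.d_pos_of_T hm,
      (ev h1' h2).mono fun a ha => hfwd k s a h1 h2 ha.1 ha.2⟩

lemma isStateAt_unique {A : Fin 3 → Plane} (c : Chain A) {t : ℝ} {y y' : Phase}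
    (h : c.IsStateAt t y) (h' : c.IsStateAt t y') : y = y' := by
  obtain ⟨k, h1, h2, h3, h4⟩ := h
  obtain ⟨k', h1', h2', h3', h4'⟩ := h'
  obtain rfl := ChainTraj_index c.strictMono_t h1 h2 h1' h2'
  exact Prod.ext (h3.trans h3'.symm) (Subtype.ext (h4.trans h4'.symm))

/-- For each time `s` let `k s` be the integer with `t k ≤ s < t (k+1)` (exists by the two
`tendsto` fields).  `‖vel k‖ = 1`, so `vel k = e (cis (θ k))`.  Put
`γ s = (e.symm (q k + (s - t k) • vel k), θ k, if Even k then b else !b)`; here `k 0 = 0`.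
Write `Q k = e.symm (q k)`, `j = side k`.  `ℓ i (Q k + a cis θ k)` is affine in `a ∈ [0, t(k+1) - t k]`
with end values `ℓ i (Q k)`, `ℓ i (Q (k+1))`, which are `≥ 0` and not both zero (`side_ne`,
`mem_openSide`): so points strictly inside a flight are in `T`, and `nv j (θ k) > 0`.
Local rule inside a flight: `τ_of_mem_T`.  At `s = t k`: for small `a > 0` `τ_of_mem_T`, `a = 0`
`τ_zero`, for small `a < 0` `τ_of_neg`, `σ_add_act`, `σ_of_ℓ_eq_zero` and
`rf j (frame k) = frame (k-1)` (from `reflect`, `mirror_eq`, `rf_rf`, `cis_injective`). -/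
theorem traj_of_chain {A : Fin 3 → Plane} {Δ : Tri} (h : Link A Δ) (c : Chain A) (b : Bool) :
    ∃ γ, Δ.IsTraj γ ∧ (γ 0).2.2 = b ∧ ∀ t, c.IsStateAt t (pr (γ t)) := by
  have hL : ∀ k, 0 < c.t (k + 1) - c.t k := fun k => sub_pos.2 (c.strictMono_t (by omega))
  have hv : ∀ k, ∃ θ : Ang, e (cis θ) = c.vel k := fun k => by
    obtain ⟨θ, hθ⟩ := exists_cis (z := e.symm (c.vel k)) (by
      rw [LinearIsometryEquiv.norm_map, Chain.vel, norm_smul, norm_inv, Real.norm_of_nonneg (hL k).le,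
        ← dist_eq_norm, dist_comm, ← c.unit_speed, inv_mul_cancel₀ (hL k).ne'])
    exact ⟨θ, by rw [hθ, LinearIsometryEquiv.apply_symm_apply]⟩
  choose θ hθ using hv
  have hact : ∀ k (b' : Bool) (a : ℝ), e (e.symm (c.q k) + act (θ k, b') a) =
      c.q k + a • c.vel k := fun k b' a => by
    rw [map_add, LinearIsometryEquiv.apply_symm_apply, act_ofReal, ← Complex.real_smul, map_smul, hθ]
  have hex := ChainTraj_exists_index c.strictMono_t c.tendsto_atTop c.tendsto_atBot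
  obtain ⟨γ, hγ, hγ'⟩ := ChainTraj_model Δ c.t (fun k => e.symm (c.q k))
    (fun k => (θ k, if Even k then b else !b)) c.side c.strictMono_t hex
    (fun k => (h.mem_openSide _ _).1 (by
      rw [LinearIsometryEquiv.apply_symm_apply]; exact c.mem_side k)) c.side_ne
    (fun k => e.injective (by
      rw [hact, LinearIsometryEquiv.apply_symm_apply, Chain.vel, smul_smul,
        mul_inv_cancel₀ (hL k).ne', one_smul, add_sub_cancel]))
    (fun k => Prod.ext (cis_injective (e.injective (by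
      rw [← h.mirror_eq, hθ, hθ, Chain.vel, Chain.vel, ← c.reflect, add_assoc, one_add_one_eq_two])))
      (by by_cases hk : Even k <;> simp [Tri.rf, hk]))
  refine ⟨γ, hγ, ?_, fun s => ?_⟩
  · rw [hγ' 0 0 c.t_zero_le c.t_one_pos]
    simp
  · obtain ⟨k, h1, h2⟩ := hex s
    rw [hγ' k s h1 h2]
    exact ⟨k, h1, h2, hact k _ _, hθ k⟩

end Crest.Agent.R103
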