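import Crest.Agent.R103.Traj
import Crest.Agent.R103.Bary

/-! Row 103: the collision times of a trajectory. -/

set_option autoImplicit false
set_option linter.unusedVariables false

noncomputable section

open MeasureTheory Set Filter Topology
open scoped ComplexConjugate

namespace Crest.Agent.R103

namespace Tri

variable {Δ : Tri} {γ : ℝ → M}

/-- Collision times. -/
def coll (Δ : Tri) (γ : ℝ → M) : Set ℝ := {s | (γ s).1 ∉ Δ.T}

lemma coll_pos_ev {m : M} {j : Fin 3} (h : 0 < Δ.ℓ j m.1) (g : Fr) :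
    ∀ᶠ a : ℝ in 𝓝 0, 0 < Δ.ℓ j (m.1 + act g a) := by
  have hc : Continuous fun a : ℝ => Δ.ℓ j m.1 + a * Δ.nv j g := by fun_prop
  have h1 : ∀ᶠ a : ℝ in 𝓝 0, 0 < Δ.ℓ j m.1 + a * Δ.nv j g :=
    hc.continuousAt.eventually (lt_mem_nhds (by simpa using h))
  filter_upwards [h1] with a ha
  rwa [show Δ.ℓ j (m.1 + act g a) = Δ.ℓ j m.1 + a * Δ.nv j g from Δ.ℓ_add_act_real j (m.1, g) a]

lemma coll_shift {p : ℝ → Prop} {s : ℝ} (h : ∀ᶠ a in 𝓝 (0 : ℝ), p a) : ∀ᶠ u in 𝓝 s, p (u - s) := by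
  have : Tendsto (fun u : ℝ => u - s) (𝓝 s) (𝓝 0) := by
    simpa using (continuous_sub_right s).tendsto s
  exact this.eventually h

lemma coll_others (h : Δ.IsTraj γ) {s : ℝ} {j : Fin 3} (hj : Δ.ℓ j (γ s).1 = 0) (i : Fin 3)
    (hi : i ≠ j) : 0 < Δ.ℓ i (γ s).1 := by
  have h1 := (h s (mem_univ s)).2.1
  have h2 := Δ.d_le (γ s).1 hi
  linarith

lemma coll_nv (h : Δ.IsTraj γ) {s : ℝ} {j : Fin 3} (hj : Δ.ℓ j (γ s).1 = 0) :
    0 < Δ.nv j (γ s).2 := by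
  rcases (h s (mem_univ s)).1 j with h1 | h1
  · exact absurd hj h1.ne'
  · exact h1.2

/-- At a collision time exactly one `ℓ j` vanishes (`d > 0`). -/
lemma IsTraj.side (h : Δ.IsTraj γ) {s : ℝ} (hs : s ∈ Δ.coll γ) :
    ∃ j, Δ.ℓ j (γ s).1 = 0 ∧ (∀ i, i ≠ j → 0 < Δ.ℓ i (γ s).1) ∧ 0 < Δ.nv j (γ s).2 := by
  obtain ⟨j, hj⟩ := not_forall.1 hs
  rcases (h s (mem_univ s)).1 j with h1 | h1
  · exact absurd h1 hj
  · exact ⟨j, h1.1, coll_others h h1.1, h1.2⟩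
/-- Just after any time the motion is straight and inside `T`. -/
lemma IsTraj.right (h : Δ.IsTraj γ) (s : ℝ) :
    ∀ᶠ a : ℝ in 𝓝[>] 0, γ (s + a) = ((γ s).1 + act (γ s).2 a, (γ s).2) ∧ (γ (s + a)).1 ∈ Δ.T := by
  have h1 : ∀ᶠ a : ℝ in 𝓝[>] 0, ∀ j, 0 < Δ.ℓ j ((γ s).1 + act (γ s).2 a) := by
    refine eventually_all.2 fun j => ?_
    rcases (h s (mem_univ s)).1 j with h1 | h1
    · exact (coll_pos_ev h1 _).filter_mono nhdsWithin_le_nhds
    · filter_upwards [self_mem_nhdsWithin] with a ha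
      rw [Δ.ℓ_add_act_real, h1.1, zero_add]
      exact mul_pos ha h1.2
  filter_upwards [h1, (h s (mem_univ s)).2.2.filter_mono nhdsWithin_le_nhds] with a ha hb
  rw [hb, Δ.τ_of_mem_T ha]
  exact ⟨rfl, ha⟩
/-- Just before a collision with side `j` (`τ_of_neg`, `σ_add_act`). -/
lemma IsTraj.left (h : Δ.IsTraj γ) {s : ℝ} {j : Fin 3} (hj : Δ.ℓ j (γ s).1 = 0) :
    ∀ᶠ a : ℝ in 𝓝[<] 0, γ (s + a) = ((γ s).1 + act (Δ.rf j (γ s).2) a, Δ.rf j (γ s).2) ∧
      (γ (s + a)).1 ∈ Δ.T := by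
  have hn := coll_nv h hj
  have h1 : ∀ᶠ a : ℝ in 𝓝[<] 0, ∀ i, 0 < Δ.ℓ i ((γ s).1 + act (Δ.rf j (γ s).2) a) := by
    refine eventually_all.2 fun i => ?_
    by_cases hi : i = j
    · subst hi
      filter_upwards [self_mem_nhdsWithin] with a ha
      rw [show Δ.ℓ i ((γ s).1 + act (Δ.rf i (γ s).2) a) =
        Δ.ℓ i (γ s).1 + a * Δ.nv i (Δ.rf i (γ s).2) from
          Δ.ℓ_add_act_real i ((γ s).1, Δ.rf i (γ s).2) a, hj, zero_add, Δ.nv_rf]
      exact mul_pos_of_neg_of_neg ha (by linarith)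
    · exact (coll_pos_ev (coll_others h hj i hi) _).filter_mono nhdsWithin_le_nhds
  have h2 : ∀ᶠ a : ℝ in 𝓝 0, 8 * ‖(a : ℂ)‖ < Δ.d (γ s).1 := by
    have hc : Continuous fun a : ℝ => 8 * ‖(a : ℂ)‖ := by fun_prop
    exact hc.continuousAt.eventually (gt_mem_nhds (by simpa using (h s (mem_univ s)).2.1))
  filter_upwards [h1, h2.filter_mono nhdsWithin_le_nhds, self_mem_nhdsWithin,
    (h s (mem_univ s)).2.2.filter_mono nhdsWithin_le_nhds] with a ha hb hc hd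
  have h3 : Δ.ℓ j ((γ s).1 + act (γ s).2 a) < 0 := by
    rw [Δ.ℓ_add_act_real, hj, zero_add]
    exact mul_neg_of_neg_of_pos hc hn
  have h4 : γ (s + a) = ((γ s).1 + act (Δ.rf j (γ s).2) a, Δ.rf j (γ s).2) := by
    rw [hd, Δ.τ_of_neg (Δ.Cl_of_Sig (h s (mem_univ s)).1) hb h3, refl]
    simp only
    rw [Δ.σ_add_act, Δ.σ_of_ℓ_eq_zero j hj]
  rw [h4]
  exact ⟨rfl, ha⟩
/-- Without collisions in `(s, t)` the motion is straight on `[s, t)` (the function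
`u ↦ ((γ u).1 - act (γ u).2 u, (γ u).2)` is locally constant on `(s, t)` by `τ_of_mem_T`, and
`right` handles the end point `s`). -/
lemma IsTraj.straight (h : Δ.IsTraj γ) {s t : ℝ} (hc : ∀ u ∈ Ioo s t, u ∉ Δ.coll γ) :
    ∀ u ∈ Ico s t, γ u = ((γ s).1 + act (γ s).2 (u - s : ℝ), (γ s).2) := by
  set P : ℝ → ℝ → Prop := fun x y => γ y = ((γ x).1 + act (γ x).2 (y - x : ℝ), (γ x).2) with hP
  have htr : ∀ x y z, P x y → P y z → P x z := by
    intro x y z h1 h2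
    simp only [hP] at h1 h2 ⊢
    rw [h2, h1]
    simp only
    rw [add_assoc, ← act_add]
    congr 3
    push_cast; ring
  have hsy : ∀ x y, P x y → P y x := by
    intro x y h1
    simp only [hP] at h1 ⊢
    rw [h1]
    simp only
    rw [add_assoc, ← act_add]
    have : ((y - x : ℝ) : ℂ) + ((x - y : ℝ) : ℂ) = 0 := by push_cast; ring
    rw [this, act_zero, add_zero]
  have hloc : ∀ x ∈ Ioo s t, ∀ᶠ y in 𝓝[Ioo s t] x, P x y := by
    intro x hx
    have hT : (γ x).1 ∈ Δ.T := not_not.1 (hc x hx)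
    have h1 : ∀ᶠ a : ℝ in 𝓝 0, ∀ j, 0 < Δ.ℓ j ((γ x).1 + act (γ x).2 a) :=
      eventually_all.2 fun j => coll_pos_ev (hT j) _
    refine Eventually.filter_mono nhdsWithin_le_nhds ?_
    filter_upwards [coll_shift (s := x) (h1.and (h x (mem_univ x)).2.2)] with y hy
    have h2 := hy.2
    rw [add_sub_cancel, Δ.τ_of_mem_T hy.1] at h2
    exact h2
  intro u hu
  rcases hu.1.eq_or_lt with rfl | hsu
  · simp [act_zero]
  · have h1 : ∀ᶠ a : ℝ in 𝓝[>] 0, a < t - s :=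
      (gt_mem_nhds (by linarith [hu.2])).filter_mono nhdsWithin_le_nhds
    obtain ⟨a, ⟨ha, hb⟩, hc'⟩ := (((h.right s).and h1).and self_mem_nhdsWithin).exists
    have h2 : P s (s + a) := by
      simp only [hP, add_sub_cancel_left]
      exact ha.1
    have hc'' : 0 < a := hc'
    exact htr _ _ _ h2 (isPreconnected_Ioo.induction₂ P hloc (fun x y z _ _ _ => htr x y z)
      (fun x y _ _ => hsy x y) ⟨by linarith, by linarith⟩ ⟨hsu, hu.2⟩)
/-- `coll` is closed (`continuous_pos`) and discrete (`right`, `left`). -/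
lemma IsTraj.finite_coll (h : Δ.IsTraj γ) (a b : ℝ) : (Δ.coll γ ∩ Icc a b).Finite := by
  have hloc : ∀ s : ℝ, ∀ᶠ u in 𝓝 s, u ∈ Δ.coll γ → u = s := by
    intro s
    by_cases hs : s ∈ Δ.coll γ
    · obtain ⟨j, hj, -, -⟩ := h.side hs
      have h1 := eventually_nhdsWithin_iff.1 (h.right s)
      have h2 := eventually_nhdsWithin_iff.1 (h.left hj)
      filter_upwards [coll_shift (s := s) (h1.and h2)] with u hu hu'
      rw [add_sub_cancel] at hu
      rcases lt_trichotomy u s with h3 | h3 | h3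
      · exact absurd (hu.2 (sub_neg.2 h3)).2 hu'
      · exact h3
      · exact absurd (hu.1 (sub_pos.2 h3)).2 hu'
    · filter_upwards [h.continuous_pos.continuousAt.eventually
        (Δ.isOpen_T.mem_nhds (not_not.1 hs))] with u hu hu'
      exact absurd hu hu'
  refine (isCompact_Icc (a := a) (b := b)).induction_on (p := fun S => (Δ.coll γ ∩ S).Finite)
    (by simp) (fun S S' hS h' => h'.subset (inter_subset_inter_right _ hS))
    (fun S S' h1 h2 => by rw [inter_union_distrib_left]; exact h1.union h2) (fun x _ => ?_)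
  exact ⟨_, mem_nhdsWithin_of_mem_nhds (hloc x),
    (finite_singleton x).subset fun u hu => hu.2 hu.1⟩
/-- The triangle is bounded (`exists_bound`, `straight`). -/
lemma IsTraj.coll_unbounded (h : Δ.IsTraj γ) (a : ℝ) :
    (∃ s ∈ Δ.coll γ, a < s) ∧ ∃ s ∈ Δ.coll γ, s < a := by
  obtain ⟨R, hR⟩ := Δ.exists_bound
  have hb : ∀ s, ‖(γ s).1‖ ≤ R := fun s => hR _ (Δ.Cl_of_Sig (h s (mem_univ s)).1)
  have hR0 : 0 ≤ R := (norm_nonneg _).trans (hb 0)
  have key : ∀ s, ∃ u ∈ Ioo s (s + (2 * R + 2)), u ∈ Δ.coll γ := by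
    intro s
    by_contra hn
    push Not at hn
    have h1 := h.straight hn (s + (2 * R + 1)) ⟨by linarith, by linarith⟩
    have h2 : ‖(γ (s + (2 * R + 1))).1 - (γ s).1‖ = 2 * R + 1 := by
      rw [h1]
      simp only [add_sub_cancel_left]
      rw [norm_act, Complex.norm_real, Real.norm_of_nonneg (by linarith)]
    have h3 := _root_.norm_sub_le (γ (s + (2 * R + 1))).1 (γ s).1
    linarith [hb s, hb (s + (2 * R + 1))]
  obtain ⟨u, hu, hu'⟩ := key a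
  obtain ⟨v, hv, hv'⟩ := key (a - (2 * R + 2))
  exact ⟨⟨u, hu', hu.1⟩, v, hv', by linarith [hv.2]⟩

end Tri

/-- A locally finite subset of `ℝ`, unbounded in both directions, is enumerated by `ℤ`
(`LocallyFiniteOrder.ofFiniteIcc`, `LinearLocallyFiniteOrder.succOrder`,
`orderIsoIntOfLinearSuccPredArch`, then shift the index; or a direct recursion). -/
lemma exists_enum {Z : Set ℝ} (hfin : ∀ a b, (Z ∩ Icc a b).Finite)
    (hu : ∀ a, (∃ s ∈ Z, a < s) ∧ ∃ s ∈ Z, s < a) :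
    ∃ t : ℤ → ℝ, StrictMono t ∧ range t = Z ∧ t 0 ≤ 0 ∧ 0 < t 1 ∧ Tendsto t atTop atTop ∧
      Tendsto t atBot atBot := by
  let _ : LocallyFiniteOrder Z := LocallyFiniteOrder.ofFiniteIcc fun a b =>
    ((hfin a b).preimage Subtype.val_injective.injOn).subset fun x hx => ⟨x.2, hx.1, hx.2⟩
  let _ : SuccOrder Z := LinearLocallyFiniteOrder.succOrder Z
  let _ : PredOrder Z := LinearLocallyFiniteOrder.predOrder Z
  have : NoMaxOrder Z := ⟨fun a => by
    obtain ⟨s, hs, h⟩ := (hu a).1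
    exact ⟨⟨s, hs⟩, h⟩⟩
  have : NoMinOrder Z := ⟨fun a => by
    obtain ⟨s, hs, h⟩ := (hu a).2
    exact ⟨⟨s, hs⟩, h⟩⟩
  have : Nonempty Z := by
    obtain ⟨s, hs, -⟩ := (hu 0).1
    exact ⟨⟨s, hs⟩⟩
  let e : ℤ ≃o Z := (orderIsoIntOfLinearSuccPredArch (ι := Z)).symm
  have hmono : StrictMono fun n => (e n : ℝ) := fun m n h => e.strictMono h
  have hsurj : ∀ s ∈ Z, ∃ n, (e n : ℝ) = s := fun s hs => ⟨e.symm ⟨s, hs⟩, by simp⟩
  obtain ⟨n₀, h0, h1⟩ : ∃ n₀ : ℤ, (e n₀ : ℝ) ≤ 0 ∧ ∀ n, (e n : ℝ) ≤ 0 → n ≤ n₀ := by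
    refine Int.exists_greatest_of_bdd ?_ ?_
    · obtain ⟨s, hs, h⟩ := (hu 0).1
      obtain ⟨n, rfl⟩ := hsurj s hs
      exact ⟨n, fun z hz => (hmono.lt_iff_lt.1 (hz.trans_lt h)).le⟩
    · obtain ⟨s, hs, h⟩ := (hu 0).2
      obtain ⟨n, rfl⟩ := hsurj s hs
      exact ⟨n, h.le⟩
  have hm : StrictMono fun n => (e (n + n₀) : ℝ) := fun m n h => hmono (by simpa using h)
  refine ⟨fun n => (e (n + n₀) : ℝ), hm, ?_, by simpa using h0, ?_, ?_, ?_⟩
  · refine Subset.antisymm ?_ fun s hs => ?_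
    · rintro _ ⟨n, rfl⟩
      exact (e (n + n₀)).2
    · obtain ⟨n, rfl⟩ := hsurj s hs
      exact ⟨n - n₀, by simp⟩
  · by_contra hn
    have := h1 _ (not_lt.1 hn)
    omega
  · refine tendsto_atTop_atTop_of_monotone hm.monotone fun b => ?_
    obtain ⟨s, hs, h⟩ := (hu b).1
    obtain ⟨n, rfl⟩ := hsurj s hs
    exact ⟨n - n₀, by simpa using h.le⟩
  · refine tendsto_atBot_atBot_of_monotone hm.monotone fun b => ?_
    obtain ⟨s, hs, h⟩ := (hu b).2
    obtain ⟨n, rfl⟩ := hsurj s hs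
    exact ⟨n - n₀, by simpa using h.le⟩

end Crest.Agent.R103
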