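import Mathlib

/-! Row 103: the logarithmic cut-off profile. -/

set_option autoImplicit false
set_option linter.unusedVariables false

noncomputable section

open MeasureTheory Set Filter Topology
open scoped ComplexConjugate InnerProductSpace

namespace Crest.Agent.R103

/-- `0` on `(-∞, 1]`, `1` on `[2^J, ∞)`, logarithmic in between. -/
def Lam (J : ℕ) (r : ℝ) : ℝ := Real.log (max 1 (min r (2 ^ J))) / Real.log (2 ^ J)

lemma lam_log_pos {J : ℕ} (hJ : 0 < J) : 0 < Real.log ((2 : ℝ) ^ J) :=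
  Real.log_pos (one_lt_pow₀ one_lt_two hJ.ne')

lemma lam_log_sub {a b m δ : ℝ} (hm : 0 < m) (ha : m ≤ a) (hb : m ≤ b) (h : |b - a| ≤ δ) :
    Real.log b - Real.log a ≤ δ / m := by
  have ha0 : 0 < a := hm.trans_le ha
  have hb0 : 0 < b := hm.trans_le hb
  rw [← Real.log_div hb0.ne' ha0.ne']
  refine (Real.log_le_sub_one_of_pos (div_pos hb0 ha0)).trans ?_
  rw [div_sub_one ha0.ne']
  exact div_le_div₀ ((abs_nonneg _).trans h) ((le_abs_self _).trans h) hm ha

lemma continuous_Lam (J : ℕ) : Continuous (Lam J) := by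
  refine Continuous.div_const (Continuous.log (by fun_prop) fun r => ?_) _
  exact (zero_lt_one.trans_le (le_max_left _ _)).ne'
lemma Lam_nonneg (J : ℕ) (r : ℝ) : 0 ≤ Lam J r :=
  div_nonneg (Real.log_nonneg (le_max_left _ _)) (Real.log_nonneg (one_le_pow₀ one_le_two))
lemma Lam_le_one (J : ℕ) (r : ℝ) : Lam J r ≤ 1 := by
  have hN : (1 : ℝ) ≤ 2 ^ J := one_le_pow₀ one_le_two
  exact div_le_one_of_le₀ (Real.log_le_log (zero_lt_one.trans_le (le_max_left _ _))
    (max_le hN (min_le_right _ _))) (Real.log_nonneg hN)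
lemma Lam_of_le_one (J : ℕ) {r : ℝ} (h : r ≤ 1) : Lam J r = 0 := by
  rw [Lam, max_eq_left ((min_le_left _ _).trans h), Real.log_one, zero_div]
lemma Lam_of_ge {J : ℕ} (hJ : 0 < J) {r : ℝ} (h : 2 ^ J ≤ r) : Lam J r = 1 := by
  rw [Lam, min_eq_right h, max_eq_right (one_le_pow₀ one_le_two), div_self (lam_log_pos hJ).ne']
/-- `|log c - log c'| ≤ |c - c'| / min c c'`, the clamp is `1`-Lipschitz, and
`min c c' ≥ max 1 r / 4` when `r < 2 · 2^J`; for `r ≥ 2 · 2^J` both values are `1`. -/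
lemma Lam_sub_le {J : ℕ} (hJ : 0 < J) {r r' δ : ℝ} (hδ : δ ≤ 1 / 2) (h : |r' - r| ≤ δ) :
    |Lam J r' - Lam J r| ≤
      if r < 2 * 2 ^ J then 4 * δ / (Real.log (2 ^ J) * max 1 r) else 0 := by
  have hN : (1 : ℝ) ≤ 2 ^ J := one_le_pow₀ one_le_two
  obtain ⟨h1, h2⟩ := abs_le.1 h
  split_ifs with hr
  · have hL := lam_log_pos hJ
    have hm : 0 < max 1 r / 4 := by positivity
    have hc : |max 1 (min r' (2 ^ J)) - max 1 (min r (2 ^ J))| ≤ δ := by
      simp only [max_def, min_def]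
      split_ifs <;> rw [abs_le] <;> constructor <;> linarith
    have ha : max 1 r / 4 ≤ max 1 (min r (2 ^ J)) := by
      simp only [max_def, min_def]
      split_ifs <;> linarith
    have hb : max 1 r / 4 ≤ max 1 (min r' (2 ^ J)) := by
      simp only [max_def, min_def]
      split_ifs <;> linarith
    have k1 := lam_log_sub hm ha hb hc
    have k2 := lam_log_sub hm hb ha ((abs_sub_comm _ _).trans_le hc)
    have e : 4 * δ / (Real.log (2 ^ J) * max 1 r) = δ / (max 1 r / 4) / Real.log (2 ^ J) := by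
      field_simp
    rw [Lam, Lam, ← sub_div, abs_div, abs_of_pos hL, e]
    exact div_le_div_of_nonneg_right (abs_le.2 ⟨by linarith, k1⟩) hL.le
  · rw [Lam_of_ge hJ (by linarith), Lam_of_ge hJ (by linarith), sub_self, abs_zero]
lemma lam_dyadic (J : ℕ) {r : ℝ} (hr : r < 2 * 2 ^ J) : ((max 1 r) ^ 2)⁻¹ ≤
    ∑ j ∈ Finset.range (J + 1), ((4 : ℝ) ^ j)⁻¹ * (Iio ((2 : ℝ) ^ (j + 1))).indicator 1 r := by
  obtain ⟨j, h1, h2⟩ := exists_nat_pow_near (le_max_left 1 r) (one_lt_two (α := ℝ))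
  have hN : (1 : ℝ) ≤ 2 ^ J := one_le_pow₀ one_le_two
  have hj : j < J + 1 := by
    refine (pow_lt_pow_iff_right₀ (one_lt_two (α := ℝ))).1 (h1.trans_lt ?_)
    rw [pow_succ']
    exact max_lt (by linarith) hr
  refine le_trans ?_ (Finset.single_le_sum
    (f := fun j => ((4 : ℝ) ^ j)⁻¹ * (Iio ((2 : ℝ) ^ (j + 1))).indicator 1 r)
    (fun i _ => mul_nonneg (by positivity) (indicator_nonneg (fun _ _ => zero_le_one) _))
    (Finset.mem_range.2 hj))
  rw [indicator_of_mem (mem_Iio.2 ((le_max_right 1 r).trans_lt h2)), Pi.one_apply, mul_one]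
  refine inv_anti₀ (by positivity) ?_
  rw [show (4 : ℝ) = 2 ^ 2 by norm_num, ← pow_mul, mul_comm, pow_mul]
  exact pow_le_pow_left₀ (by positivity) h1 2

/-- Dyadic decomposition:
`∫_{D < 2^(J+1)} (max 1 D)⁻² ≤ μ {D < 1} + ∑_{j ≤ J} 4^{-j} μ {D < 2^(j+1)} ≤ c (1 + 4 (J+1)) ≤ 9 J c`,
and `log² 2 ≥ 0.48`. -/
theorem integral_Lam_sub {α : Type*} [MeasurableSpace α] {μ : Measure α} [IsFiniteMeasure μ]
    {D D' : α → ℝ} (hD : Measurable D) (hD' : Measurable D') {E : Set α} (hE : MeasurableSet E)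
    {J : ℕ} (hJ : 0 < J) {c δ : ℝ} (hc : 0 ≤ c) (hδ : δ ≤ 1 / 2)
    (hμ : ∀ r : ℝ, 1 ≤ r → μ {x | D x < r} ≤ ENNReal.ofReal (c * r ^ 2))
    (h : ∀ᵐ x ∂μ, x ∈ E → |D' x - D x| ≤ δ) :
    ∫ x in E, (Lam J (D' x) - Lam J (D x)) ^ 2 ∂μ ≤ 400 * δ ^ 2 * c / J := by
  have hL := lam_log_pos hJ
  set K : ℝ := (4 * δ / Real.log (2 ^ J)) ^ 2 with hK
  have hK0 : 0 ≤ K := sq_nonneg _
  have hS : ∀ j : ℕ, MeasurableSet {x | D x < (2 : ℝ) ^ (j + 1)} := fun j =>
    measurableSet_lt hD measurable_const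
  set g : α → ℝ := fun x => ∑ j ∈ Finset.range (J + 1),
    ((4 : ℝ) ^ j)⁻¹ * {x | D x < (2 : ℝ) ^ (j + 1)}.indicator 1 x with hg
  have hi : ∀ j : ℕ, Integrable
      (fun x => ((4 : ℝ) ^ j)⁻¹ * {x | D x < (2 : ℝ) ^ (j + 1)}.indicator (1 : α → ℝ) x) μ :=
    fun j => ((integrable_const (1 : ℝ)).indicator (hS j)).const_mul _
  have hgi : Integrable g μ := integrable_finsetSum _ fun j _ => hi j
  have hg0 : ∀ x, 0 ≤ g x := fun x => Finset.sum_nonneg fun j _ =>
    mul_nonneg (by positivity) (indicator_nonneg (fun _ _ => zero_le_one) _)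
  have h1 : ∫ x in E, (Lam J (D' x) - Lam J (D x)) ^ 2 ∂μ ≤ ∫ x in E, K * g x ∂μ := by
    refine integral_mono_of_nonneg (Eventually.of_forall fun x => sq_nonneg _)
      (hgi.const_mul K).integrableOn ((ae_restrict_iff' hE).2 ?_)
    filter_upwards [h] with x hx hxE
    have k := pow_le_pow_left₀ (abs_nonneg _) (Lam_sub_le hJ hδ (hx hxE)) 2
    rw [sq_abs] at k
    refine k.trans ?_
    split_ifs with hr
    · have e : (4 * δ / (Real.log (2 ^ J) * max 1 (D x))) ^ 2 = K * ((max 1 (D x)) ^ 2)⁻¹ := by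
        rw [hK]; ring
      rw [e]
      exact mul_le_mul_of_nonneg_left (lam_dyadic J hr) hK0
    · simpa using mul_nonneg hK0 (hg0 x)
  have h2 : ∫ x in E, K * g x ∂μ ≤ ∫ x, K * g x ∂μ :=
    setIntegral_le_integral (hgi.const_mul K)
      (Eventually.of_forall fun x => mul_nonneg hK0 (hg0 x))
  have h3 : ∫ x, g x ∂μ ≤ (J + 1) * (4 * c) := by
    rw [hg, integral_finsetSum _ fun j _ => hi j]
    refine (Finset.sum_le_card_nsmul _ _ (4 * c) fun j _ => ?_).trans (by simp)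
    rw [integral_const_mul, integral_indicator_one (hS j), inv_mul_le_iff₀ (by positivity)]
    refine (ENNReal.toReal_le_of_le_ofReal (by positivity)
      (hμ _ (one_le_pow₀ one_le_two))).trans (le_of_eq ?_)
    rw [← pow_mul, mul_comm (j + 1), pow_mul]
    norm_num
    ring
  rw [integral_const_mul K g (μ := μ)] at h2
  refine (h1.trans (h2.trans (mul_le_mul_of_nonneg_left h3 hK0))).trans ?_
  have hJ1 : (1 : ℝ) ≤ J := by exact_mod_cast hJ
  have hl : (0.48 : ℝ) ≤ Real.log 2 ^ 2 := by nlinarith [Real.log_two_gt_d9]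
  have hl0 : 0 < Real.log 2 := Real.log_pos one_lt_two
  have e : K * ((J + 1) * (4 * c)) = δ ^ 2 * c / J * (64 * (J + 1) / (J * Real.log 2 ^ 2)) := by
    rw [hK, Real.log_pow]
    field_simp
    ring
  have k : 64 * ((J : ℝ) + 1) / (J * Real.log 2 ^ 2) ≤ 400 := by
    rw [div_le_iff₀ (by positivity)]
    nlinarith
  rw [e]
  refine (mul_le_mul_of_nonneg_left k (by positivity)).trans (le_of_eq ?_)
  ring

end Crest.Agent.R103
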