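import Crest.Agent.R103.ADistY
import Crest.Agent.R103.Lam

/-! Row 103: the cut-off functions. -/

set_option autoImplicit false
set_option linter.unusedVariables false

noncomputable section

open MeasureTheory Set Filter Topology
open scoped ComplexConjugate InnerProductSpace

namespace Crest.Agent.R103

namespace Tri

variable (Δ : Tri)

/-- `ζ = Lam J ∘ aD ε L`.  With `C` from `μ_aD_lt`, `Q = 2^J`, `L = η / (C Q² ε²)` (`≥ 400` for
small `ε`), `c = C L ε² = η / Q²`:  `∫ (1 - ζ)² ≤ μ {aD < Q} ≤ η`;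
`A = ∫ (ζ ∘ φ ε - ζ)² ≤ 400 c / (L² J) = C' ε⁴`;  `B ≤ 100 c / J`;
`A B ≤ 40000 c² / (L² J²) = 40000 C² ε⁴ / J² ≤ η ε⁴` for `J` large. -/
theorem exists_cutoff {η : ℝ} (hη : 0 < η) : ∃ C' ε₀ : ℝ, 0 < C' ∧ 0 < ε₀ ∧ ∀ ε : ℝ, 0 < ε →
    ε < ε₀ → ∃ ζ : M → ℝ, Measurable ζ ∧ (∀ m, 0 ≤ ζ m) ∧ (∀ m, ζ m ≤ 1) ∧
      (∀ m, Δ.d m.1 ≤ 400 * ε → ζ m = 0) ∧ ∫ m, (1 - ζ m) ^ 2 ∂Δ.μ ≤ η ∧
      ∫ m, (ζ (Δ.φ ε m) - ζ m) ^ 2 ∂Δ.μ ≤ C' * ε ^ 4 ∧
      (∫ m, (ζ (Δ.φ ε m) - ζ m) ^ 2 ∂Δ.μ) *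
        (∫ m in {m | 100 * ε < Δ.d m.1}, (ζ (Δ.τ (ε * Complex.I) m) - ζ m) ^ 2 ∂Δ.μ) ≤
          η * ε ^ 4 := by
  obtain ⟨C, hC, hμ⟩ := Δ.μ_aD_lt
  obtain ⟨J, hJ, hJη⟩ : ∃ J : ℕ, 0 < J ∧ 40000 * C ^ 2 ≤ η * J := by
    obtain ⟨J, hJ⟩ := exists_nat_gt (40000 * C ^ 2 / η)
    exact ⟨J, Nat.cast_pos.1 (lt_trans (by positivity) hJ),
      by rw [div_lt_iff₀ hη] at hJ; linarith⟩
  have hJ1 : (1 : ℝ) ≤ J := by exact_mod_cast hJ
  obtain ⟨Q, hQ⟩ : ∃ Q : ℝ, Q = 2 ^ J := ⟨_, rfl⟩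
  have hQ1 : 1 ≤ Q := hQ ▸ one_le_pow₀ one_le_two
  refine ⟨400 * C ^ 2 * Q ^ 2 / (η * J), min 1 (η / (400 * C * Q ^ 2)), by positivity,
    by positivity, fun ε hε hε₀ => ?_⟩
  obtain ⟨h1, h2⟩ := lt_min_iff.1 hε₀
  obtain ⟨L, hL⟩ : ∃ L : ℝ, L = η / (C * Q ^ 2 * ε ^ 2) := ⟨_, rfl⟩
  have hL4 : 400 ≤ L := by
    rw [lt_div_iff₀ (by positivity)] at h2
    rw [hL, le_div_iff₀ (by positivity)]
    have : 400 * C * Q ^ 2 * ε ^ 2 ≤ 400 * C * Q ^ 2 * ε ^ 1 :=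
      mul_le_mul_of_nonneg_left (pow_le_pow_of_le_one hε.le h1.le one_le_two) (by positivity)
    linarith
  have hL0 : 0 < L := by linarith
  have hD := Δ.measurable_aD ε L
  have hc : 0 ≤ C * L * ε ^ 2 := by positivity
  have hA := integral_Lam_sub hD (hD.comp (Δ.measurable_φ' ε)) MeasurableSet.univ hJ hc
    (δ := 1 / L) (one_div_le_one_div_of_le two_pos (by linarith))
    (fun r hr => hμ ε L r hε hL4 hr) (Eventually.of_forall fun m _ => Δ.aD_φ hε hL0 m)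
  have hB := integral_Lam_sub hD (hD.comp (Δ.measurable_τ' (ε * Complex.I)))
    (E := {m | 100 * ε < Δ.d m.1})
    (measurableSet_lt measurable_const (Δ.continuous_d.comp continuous_fst).measurable) hJ hc
    le_rfl (fun r hr => hμ ε L r hε hL4 hr) (Δ.aD_τ hε hL0)
  rw [Measure.restrict_univ] at hA
  refine ⟨fun m => Lam J (Δ.aD ε L m), (continuous_Lam J).measurable.comp hD,
    fun m => Lam_nonneg _ _, fun m => Lam_le_one _ _,
    fun m hm => Lam_of_le_one _ (Δ.aD_le_one hε hL0 hm), ?_, hA.trans_eq ?_,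
    (mul_le_mul hA hB (integral_nonneg fun _ => sq_nonneg _) (by positivity)).trans ?_⟩
  · have hs : MeasurableSet {m | Δ.aD ε L m < Q} := measurableSet_lt hD measurable_const
    refine (integral_mono_of_nonneg (g := {m | Δ.aD ε L m < Q}.indicator 1)
      (Eventually.of_forall fun _ => sq_nonneg _) ((integrable_const (1 : ℝ)).indicator hs)
      (Eventually.of_forall fun m => ?_)).trans ?_
    · by_cases hm : Δ.aD ε L m < Q
      · rw [indicator_of_mem (show m ∈ {m | Δ.aD ε L m < Q} from hm)]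
        exact pow_le_one₀ (sub_nonneg.2 (Lam_le_one _ _)) (sub_le_self _ (Lam_nonneg _ _))
      · rw [indicator_of_notMem (show m ∉ {m | Δ.aD ε L m < Q} from hm)]
        simp only [Lam_of_ge hJ (hQ ▸ not_lt.1 hm), sub_self]
        norm_num
    · rw [integral_indicator_one hs]
      refine (ENNReal.toReal_le_of_le_ofReal (by positivity) (hμ ε L Q hε hL4 hQ1)).trans_eq ?_
      rw [hL]
      field_simp
  · rw [hL]
    field_simp
  · calc _ = 40000 * C ^ 2 / J / J * ε ^ 4 := by field_simp; ring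
      _ ≤ η * ε ^ 4 := by
        gcongr
        exact (div_le_self (by positivity) hJ1).trans ((div_le_iff₀ (by positivity)).2 hJη)

end Tri

end Crest.Agent.R103
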