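import Mathlib

/-! Row 103 (S0136): billiards in an irrational triangle are weakly mixing.  Model definitions.

The model is the unit tangent bundle of the *double* of the triangle: a point of `M` is a position
`x ∈ ℂ` and a frame `g = (θ, ε)` (first vector `cis θ`, orientation `ε`).  `τ w` is the local
leafwise translation by the vector with frame coordinates `w` (with at most one reflection). -/

set_option autoImplicit false

noncomputable section

open MeasureTheory Set Filter Topology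
open scoped ComplexConjugate

namespace Crest.Agent.R103

instance factTwoPi : Fact (0 < 2 * Real.pi) := ⟨Real.two_pi_pos⟩

/-- Directions. -/
abbrev Ang : Type := AddCircle (2 * Real.pi)

/-- The unit vector of a direction. -/
def cis (θ : Ang) : ℂ := (AddCircle.toCircle θ : ℂ)

lemma cis_coe (x : ℝ) : cis (x : Ang) = Complex.exp (x * Complex.I) := by
  have h : 2 * Real.pi / (2 * Real.pi) * x = x := by
    rw [div_self Real.two_pi_pos.ne', one_mul]
  rw [cis, AddCircle.toCircle_apply_mk, h, Circle.coe_exp]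

lemma cis_add (θ θ' : Ang) : cis (θ + θ') = cis θ * cis θ' := by
  rw [cis, AddCircle.toCircle_add, Circle.coe_mul]; rfl

lemma cis_neg (θ : Ang) : cis (-θ) = conj (cis θ) := by
  rw [cis, AddCircle.toCircle_neg, Circle.coe_inv_eq_conj]; rfl

lemma cis_sub (θ θ' : Ang) : cis (θ - θ') = cis θ * conj (cis θ') := by
  rw [sub_eq_add_neg, cis_add, cis_neg]

lemma cis_zero : cis 0 = 1 := by rw [cis, AddCircle.toCircle_zero, Circle.coe_one]

lemma cis_pi : cis ((Real.pi : ℝ) : Ang) = -1 := by rw [cis_coe, Complex.exp_pi_mul_I]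

lemma norm_cis (θ : Ang) : ‖cis θ‖ = 1 := Circle.norm_coe _

lemma cis_mul_conj (θ : Ang) : cis θ * conj (cis θ) = 1 := by
  rw [← cis_sub, sub_self, cis_zero]

lemma continuous_cis : Continuous cis :=
  continuous_subtype_val.comp AddCircle.continuous_toCircle

lemma cis_injective : Function.Injective cis := fun _ _ h =>
  AddCircle.injective_toCircle Real.two_pi_pos.ne' (Circle.ext h)

lemma exists_cis {z : ℂ} (hz : ‖z‖ = 1) : ∃ θ : Ang, cis θ = z :=
  ⟨(Complex.arg z : ℝ), by
    rw [cis_coe]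
    have := Complex.norm_mul_exp_arg_mul_I z
    rwa [hz, Complex.ofReal_one, one_mul] at this⟩

/-- A triangle: vertices `A j` and inward unit normals `cis (β j)` of the side `j`, which joins
`A (j+1)` and `A (j+2)`. -/
structure Tri where
  A : Fin 3 → ℂ
  β : Fin 3 → Ang
  h0 : ∀ j, ((A (j + 2) - A (j + 1)) * conj (cis (β j))).re = 0
  hpos : ∀ j, 0 < ((A j - A (j + 1)) * conj (cis (β j))).re

/-- Frames: direction of the first vector and orientation. -/
abbrev Fr : Type := Ang × Bool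
/-- The phase space of the double of the triangle. -/
abbrev M : Type := ℂ × Fr

/-- The vector with coordinates `w` in the frame `g`. -/
def act (g : Fr) (w : ℂ) : ℂ := cis g.1 * (if g.2 then w else conj w)
/-- Rotation of a frame. -/
def rotF (ψ : ℝ) (g : Fr) : Fr := (g.1 + ((if g.2 then ψ else -ψ : ℝ) : Ang), g.2)
def rot (ψ : ℝ) (m : M) : M := (m.1, rotF ψ m.2)
/-- Haar measure on frames. -/
def lamF : Measure Fr := (volume : Measure Ang).prod Measure.count

/-- `T` is measure non-increasing on `E`. -/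
def SubMP {α : Type*} [MeasurableSpace α] (μ : Measure α) (E : Set α) (T : α → α) : Prop :=
  ∀ B, MeasurableSet B → μ (E ∩ T ⁻¹' B) ≤ μ B

namespace Tri

variable (Δ : Tri)

/-- Inward unit normal. -/
def ν (j : Fin 3) : ℂ := cis (Δ.β j)
/-- Signed distance to the line of side `j`. -/
def ℓ (j : Fin 3) (z : ℂ) : ℝ := ((z - Δ.A (j + 1)) * conj (Δ.ν j)).re
/-- On the closed triangle, comparable with the distance to the vertices. -/
def d (z : ℂ) : ℝ := min (Δ.ℓ 1 z + Δ.ℓ 2 z) (min (Δ.ℓ 2 z + Δ.ℓ 0 z) (Δ.ℓ 0 z + Δ.ℓ 1 z))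
/-- The open triangle. -/
def T : Set ℂ := {z | ∀ j, 0 < Δ.ℓ j z}
/-- The closed triangle. -/
def Cl (z : ℂ) : Prop := ∀ j, 0 ≤ Δ.ℓ j z
/-- Reflection in the line of side `j`. -/
def σ (j : Fin 3) (z : ℂ) : ℂ := z - 2 * (Δ.ℓ j z : ℂ) * Δ.ν j
/-- Its action on frames. -/
def rf (j : Fin 3) (g : Fr) : Fr := (Δ.β j + Δ.β j + ((Real.pi : ℝ) : Ang) - g.1, !g.2)
def refl (j : Fin 3) (m : M) : M := (Δ.σ j m.1, Δ.rf j m.2)
/-- Normal component of the velocity. -/
def nv (j : Fin 3) (g : Fr) : ℝ := (cis g.1 * conj (Δ.ν j)).re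
def Bad (j : Fin 3) (m : M) : Prop := Δ.ℓ j m.1 < 0 ∨ (Δ.ℓ j m.1 = 0 ∧ Δ.nv j m.2 < 0)
open Classical in
/-- Fold back into the triangle (one reflection at most). -/
def fold (m : M) : M :=
  if Δ.Bad 0 m then Δ.refl 0 m else if Δ.Bad 1 m then Δ.refl 1 m else
    if Δ.Bad 2 m then Δ.refl 2 m else m
/-- Local translation by the vector with frame coordinates `w`. -/
def τ (w : ℂ) (m : M) : M := Δ.fold (m.1 + act m.2 w, m.2)
/-- States: in the closed triangle, with inward velocity on the boundary. -/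
def Sig : Set M := {m | ∀ j, 0 < Δ.ℓ j m.1 ∨ (Δ.ℓ j m.1 = 0 ∧ 0 < Δ.nv j m.2)}
/-- The velocity is not parallel to a side. -/
def NT (m : M) : Prop := ∀ j, Δ.nv j m.2 ≠ 0
/-- Non-degeneracy of the end point of a local translation. -/
def ND (w : ℂ) (m : M) : Prop := ∀ j, Δ.ℓ j (m.1 + act m.2 w) = 0 → Δ.nv j m.2 ≠ 0
/-- Liouville measure. -/
def μ : Measure M := ((volume : Measure ℂ).restrict Δ.T).prod lamF
/-- The product measure. -/
def μ2 : Measure (M × M) := Δ.μ.prod Δ.μ
/-- Some angle is an irrational multiple of `π`: the product of two reflections has infinite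
order. -/
def Irr : Prop :=
  ∃ k, addOrderOf (Δ.β (k + 1) + Δ.β (k + 1) - (Δ.β (k + 2) + Δ.β (k + 2))) = 0

/-- Billiard trajectories on a set of times. -/
def IsTrajOn (γ : ℝ → M) (I : Set ℝ) : Prop :=
  ∀ s ∈ I, γ s ∈ Δ.Sig ∧ 0 < Δ.d (γ s).1 ∧ ∀ᶠ a : ℝ in 𝓝 0, γ (s + a) = Δ.τ a (γ s)
def IsTraj (γ : ℝ → M) : Prop := Δ.IsTrajOn γ univ
/-- Points with a complete trajectory. -/
def Ω : Set M := {m | ∃ γ, Δ.IsTraj γ ∧ γ 0 = m}
open Classical in
/-- The billiard flow. -/
def φ (t : ℝ) (m : M) : M := if h : m ∈ Δ.Ω then Exists.choose h t else m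

/-- Invariance under the product flow. -/
def Inv (F : M × M → ℝ) : Prop := ∀ t, ∀ᵐ n ∂Δ.μ2, F (Δ.φ t n.1, Δ.φ t n.2) = F n

end Tri

end Crest.Agent.R103
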