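import Crest.Agent.R103.Modes

/-! Row 103: derivatives along local translations and the commutation identities. -/

set_option autoImplicit false
set_option linter.unusedVariables false
set_option linter.unusedSectionVars false
set_option linter.unusedSimpArgs false

noncomputable section

open MeasureTheory Set Filter Topology
open scoped ComplexConjugate InnerProductSpace

namespace Crest.Agent.R103

variable {H : Type*} [NormedAddCommGroup H] [InnerProductSpace ℂ H] [CompleteSpace H]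

omit [CompleteSpace H] in
lemma deriv_comp_neg {f : ℝ → H} {x : H} (h : HasDerivAt f x 0) :
    HasDerivAt (fun t => f (-t)) (-x) 0 := by
  have h' : HasDerivAt f x (-0) := by rwa [neg_zero]
  simpa [Function.comp_def] using h'.scomp (0 : ℝ) (hasDerivAt_neg (0 : ℝ))

omit [CompleteSpace H] in
lemma deriv_littleO {f : ℝ → H} {x : H} :
    HasDerivAt f x 0 ↔ (fun a : ℝ => f a - f 0 - (a : ℂ) • x) =o[𝓝 0] fun a : ℝ => a := by
  rw [hasDerivAt_iff_isLittleO]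
  simp only [sub_zero, Complex.coe_smul]

omit [CompleteSpace H] in
lemma deriv_inner_smul (t : ℝ) (a b : H) : ⟪t • a, t • b⟫_ℂ = (t : ℂ) * (t : ℂ) * ⟪a, b⟫_ℂ := by
  rw [← Complex.coe_smul, ← Complex.coe_smul, inner_smul_left, inner_smul_right,
    Complex.conj_ofReal, mul_assoc]

lemma deriv_small {σ : ℝ} (hσ : 0 < σ) : ∀ᶠ h in 𝓝 (0 : ℝ), 40 * |h| ≤ σ := by
  have : Tendsto (fun h : ℝ => 40 * |h|) (𝓝 0) (𝓝 (40 * |0|)) :=
    (continuous_const.mul continuous_abs).tendsto 0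
  rw [abs_zero, mul_zero] at this
  exact this.eventually (eventually_le_nhds hσ)

lemma deriv_re_O : (fun w : ℂ => w.re) =O[𝓝 0] fun w : ℂ => w :=
  Asymptotics.IsBigO.of_bound 1 (Eventually.of_forall fun w => by
    simpa using Complex.abs_re_le_norm w)

lemma deriv_im_O : (fun w : ℂ => w.im) =O[𝓝 0] fun w : ℂ => w :=
  Asymptotics.IsBigO.of_bound 1 (Eventually.of_forall fun w => by
    simpa using Complex.abs_im_le_norm w)

omit [CompleteSpace H] in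
lemma deriv_smul_o {α : Type*} {l : Filter α} {c : α → ℝ} {f : α → H} (hf : Tendsto f l (𝓝 0)) :
    (fun a => (c a : ℂ) • f a) =o[l] c := by
  rw [Asymptotics.isLittleO_iff]
  intro ε hε
  filter_upwards [hf.norm.eventually (eventually_le_nhds (by simpa using hε))] with a ha
  rw [norm_smul, Complex.norm_real, mul_comm]
  exact mul_le_mul_of_nonneg_right ha (norm_nonneg _)

lemma deriv_exp_neg (ψ : ℝ) : Complex.exp (-(ψ * Complex.I)) =
    (Real.cos ψ : ℂ) - (Real.sin ψ : ℂ) * Complex.I := by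
  rw [← neg_mul, Complex.exp_mul_I, Complex.cos_neg, Complex.sin_neg]
  push_cast; ring

lemma deriv_exp_pos (ψ : ℝ) : Complex.exp (ψ * Complex.I) =
    (Real.cos ψ : ℂ) + (Real.sin ψ : ℂ) * Complex.I := by
  rw [Complex.exp_mul_I]
  push_cast; ring

/-- `⟪(A h - 1) u, (B h - 1) v⟫ = ⟪(B (-h) - 1) u, (A (-h) - 1) v⟫` for small `h`; divide by `h²`
and let `h → 0` (`hasDerivAt_iff_tendsto_slope_zero`). -/
lemma inner_comm_deriv {A B : ℝ → H →L[ℂ] H} {u v uA uB vA vB : H}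
    (hA0 : ∀ p, A 0 p = p) (hB0 : ∀ p, B 0 p = p)
    (huA : HasDerivAt (fun h => A h u) uA 0) (huB : HasDerivAt (fun h => B h u) uB 0)
    (hvA : HasDerivAt (fun h => A h v) vA 0) (hvB : HasDerivAt (fun h => B h v) vB 0)
    (hAadj : ∀ᶠ h in 𝓝 (0 : ℝ), ∀ p, ⟪A h p, v⟫_ℂ = ⟪p, A (-h) v⟫_ℂ)
    (hBadj : ∀ᶠ h in 𝓝 (0 : ℝ), ∀ p, ⟪B h p, v⟫_ℂ = ⟪p, B (-h) v⟫_ℂ)
    (hc : ∀ᶠ h in 𝓝 (0 : ℝ), B (-h) (A h u) = A h (B (-h) u)) :
    ⟪uA, vB⟫_ℂ = ⟪uB, vA⟫_ℂ := by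
  have h1 := hasDerivAt_iff_tendsto_slope_zero.1 huA
  have h2 := hasDerivAt_iff_tendsto_slope_zero.1 hvB
  have h3 := hasDerivAt_iff_tendsto_slope_zero.1 (deriv_comp_neg huB)
  have h4 := hasDerivAt_iff_tendsto_slope_zero.1 (deriv_comp_neg hvA)
  simp only [zero_add, neg_zero, hA0, hB0] at h1 h2 h3 h4
  have h5 := h1.inner (𝕜 := ℂ) h2
  have h6 := h3.inner (𝕜 := ℂ) h4
  rw [inner_neg_neg] at h6
  refine tendsto_nhds_unique h5 (h6.congr' ?_)
  have hneg : Tendsto (fun h : ℝ => -h) (𝓝 0) (𝓝 0) := by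
    simpa using (continuous_neg (G := ℝ)).tendsto 0
  refine EventuallyEq.filter_mono ?_ nhdsWithin_le_nhds
  filter_upwards [hAadj, hneg.eventually hBadj, hc] with h ha hb hcc
  rw [neg_neg] at hb
  rw [deriv_inner_smul, deriv_inner_smul]
  congr 1
  simp only [inner_sub_left, inner_sub_right, ← ha, ← hb, map_sub, hcc]
  ring

lemma inner_skew_deriv {B : ℝ → H →L[ℂ] H} {u v uB vB : H}
    (huB : HasDerivAt (fun h => B h u) uB 0) (hvB : HasDerivAt (fun h => B h v) vB 0)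
    (hBadj : ∀ᶠ h in 𝓝 (0 : ℝ), ⟪B h u, v⟫_ℂ = ⟪u, B (-h) v⟫_ℂ) :
    ⟪uB, v⟫_ℂ = -⟪u, vB⟫_ℂ := by
  have h1 := huB.inner ℂ (hasDerivAt_const (0 : ℝ) v)
  have h2 := (hasDerivAt_const (0 : ℝ) u).inner ℂ (deriv_comp_neg hvB)
  have h3 := h1.unique (h2.congr_of_eventuallyEq hBadj)
  simpa using h3

namespace Rep

variable (ρ : Rep H)

omit [CompleteSpace H] in
lemma deriv_K_o {α E : Type*} [Norm E] {l : Filter α} (w : α → ℂ) {f : α → H} {g : α → E}
    (h : f =o[l] g) : (fun a => ρ.K (w a) (f a)) =o[l] g :=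
  (Asymptotics.IsBigO.of_norm_le fun a => ρ.K_norm (w a) (f a)).trans_isLittleO h.norm_left

omit [CompleteSpace H] in
lemma deriv_adj_re {σ : ℝ} (hσ : 0 < σ) {v : H} (hv : v ∈ ρ.V σ) :
    ∀ᶠ h in 𝓝 (0 : ℝ), ∀ p, ⟪ρ.K (h : ℝ) p, v⟫_ℂ = ⟪p, ρ.K (-h : ℝ) v⟫_ℂ := by
  filter_upwards [deriv_small hσ] with h hh p
  rw [Complex.ofReal_neg]
  refine ρ.K_adj p hv ?_
  rw [Complex.norm_real, Real.norm_eq_abs]
  linarith [abs_nonneg h]

omit [CompleteSpace H] in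
lemma deriv_adj_im {σ : ℝ} (hσ : 0 < σ) {v : H} (hv : v ∈ ρ.V σ) :
    ∀ᶠ h in 𝓝 (0 : ℝ), ∀ p,
      ⟪ρ.K ((h : ℝ) * Complex.I) p, v⟫_ℂ = ⟪p, ρ.K ((-h : ℝ) * Complex.I) v⟫_ℂ := by
  filter_upwards [deriv_small hσ] with h hh p
  rw [Complex.ofReal_neg, neg_mul]
  refine ρ.K_adj p hv ?_
  rw [norm_mul, Complex.norm_I, mul_one, Complex.norm_real, Real.norm_eq_abs]
  linarith [abs_nonneg h]

lemma norm_S (s : ℝ) (p : H) : ‖ρ.S s p‖ = ‖p‖ := by
  have h : ⟪ρ.S s p, ρ.S s p⟫_ℂ = ⟪p, p⟫_ℂ := by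
    rw [ρ.S_adj, ← ρ.S_add, neg_add_cancel, ρ.S_zero]
  rw [norm_eq_sqrt_re_inner (𝕜 := ℂ), h, ← norm_eq_sqrt_re_inner]
/-- `K (a + ib) u - u - a x - b y = K a (K (ib) u - u - b y) + b (K a y - y) + (K a u - u - a x)`. -/
lemma diff_of_partial {σ : ℝ} (hσ : 0 < σ) {u x y : H} (hu : u ∈ ρ.V σ)
    (hx : HasDerivAt (fun a : ℝ => ρ.K a u) x 0)
    (hy : HasDerivAt (fun b : ℝ => ρ.K (b * Complex.I) u) y 0) : ρ.Diff u x y := by
  rw [deriv_littleO] at hx hy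
  simp only [Complex.ofReal_zero, zero_mul, ρ.K_zero] at hx hy
  have hre : Tendsto (fun w : ℂ => w.re) (𝓝 0) (𝓝 0) := Complex.continuous_re.tendsto 0
  have him : Tendsto (fun w : ℂ => w.im) (𝓝 0) (𝓝 0) := Complex.continuous_im.tendsto 0
  have h1 := ρ.deriv_K_o (fun w : ℂ => (w.re : ℂ))
    ((hy.comp_tendsto him).trans_isBigO deriv_im_O)
  have h3 := (hx.comp_tendsto hre).trans_isBigO deriv_re_O
  have h4 : Tendsto (fun w : ℂ => ρ.K (w.re : ℂ) y - y) (𝓝 0) (𝓝 0) := by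
    have h5 : Tendsto (fun w : ℂ => (w.re : ℂ)) (𝓝 0) (𝓝 0) :=
      (Complex.continuous_ofReal.comp Complex.continuous_re).tendsto' 0 0 (by simp)
    simpa using ((ρ.K_cont y).comp h5).sub_const y
  have h2 := (deriv_smul_o (c := fun w : ℂ => w.im) h4).trans_isBigO deriv_im_O
  refine ((h1.add h2).add h3).congr' ?_ EventuallyEq.rfl
  filter_upwards [hre.eventually (deriv_small hσ), him.eventually (deriv_small hσ)] with w h5 h6
  have h7 : ρ.K (w.re : ℂ) (ρ.K (w.im * Complex.I) u) = ρ.K w u := by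
    rw [ρ.K_add hu, add_comm, Complex.re_add_im]
    rw [norm_mul, Complex.norm_I, mul_one, Complex.norm_real, Complex.norm_real, Real.norm_eq_abs,
      Real.norm_eq_abs]
    linarith
  simp only [Function.comp, map_sub, map_smul, h7, smul_sub]
  abel
lemma Diff.hasDerivAt_re {ρ : Rep H} {u x y : H} (h : ρ.Diff u x y) :
    HasDerivAt (fun a : ℝ => ρ.K a u) x 0 := by
  rw [deriv_littleO]
  have h1 : Tendsto (fun a : ℝ => (a : ℂ)) (𝓝 0) (𝓝 0) :=
    Complex.continuous_ofReal.tendsto' 0 0 (by simp)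
  have h2 : (fun a : ℝ => (a : ℂ)) =O[𝓝 0] fun a : ℝ => a :=
    Asymptotics.IsBigO.of_bound 1 (Eventually.of_forall fun a => by simp)
  refine ((Asymptotics.IsLittleO.comp_tendsto h h1).trans_isBigO h2).congr_left fun a => ?_
  simp [ρ.K_zero]
lemma Diff.hasDerivAt_im {ρ : Rep H} {u x y : H} (h : ρ.Diff u x y) :
    HasDerivAt (fun b : ℝ => ρ.K (b * Complex.I) u) y 0 := by
  rw [deriv_littleO]
  have h1 : Tendsto (fun a : ℝ => (a : ℂ) * Complex.I) (𝓝 0) (𝓝 0) :=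
    (Complex.continuous_ofReal.mul continuous_const).tendsto' 0 0 (by simp)
  have h2 : (fun a : ℝ => (a : ℂ) * Complex.I) =O[𝓝 0] fun a : ℝ => a :=
    Asymptotics.IsBigO.of_bound 1 (Eventually.of_forall fun a => by simp)
  refine ((Asymptotics.IsLittleO.comp_tendsto h h1).trans_isBigO h2).congr_left fun a => ?_
  simp [ρ.K_zero]
/-- `K_R`; `exp (-iψ) w` has real part `cos ψ re w + sin ψ im w` and imaginary part
`- sin ψ re w + cos ψ im w`. -/
lemma Diff.rot {ρ : Rep H} {u x y : H} (h : ρ.Diff u x y) (ψ : ℝ) :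
    ρ.Diff (ρ.R ψ u) (ρ.R ψ ((Real.cos ψ : ℂ) • x - (Real.sin ψ : ℂ) • y))
      (ρ.R ψ ((Real.sin ψ : ℂ) • x + (Real.cos ψ : ℂ) • y)) := by
  set e : ℂ := Complex.exp (-(ψ * Complex.I)) with he
  have h1 : Tendsto (fun w : ℂ => e * w) (𝓝 0) (𝓝 0) :=
    (continuous_const.mul continuous_id).tendsto' 0 0 (by simp)
  have h2 : (fun w : ℂ => e * w) =O[𝓝 0] fun w : ℂ => w :=
    Asymptotics.isBigO_const_mul_self e _ _
  have h3 := (Asymptotics.IsLittleO.comp_tendsto h h1).trans_isBigO h2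
  have h4 := ((ρ.R ψ).isBigO_comp _ _).trans_isLittleO h3
  refine h4.congr_left fun w => ?_
  have hre : (e * w).re = Real.cos ψ * w.re + Real.sin ψ * w.im := by
    rw [he, deriv_exp_neg]
    simp only [Complex.mul_re, Complex.sub_re, Complex.sub_im, Complex.ofReal_re,
      Complex.ofReal_im, Complex.I_re, Complex.I_im, Complex.mul_im]
    ring
  have him : (e * w).im = -Real.sin ψ * w.re + Real.cos ψ * w.im := by
    rw [he, deriv_exp_neg]
    simp only [Complex.mul_re, Complex.sub_re, Complex.sub_im, Complex.ofReal_re,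
      Complex.ofReal_im, Complex.I_re, Complex.I_im, Complex.mul_im]
    ring
  rw [ρ.K_R, ← he]
  simp only [Function.comp, hre, him, map_sub, map_add, map_smul, Complex.ofReal_add,
    Complex.ofReal_mul, Complex.ofReal_neg]
  module
/-- Untwisting: `K a u = K a (S a (S (-a) u))`. -/
lemma hasDerivAt_untwist {u s g : H} (hs : HasDerivAt (fun a : ℝ => ρ.K a (ρ.S a u)) s 0)
    (hg : HasDerivAt (fun a : ℝ => ρ.S a u) g 0) :
    HasDerivAt (fun a : ℝ => ρ.K a u) (s - g) 0 := by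
  rw [deriv_littleO] at hs hg ⊢
  simp only [Complex.ofReal_zero, ρ.K_zero, ρ.S_zero] at hs hg ⊢
  have h1 := ρ.deriv_K_o (fun a : ℝ => (a : ℂ)) hg
  have h4 : Tendsto (fun a : ℝ => ρ.K (a : ℂ) g - g) (𝓝 0) (𝓝 0) := by
    have h5 : Tendsto (fun a : ℝ => (a : ℂ)) (𝓝 0) (𝓝 0) :=
      Complex.continuous_ofReal.tendsto' 0 0 (by simp)
    simpa using ((ρ.K_cont g).comp h5).sub_const g
  have h2 := deriv_smul_o (c := fun a : ℝ => a) h4
  refine ((hs.sub h1).sub h2).congr_left fun a => ?_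
  simp only [map_sub, map_smul, smul_sub]
  abel

/-- Let `p = (x - i y)/2`, `q = (x + i y)/2`, `v = R ψ u`.  Then the derivatives of `v` are
`R ψ (e^{-iψ} p + e^{iψ} q)` and `R ψ (i e^{-iψ} p - i e^{iψ} q)`; `inner_comm_deriv` for
`A = K ·`, `B = K (· i)` gives `e^{-iψ} ⟪p, R ψ p⟫ = e^{iψ} ⟪q, R ψ q⟫`.  Multiply by `e^{-imψ}`
and integrate (`inner_P`, `inner_P_P`). -/
theorem modes_pq {σ : ℝ} (hσ : 0 < σ) {u x y : H} (hu : u ∈ ρ.V σ) (h : ρ.Diff u x y) (m : ℤ) :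
    ‖ρ.toCircRep.P (m + 1) ((2 : ℂ)⁻¹ • (x - Complex.I • y))‖ =
      ‖ρ.toCircRep.P (m - 1) ((2 : ℂ)⁻¹ • (x + Complex.I • y))‖ := by
  set p := (2 : ℂ)⁻¹ • (x - Complex.I • y) with hp
  set q := (2 : ℂ)⁻¹ • (x + Complex.I • y) with hq
  have key : ∀ ψ : ℝ, Complex.exp (-(ψ * Complex.I)) * ⟪p, ρ.R ψ p⟫_ℂ =
      Complex.exp (ψ * Complex.I) * ⟪q, ρ.R ψ q⟫_ℂ := by
    intro ψ
    have hv := ρ.R_mem ψ hu
    have hd := h.rot ψ
    have h1 := inner_comm_deriv (A := fun h : ℝ => ρ.K h) (B := fun h : ℝ => ρ.K (h * Complex.I))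
      (fun p => by simp [ρ.K_zero]) (fun p => by simp [ρ.K_zero])
      h.hasDerivAt_re h.hasDerivAt_im hd.hasDerivAt_re hd.hasDerivAt_im
      (ρ.deriv_adj_re hσ hv) (ρ.deriv_adj_im hσ hv) (by
        filter_upwards [deriv_small hσ] with h hh
        have e1 : ‖(h : ℂ)‖ = |h| := by simp
        have e2 : ‖((-h : ℝ) : ℂ) * Complex.I‖ = |h| := by simp
        rw [ρ.K_add hu (by rw [e1, e2]; linarith), ρ.K_add hu (by rw [e1, e2]; linarith), add_comm])
    rw [deriv_exp_neg, deriv_exp_pos]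
    simp only [hp, hq, map_sub, map_add, map_smul, inner_sub_left, inner_sub_right,
      inner_add_left, inner_add_right, inner_smul_left, inner_smul_right, Complex.conj_I,
      map_inv₀, map_ofNat] at h1 ⊢
    linear_combination (-Complex.I / 2) * h1 + ((Real.sin ψ : ℂ) * Complex.I * ⟪y, ρ.R ψ y⟫_ℂ / 2) *
      Complex.I_sq
  have h2 : ⟪p, ρ.toCircRep.P (m + 1) p⟫_ℂ = ⟪q, ρ.toCircRep.P (m - 1) q⟫_ℂ := by
    rw [CircRep.inner_P, CircRep.inner_P]
    congr 2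
    funext ψ
    have e1 : Complex.exp (-(((m + 1 : ℤ) : ℂ) * ψ * Complex.I)) =
        Complex.exp (-(m * ψ * Complex.I)) * Complex.exp (-(ψ * Complex.I)) := by
      rw [← Complex.exp_add]; congr 1; push_cast; ring
    have e2 : Complex.exp (-(((m - 1 : ℤ) : ℂ) * ψ * Complex.I)) =
        Complex.exp (-(m * ψ * Complex.I)) * Complex.exp (ψ * Complex.I) := by
      rw [← Complex.exp_add]; congr 1; push_cast; ring
    rw [e1, e2, mul_assoc, key, ← mul_assoc]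
  rw [← CircRep.inner_P_P _ _ p, ← CircRep.inner_P_P _ _ q] at h2
  rw [norm_eq_sqrt_re_inner (𝕜 := ℂ), h2, ← norm_eq_sqrt_re_inner]
/-- `inner_comm_deriv` for `A = S` and `B = K ·` or `K (· i)`, `v = R ψ u` (whose `S`-derivative is
`R ψ g`) gives `e^{-iψ} ⟪g, R ψ p⟫ = ⟪q, R ψ g⟫`; multiply by `e^{-imψ}`, integrate, `P_adj`. -/
theorem modes_g {σ : ℝ} (hσ : 0 < σ) {u x y g : H} (hu : u ∈ ρ.V σ) (h : ρ.Diff u x y)
    (hg : HasDerivAt (fun s : ℝ => ρ.S s u) g 0) (m : ℤ) :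
    ⟪g, ρ.toCircRep.P (m + 1) ((2 : ℂ)⁻¹ • (x - Complex.I • y))⟫_ℂ =
      ⟪ρ.toCircRep.P m ((2 : ℂ)⁻¹ • (x + Complex.I • y)), g⟫_ℂ := by
  set p := (2 : ℂ)⁻¹ • (x - Complex.I • y) with hp
  set q := (2 : ℂ)⁻¹ • (x + Complex.I • y) with hq
  have key : ∀ ψ : ℝ, Complex.exp (-(ψ * Complex.I)) * ⟪g, ρ.R ψ p⟫_ℂ = ⟪q, ρ.R ψ g⟫_ℂ := by
    intro ψ
    have hv := ρ.R_mem ψ hu
    have hd := h.rot ψ
    have hgv : HasDerivAt (fun s : ℝ => ρ.S s (ρ.R ψ u)) (ρ.R ψ g) 0 := by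
      have := ((ρ.R ψ).restrictScalars ℝ).hasFDerivAt.comp_hasDerivAt (0 : ℝ) hg
      simpa only [Function.comp_def, ContinuousLinearMap.coe_restrictScalars', ρ.R_S] using this
    have h1 := inner_comm_deriv (A := ρ.S) (B := fun h : ℝ => ρ.K h)
      ρ.S_zero (fun p => by simp [ρ.K_zero]) hg h.hasDerivAt_re hgv hd.hasDerivAt_re
      (Eventually.of_forall fun s p => ρ.S_adj s p _) (ρ.deriv_adj_re hσ hv)
      (Eventually.of_forall fun s => ρ.K_S _ s u)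
    have h2 := inner_comm_deriv (A := ρ.S) (B := fun h : ℝ => ρ.K (h * Complex.I))
      ρ.S_zero (fun p => by simp [ρ.K_zero]) hg h.hasDerivAt_im hgv hd.hasDerivAt_im
      (Eventually.of_forall fun s p => ρ.S_adj s p _) (ρ.deriv_adj_im hσ hv)
      (Eventually.of_forall fun s => ρ.K_S _ s u)
    rw [deriv_exp_neg]
    simp only [hp, hq, map_sub, map_add, map_smul, inner_sub_left, inner_sub_right,
      inner_add_left, inner_add_right, inner_smul_left, inner_smul_right, Complex.conj_I,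
      map_inv₀, map_ofNat] at h1 h2 ⊢
    linear_combination (1 / 2) * h1 + (-Complex.I / 2) * h2 +
      ((Real.sin ψ : ℂ) * ⟪g, ρ.R ψ y⟫_ℂ / 2) * Complex.I_sq
  rw [CircRep.P_adj, CircRep.inner_P, CircRep.inner_P]
  congr 2
  funext ψ
  have e1 : Complex.exp (-(((m + 1 : ℤ) : ℂ) * ψ * Complex.I)) =
      Complex.exp (-(m * ψ * Complex.I)) * Complex.exp (-(ψ * Complex.I)) := by
    rw [← Complex.exp_add]; congr 1; push_cast; ring
  rw [e1, mul_assoc, key]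

end Rep

end Crest.Agent.R103
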