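import Crest.Agent.R103.Meas

/-! Row 103: the local translations do not increase measure. -/

set_option autoImplicit false
set_option linter.unusedVariables false

noncomputable section

open MeasureTheory Set Filter Topology
open scoped ComplexConjugate

namespace Crest.Agent.R103

namespace Tri

variable (Δ : Tri)

/-- `m ↦ (m.1 + act m.2 w, m.2)` preserves `volume.prod lamF` (skew product). -/
lemma mp_shift (w : ℂ) : MeasurePreserving (fun m : M => (m.1 + act m.2 w, m.2))
    ((volume : Measure ℂ).prod lamF) ((volume : Measure ℂ).prod lamF) := by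
  have hmeas : Measurable (fun p : Fr × ℂ => p.2 + act p.1 w) :=
    (continuous_snd.add (continuous_act.comp (continuous_fst.prodMk continuous_const))).measurable
  have h1 : MeasurePreserving (fun p : Fr × ℂ => (id p.1, p.2 + act p.1 w))
      (lamF.prod (volume : Measure ℂ)) (lamF.prod (volume : Measure ℂ)) :=
    MeasurePreserving.skew_product (f := id) (g := fun (g : Fr) (z : ℂ) => z + act g w)
      (MeasurePreserving.id lamF) hmeas
      (Eventually.of_forall fun g => (measurePreserving_add_right (volume : Measure ℂ) _).map_eq)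
  exact (Measure.measurePreserving_swap.comp h1).comp Measure.measurePreserving_swap

lemma subT_mp_σ (j : Fin 3) : MeasurePreserving (Δ.σ j) (volume : Measure ℂ) volume := by
  have h := mp_add_act (Δ.σ j 0) (Δ.rf j ((0 : Ang), true))
  have e : Δ.σ j = fun z => Δ.σ j 0 + act (Δ.rf j ((0 : Ang), true)) z := by
    funext z
    rw [← Δ.σ_add_act]
    simp [act, cis_zero]
  rw [e]
  exact h

/-- `σ j` is an isometry of `ℂ`; `mp_rf`. -/
lemma mp_refl (j : Fin 3) : MeasurePreserving (Δ.refl j)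
    ((volume : Measure ℂ).prod lamF) ((volume : Measure ℂ).prod lamF) := by
  exact (Δ.subT_mp_σ j).prod (Δ.mp_rf j)

/-- A map which is injective on a countable union of pieces and agrees on each piece with a
measure preserving bijection does not increase measure. -/
lemma subT_gen {α : Type*} [MeasurableSpace α] (lam : Measure α) (S : Set α) (t : α → α)
    (Ψ Φ : ℕ → α → α) (hΦ : ∀ i, MeasurePreserving (Φ i) lam lam) (hΨΦ : ∀ i y, Ψ i (Φ i y) = y)
    (G : ℕ → Set α) (hG : ∀ i, MeasurableSet (G i)) (ht : ∀ i, ∀ x ∈ G i, t x = Ψ i x)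
    (hinj : InjOn t (⋃ i, G i)) (hS : ∀ i, ∀ x ∈ G i, t x ∈ S) : lam (⋃ i, G i) ≤ lam S := by
  have hH : ∀ i, MeasurableSet (disjointed G i) := fun i => MeasurableSet.disjointed hG i
  have hsub : ∀ i, disjointed G i ⊆ G i := fun i => disjointed_subset G i
  have hdis : Pairwise (Function.onFun Disjoint fun i => Φ i ⁻¹' disjointed G i) := by
    intro i j hij
    refine Set.disjoint_left.2 fun y hi hj => ?_
    have hi' : Φ i y ∈ G i := hsub i hi
    have hj' : Φ j y ∈ G j := hsub j hj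
    have e : Φ i y = Φ j y := by
      refine hinj (mem_iUnion.2 ⟨i, hi'⟩) (mem_iUnion.2 ⟨j, hj'⟩) ?_
      rw [ht i _ hi', ht j _ hj', hΨΦ, hΨΦ]
    have hj'' : Φ i y ∈ disjointed G j := by rw [e]; exact hj
    exact Set.disjoint_left.1 (disjoint_disjointed G hij) hi hj''
  calc lam (⋃ i, G i) = lam (⋃ i, disjointed G i) := by rw [iUnion_disjointed]
    _ ≤ ∑' i, lam (disjointed G i) := measure_iUnion_le _
    _ = ∑' i, lam (Φ i ⁻¹' disjointed G i) :=
        tsum_congr fun i => ((hΦ i).measure_preimage (hH i).nullMeasurableSet).symm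
    _ = lam (⋃ i, Φ i ⁻¹' disjointed G i) :=
        (measure_iUnion hdis fun i => (hΦ i).measurable (hH i)).symm
    _ ≤ lam S := by
        refine measure_mono (iUnion_subset fun i y hy => ?_)
        have hy' : Φ i y ∈ G i := hsub i hy
        have := hS i _ hy'
        rwa [ht i _ hy', hΨΦ] at this

lemma subT_mem_T {m : M} {w : ℂ} (h : m.1 ∈ Δ.T) (hd : 8 * ‖w‖ < Δ.d m.1) {j : Fin 3}
    (hj : Δ.ℓ j (m.1 + act m.2 w) < 0) : (Δ.τ w m).1 ∈ Δ.T := by
  have hCl : Δ.Cl m.1 := fun i => (h i).le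
  obtain ⟨j₀, hj₀⟩ := Δ.exists_side (z := m.1) (r := 4 * ‖w‖) (by linarith)
  have hw := norm_nonneg w
  have hjj : j = j₀ := by
    by_contra hne
    have h1 := hj₀ j hne
    have h2 := Δ.ℓ_lip j (m.1 + act m.2 w) m.1
    rw [add_sub_cancel_left, norm_act] at h2
    have := (abs_le.1 h2).1
    linarith
  subst hjj
  intro i
  by_cases hi : i = j
  · subst hi
    rw [Δ.τ_of_neg hCl hd hj]
    show 0 < Δ.ℓ i (Δ.σ i (m.1 + act m.2 w))
    rw [Δ.ℓ_σ]
    linarith
  · have h1 := hj₀ i hi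
    have h2 := (Δ.ℓ_lip i (Δ.τ w m).1 m.1).trans (Δ.norm_τ_sub_le hCl w)
    have := (abs_le.1 h2).1
    linarith

/-- Let `λ = volume.prod lamF`, so `μ = λ.restrict (T ×ˢ univ)`.  Up to a null set
(`ae_mem_T`, `ae_ℓ_ne`) split `E = {16‖w‖ < d}` into the four measurable pieces `E_i` on which
`τ w` equals one of the `λ`-preserving bijections `Ψ = shift`, `refl j ∘ shift` (measurable
embeddings).  The images `Ψ_i (E_i ∩ τ w ⁻¹' B)` are measurable, pairwise disjoint (`τ w` is
injective on `E ∩ Sig` by `τ_neg_τ`) subsets of `B ∩ (T ×ˢ univ)` (`τ_mem_Sig`/`Cl_τ` and no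
`ℓ j` vanishes at the image).  Sum the measures. -/
theorem subMP_τ (w : ℂ) : SubMP Δ.μ {m | 16 * ‖w‖ < Δ.d m.1} (Δ.τ w) := by
  intro B hB
  set lam : Measure M := (volume : Measure ℂ).prod lamF with hlam
  have hTm : MeasurableSet (Δ.T ×ˢ (univ : Set Fr)) :=
    Δ.isOpen_T.measurableSet.prod MeasurableSet.univ
  have hμ : Δ.μ = lam.restrict (Δ.T ×ˢ univ) := by
    rw [hlam, μ, Measure.restrict_prod_eq_prod_univ]
  have hw := norm_nonneg w
  let sh : ℂ → M → M := fun v m => (m.1 + act m.2 v, m.2)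
  have hsh : ∀ m, sh w (sh (-w) m) = m := by
    intro m
    simp only [sh, act_neg, neg_add_cancel_right]
  have hcs : Continuous fun m : M => m.1 + act m.2 w :=
    continuous_fst.add (continuous_act.comp (continuous_snd.prodMk continuous_const))
  let Ψ : ℕ → M → M := fun i => if h : i < 3 then Δ.refl ⟨i, h⟩ ∘ sh w else sh w
  let Φ : ℕ → M → M := fun i => if h : i < 3 then sh (-w) ∘ Δ.refl ⟨i, h⟩ else sh (-w)
  let G₀ : Set M := ({m | 16 * ‖w‖ < Δ.d m.1} ∩ Δ.τ w ⁻¹' B) ∩ Δ.T ×ˢ univ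
  let G : ℕ → Set M := fun i => G₀ ∩
    if h : i < 3 then {m | Δ.ℓ ⟨i, h⟩ (m.1 + act m.2 w) < 0} else {m | m.1 + act m.2 w ∈ Δ.T}
  have hG₀ : MeasurableSet G₀ :=
    (((isOpen_lt continuous_const (Δ.continuous_d.comp continuous_fst)).measurableSet).inter
      (Δ.measurable_τ' w hB)).inter hTm
  have key : lam (⋃ i, G i) ≤ lam (B ∩ Δ.T ×ˢ univ) := by
    refine subT_gen lam _ (Δ.τ w) Ψ Φ ?_ ?_ G ?_ ?_ ?_ ?_
    · intro i
      by_cases h : i < 3
      · simp only [Φ, dif_pos h]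
        exact (mp_shift (-w)).comp (Δ.mp_refl _)
      · simp only [Φ, dif_neg h]
        exact mp_shift (-w)
    · intro i y
      by_cases h : i < 3
      · simp only [Φ, Ψ, dif_pos h, Function.comp_apply, hsh, Δ.refl_refl]
      · simp only [Φ, Ψ, dif_neg h, hsh]
    · intro i
      refine hG₀.inter ?_
      by_cases h : i < 3
      · simp only [dif_pos h]
        exact (isOpen_lt ((Δ.continuous_ℓ _).comp hcs) continuous_const).measurableSet
      · simp only [dif_neg h]
        exact (Δ.isOpen_T.preimage hcs).measurableSet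
    · rintro i x ⟨⟨⟨h1, h2⟩, h3⟩, h4⟩
      have h1' : 16 * ‖w‖ < Δ.d x.1 := h1
      by_cases h : i < 3
      · simp only [dif_pos h] at h4
        simp only [Ψ, dif_pos h]
        exact Δ.τ_of_neg (fun k => (h3.1 k).le) (by linarith) h4
      · simp only [dif_neg h] at h4
        simp only [Ψ, dif_neg h]
        exact Δ.τ_of_mem_T h4
    · intro x hx y hy hxy
      obtain ⟨i, ⟨⟨h1, -⟩, h3⟩, -⟩ := mem_iUnion.1 hx
      obtain ⟨k, ⟨⟨h1', -⟩, h3'⟩, -⟩ := mem_iUnion.1 hy
      rw [← Δ.τ_neg_τ (Δ.Sig_of_T h3.1) h1, hxy, Δ.τ_neg_τ (Δ.Sig_of_T h3'.1) h1']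
    · rintro i x ⟨⟨⟨h1, h2⟩, h3⟩, h4⟩
      have h1' : 16 * ‖w‖ < Δ.d x.1 := h1
      refine ⟨h2, ?_, mem_univ _⟩
      by_cases h : i < 3
      · simp only [dif_pos h] at h4
        exact Δ.subT_mem_T h3.1 (by linarith) h4
      · simp only [dif_neg h] at h4
        rw [Δ.τ_of_mem_T h4]
        exact h4
  have hle : Δ.μ ≤ lam := by rw [hμ]; exact Measure.restrict_le_self
  calc Δ.μ ({m | 16 * ‖w‖ < Δ.d m.1} ∩ Δ.τ w ⁻¹' B) ≤ Δ.μ (⋃ i, G i) := by
        refine measure_mono_ae ?_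
        filter_upwards [Δ.ae_mem_T, Δ.ae_ℓ_ne w] with m h1 h2 hm
        have hm0 : m ∈ G₀ := ⟨hm, h1, mem_univ _⟩
        by_cases hT : m.1 + act m.2 w ∈ Δ.T
        · exact mem_iUnion.2 ⟨3, hm0, by simpa using hT⟩
        · obtain ⟨j, hj⟩ := not_forall.1 hT
          refine mem_iUnion.2 ⟨j, hm0, ?_⟩
          simp only [dif_pos j.2]
          exact lt_of_le_of_ne (not_lt.1 hj) (h2 j)
    _ ≤ lam (⋃ i, G i) := hle _
    _ ≤ lam (B ∩ Δ.T ×ˢ univ) := key
    _ = Δ.μ B := by rw [hμ, Measure.restrict_apply hB]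

end Tri

end Crest.Agent.R103
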