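import Crest.Agent.R103.Apx
import Crest.Agent.R103.SubT

/-! Row 103: the flow is measurable, defined almost everywhere and measure preserving. -/

set_option autoImplicit false
set_option linter.unusedVariables false

noncomputable section

open MeasureTheory Set Filter Topology
open scoped ComplexConjugate

namespace Crest.Agent.R103

namespace Tri

variable (Δ : Tri)

lemma flow_iter : ∃ C : ℝ, 0 < C ∧ ∀ a : ℝ, a ≠ 0 → ∀ k : ℕ,
    SubMP Δ.μ {m | ∀ j < k, (Δ.τ a)^[j] m ∈ {m : M | 16 * |a| < Δ.d m.1}} (Δ.τ a)^[k] ∧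
    Δ.μ {m | ∀ j < k, (Δ.τ a)^[j] m ∈ {m : M | 16 * |a| < Δ.d m.1}}ᶜ ≤
      ENNReal.ofReal (C * k * a ^ 2) := by
  obtain ⟨C, hC, h⟩ := Δ.μ_d_le
  refine ⟨256 * C, by positivity, fun a ha k => ?_⟩
  have h1 := Δ.subMP_τ (a : ℂ)
  rw [Complex.norm_real, Real.norm_eq_abs] at h1
  have hm : MeasurableSet {m : M | 16 * |a| < Δ.d m.1} :=
    measurableSet_lt measurable_const (Δ.continuous_d.measurable.comp measurable_fst)
  have h2 := h1.iterate hm (Δ.measurable_τ' _) k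
  refine ⟨h2.1, h2.2.trans ?_⟩
  have h3 : {m : M | 16 * |a| < Δ.d m.1}ᶜ = {m : M | Δ.d m.1 ≤ 16 * |a|} := by
    ext m
    simp
  rw [h3]
  refine (mul_le_mul_right (h _ (by positivity)) _).trans (le_of_eq ?_)
  rw [← ENNReal.ofReal_natCast, ← ENNReal.ofReal_mul (Nat.cast_nonneg k)]
  congr 1
  rw [mul_pow, sq_abs]
  ring

lemma flow_iter_eq {m : M} (hm : m ∈ Δ.Ω) {a : ℝ} {k : ℕ}
    (h : ∀ j < k, (Δ.τ a)^[j] m ∈ {m : M | 16 * |a| < Δ.d m.1}) :
    ∀ j ≤ k, (Δ.τ a)^[j] m = Δ.φ (j * a) m := by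
  intro j
  induction j with
  | zero => intro _; simp [Δ.φ_zero]
  | succ j ih =>
    intro hj
    have h1 := ih (Nat.le_of_succ_le hj)
    have h2 : 16 * |a| < Δ.d ((Δ.τ a)^[j] m).1 := h j hj
    rw [Function.iterate_succ_apply', h1]
    rw [h1] at h2
    rw [← Δ.φ_eq_τ (Δ.φ_mem hm _) (by linarith [abs_nonneg a]), ← Δ.φ_add]
    congr 1
    push_cast
    ring

lemma measurableSet_Ω : MeasurableSet Δ.Ω := by
  rw [Δ.Ω_eq]
  exact MeasurableSet.iInter fun N => MeasurableSet.iUnion fun n => Δ.measurableSet_G _ _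
/-- `SubMP.iterate` with `subMP_τ` and `μ_d_le`: at most `2 k C (16 a)²`. -/
lemma μ_G_compl : ∃ C : ℝ, 0 < C ∧ ∀ a : ℝ, 0 < a → ∀ k : ℕ,
    Δ.μ (Δ.G a k)ᶜ ≤ ENNReal.ofReal (C * k * a ^ 2) := by
  obtain ⟨C, hC, h⟩ := Δ.flow_iter
  refine ⟨2 * C, by positivity, fun a ha k => ?_⟩
  have h1 := (h a ha.ne' k).2
  have h2 := (h (-a) (neg_ne_zero.2 ha.ne') k).2
  rw [abs_neg, neg_sq] at h2
  have h0 : Δ.μ Δ.Sigᶜ = 0 := by
    have : ∀ᵐ m ∂Δ.μ, m ∈ Δ.Sig := Δ.ae_mem_T.mono fun m hm => Δ.Sig_of_T hm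
    exact this
  unfold G
  rw [compl_inter, compl_inter]
  refine (measure_union_le _ _).trans ?_
  rw [h0, zero_add]
  refine (measure_union_le _ _).trans ((add_le_add h1 h2).trans ?_)
  rw [← ENNReal.ofReal_add (by positivity) (by positivity)]
  refine ENNReal.ofReal_le_ofReal (le_of_eq ?_)
  ring
lemma ae_mem_Ω : ∀ᵐ m ∂Δ.μ, m ∈ Δ.Ω := by
  obtain ⟨C, hC, h⟩ := Δ.μ_G_compl
  rw [Δ.Ω_eq]
  simp only [mem_iInter]
  refine ae_all_iff.2 fun N => ?_
  show Δ.μ (⋃ n : ℕ, Δ.G (1 / (n + 1 : ℝ)) (N * (n + 1) + 2))ᶜ = 0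
  have hb : ∀ n : ℕ, Δ.μ (⋃ n : ℕ, Δ.G (1 / (n + 1 : ℝ)) (N * (n + 1) + 2))ᶜ ≤
      ENNReal.ofReal (C * (N + 2) * (1 / (n + 1 : ℝ))) := fun n => by
    have hn : (0 : ℝ) < n + 1 := by positivity
    refine (measure_mono (compl_subset_compl.2
      (subset_iUnion (fun n : ℕ => Δ.G (1 / (n + 1 : ℝ)) (N * (n + 1) + 2)) n))).trans
      ((h _ (by positivity) _).trans (ENNReal.ofReal_le_ofReal ?_))
    push_cast
    have h1 : (N * (n + 1) + 2 : ℝ) * (1 / (n + 1 : ℝ)) ≤ N + 2 := by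
      rw [mul_one_div, div_le_iff₀ hn]
      nlinarith [Nat.cast_nonneg (α := ℝ) n]
    calc C * (N * (n + 1) + 2 : ℝ) * (1 / (n + 1 : ℝ)) ^ 2
        = C * ((N * (n + 1) + 2 : ℝ) * (1 / (n + 1 : ℝ))) * (1 / (n + 1 : ℝ)) := by ring
      _ ≤ C * (N + 2) * (1 / (n + 1 : ℝ)) := by gcongr
  have ht : Tendsto (fun n : ℕ => ENNReal.ofReal (C * (N + 2) * (1 / (n + 1 : ℝ)))) atTop (𝓝 0) := by
    have := ENNReal.tendsto_ofReal
      ((tendsto_one_div_add_atTop_nhds_zero_nat (𝕜 := ℝ)).const_mul (C * (N + 2)))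
    simpa using this
  exact le_antisymm (ge_of_tendsto' ht hb) zero_le
/-- Pointwise limit (eventually constant) of `if m ∈ Ω then apx (1/(n+1)) t m else m`
(`eventually_mem_G`, `φ_eq_apx`, `measurable_of_tendsto_metrizable`). -/
lemma measurable_φ : Measurable fun p : ℝ × M => Δ.φ p.1 p.2 := by
  classical
  refine measurable_of_tendsto_metrizable
    (f := fun (n : ℕ) (p : ℝ × M) => if p.2 ∈ Δ.Ω then Δ.apx (1 / (n + 1 : ℝ)) p.1 p.2 else p.2)
    (fun n => Measurable.ite (measurable_snd Δ.measurableSet_Ω) (Δ.measurable_apx _) measurable_snd)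
    (tendsto_pi_nhds.2 fun p => ?_)
  obtain ⟨t, m⟩ := p
  refine tendsto_const_nhds.congr' ?_
  by_cases hm : m ∈ Δ.Ω
  · obtain ⟨N, hN⟩ := exists_nat_gt |t|
    filter_upwards [Δ.eventually_mem_G hm N] with n hn
    simp only [if_pos hm]
    have hn0 : (0 : ℝ) < n + 1 := by positivity
    refine Δ.φ_eq_apx hm (by positivity) hn ?_
    push_cast
    rwa [mul_one_div, mul_div_assoc, div_self hn0.ne', mul_one]
  · refine Eventually.of_forall fun n => ?_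
    simp only [if_neg hm]
    unfold φ
    rw [dif_neg hm]
lemma measurable_φ' (t : ℝ) : Measurable (Δ.φ t) := by
  exact Δ.measurable_φ.comp (f := fun m : M => ((t, m) : ℝ × M)) (measurable_const.prodMk measurable_id)
/-- `mp_of_subMP`.  Simplest: with `a = t/n` and `E = Ω ∩ {∀ j < n, (τ a)^[j] m safe}` one has
`φ t = (τ a)^[n]` on `E` (induction with `φ_add`, `φ_eq_τ`), and `SubMP.iterate` bounds `μ Eᶜ` by
`n C (16 t/n)²`. -/
theorem mp_φ (t : ℝ) : MeasurePreserving (Δ.φ t) Δ.μ Δ.μ := by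
  rcases eq_or_ne t 0 with rfl | ht
  · have : Δ.φ 0 = id := funext Δ.φ_zero
    rw [this]
    exact MeasurePreserving.id _
  obtain ⟨C, hC, h⟩ := Δ.flow_iter
  refine mp_of_subMP (Δ.measurable_φ' t) fun δ hδ => ?_
  obtain ⟨n, hn⟩ := exists_nat_gt (C * t ^ 2 / δ)
  have hn0 : (0 : ℝ) < n := lt_of_le_of_lt (by positivity) hn
  have ha : t / n ≠ 0 := div_ne_zero ht hn0.ne'
  refine ⟨_, (h (t / n) ha n).1.congr ?_, (h (t / n) ha n).2.trans (ENNReal.ofReal_le_ofReal ?_)⟩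
  · filter_upwards [Δ.ae_mem_Ω] with m hm hE
    rw [Δ.flow_iter_eq hm hE n le_rfl, mul_div_cancel₀ _ hn0.ne']
  · rw [div_lt_iff₀ hδ] at hn
    have : C * n * (t / n) ^ 2 = C * t ^ 2 / n := by field_simp
    rw [this, div_le_iff₀ hn0]
    linarith
lemma mp_φ2 (s t : ℝ) : MeasurePreserving (fun n : M × M => (Δ.φ s n.1, Δ.φ t n.2)) Δ.μ2 Δ.μ2 := by
  exact (Δ.mp_φ s).prod (Δ.mp_φ t)
/-- Skew products with a time depending on the first point (`MeasurePreserving.skew_product`). -/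
lemma mp_skew {α : Type*} [MeasurableSpace α] (ρ : Measure α) [SFinite ρ] {t : α → ℝ}
    (ht : Measurable t) :
    MeasurePreserving (fun n : α × M => (n.1, Δ.φ (t n.1) n.2)) (ρ.prod Δ.μ) (ρ.prod Δ.μ) := by
  refine (MeasurePreserving.id ρ).skew_product (g := fun a m => Δ.φ (t a) m) ?_
    (Eventually.of_forall fun a => (Δ.mp_φ (t a)).map_eq)
  exact Δ.measurable_φ.comp (f := fun n : α × M => ((t n.1, n.2) : ℝ × M))
    ((ht.comp measurable_fst).prodMk measurable_snd)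

end Tri

end Crest.Agent.R103
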