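import Crest.Agent.R103.Alg

/-! Row 103: the local translations `τ w` (pointwise geometry). -/

set_option autoImplicit false
set_option linter.unusedVariables false

noncomputable section

open MeasureTheory Set Filter Topology
open scoped ComplexConjugate

namespace Crest.Agent.R103

namespace Tri

variable (Δ : Tri)

lemma geo_fold_of_not_bad {m : M} (h : ∀ i, ¬ Δ.Bad i m) : Δ.fold m = m := by
  unfold fold
  rw [if_neg (h 0), if_neg (h 1), if_neg (h 2)]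

lemma geo_fold_of_bad {m : M} {j : Fin 3} (hj : Δ.Bad j m) (h : ∀ i, i ≠ j → ¬ Δ.Bad i m) :
    Δ.fold m = Δ.refl j m := by
  unfold fold
  fin_cases j
  · exact if_pos hj
  · rw [if_neg (h 0 (by decide))]; exact if_pos hj
  · rw [if_neg (h 0 (by decide)), if_neg (h 1 (by decide))]; exact if_pos hj

lemma geo_fold_of_not_bad' {m : M} {j : Fin 3} (hj : ¬ Δ.Bad j m) (h : ∀ i, i ≠ j → ¬ Δ.Bad i m) :
    Δ.fold m = m := by
  refine Δ.geo_fold_of_not_bad fun i => ?_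
  by_cases e : i = j
  · rw [e]; exact hj
  · exact h i e

lemma geo_fold_cases (m : M) : Δ.fold m = m ∨ ∃ j, Δ.Bad j m ∧ Δ.fold m = Δ.refl j m := by
  unfold fold
  split_ifs with h0 h1 h2
  · exact Or.inr ⟨0, h0, rfl⟩
  · exact Or.inr ⟨1, h1, rfl⟩
  · exact Or.inr ⟨2, h2, rfl⟩
  · exact Or.inl rfl

lemma geo_not_bad_of_pos {m : M} {i : Fin 3} (h : 0 < Δ.ℓ i m.1) : ¬ Δ.Bad i m := by
  rintro (h' | ⟨h', -⟩) <;> linarith

lemma geo_le_of_bad {m : M} {i : Fin 3} (h : Δ.Bad i m) : Δ.ℓ i m.1 ≤ 0 := by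
  rcases h with h' | ⟨h', -⟩ <;> linarith

lemma geo_near {x y : ℂ} {r : ℝ} {i : Fin 3} (h : r < Δ.ℓ i x) (hy : ‖y - x‖ ≤ r) :
    0 < Δ.ℓ i y := by
  have := abs_le.1 (Δ.ℓ_lip i y x)
  linarith [this.1]

lemma geo_norm_add (m : M) (w : ℂ) : ‖m.1 + act m.2 w - m.1‖ = ‖w‖ := by
  rw [add_sub_cancel_left, norm_act]

lemma geo_not_bad_refl {n : M} {j : Fin 3} (h : Δ.Bad j n) : ¬ Δ.Bad j (Δ.refl j n) := by
  unfold Bad refl at *
  simp only [ℓ_σ, nv_rf]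
  rcases h with h | ⟨h, h'⟩
  · rintro (h1 | ⟨h1, -⟩) <;> linarith
  · rintro (h1 | ⟨-, h1⟩) <;> linarith

lemma geo_bad_refl {n : M} {j : Fin 3} (h : ¬ Δ.Bad j n) (hn : Δ.ℓ j n.1 = 0 → Δ.nv j n.2 ≠ 0) :
    Δ.Bad j (Δ.refl j n) := by
  unfold Bad refl at *
  simp only [ℓ_σ, nv_rf]
  rcases lt_trichotomy (Δ.ℓ j n.1) 0 with h1 | h1 | h1
  · exact absurd (Or.inl h1) h
  · refine Or.inr ⟨by linarith, ?_⟩
    rcases lt_trichotomy (Δ.nv j n.2) 0 with h2 | h2 | h2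
    · exact absurd (Or.inr ⟨h1, h2⟩) h
    · exact absurd h2 (hn h1)
    · linarith
  · exact Or.inl (by linarith)

lemma ND_of_NT {m : M} (h : Δ.NT m) (w : ℂ) : Δ.ND w m := fun j _ => h j
/-- `ℓ_add_act_real`: if `nv j = 0` then `ℓ j` does not change and is positive on `Sig`. -/
lemma ND_of_Sig {m : M} (h : m ∈ Δ.Sig) (a : ℝ) : Δ.ND a m := by
  intro j hj h0
  rw [ℓ_add_act_real, h0, mul_zero, add_zero] at hj
  rcases h j with h1 | ⟨-, h1⟩ <;> linarith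
lemma ND_zero {m : M} (h : m ∈ Δ.Sig) : Δ.ND 0 m := by
  simpa using Δ.ND_of_Sig h 0
lemma τ_zero {m : M} (h : m ∈ Δ.Sig) : Δ.τ 0 m = m := by
  unfold τ
  rw [act_zero, add_zero]
  refine Δ.geo_fold_of_not_bad fun i => ?_
  rcases h i with h1 | ⟨h1, h2⟩
  · exact Δ.geo_not_bad_of_pos h1
  · rintro (h3 | ⟨-, h3⟩)
    · exact absurd h1 h3.ne
    · exact lt_asymm h2 h3
/-- Each branch of `fold` reflects in a side with `ℓ j ≤ 0`; use `norm_σ_sub_le`. -/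
lemma norm_τ_sub_le {m : M} (h : Δ.Cl m.1) (w : ℂ) : ‖(Δ.τ w m).1 - m.1‖ ≤ ‖w‖ := by
  unfold τ
  rcases Δ.geo_fold_cases (m.1 + act m.2 w, m.2) with e | ⟨j, hj, e⟩
  · rw [e]; exact (geo_norm_add m w).le
  · rw [e]
    exact (Δ.norm_σ_sub_le j (Δ.geo_le_of_bad hj) (h j)).trans (geo_norm_add m w).le
lemma d_τ {m : M} (h : Δ.Cl m.1) (w : ℂ) : |Δ.d (Δ.τ w m).1 - Δ.d m.1| ≤ 2 * ‖w‖ := by
  have h1 := Δ.d_lip (Δ.τ w m).1 m.1
  have h2 := Δ.norm_τ_sub_le h w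
  linarith
lemma τ_of_mem_T {m : M} {w : ℂ} (h : m.1 + act m.2 w ∈ Δ.T) :
    Δ.τ w m = (m.1 + act m.2 w, m.2) :=
  Δ.geo_fold_of_not_bad fun i => Δ.geo_not_bad_of_pos (h i)

/-- The side which can be crossed. -/
lemma geo_side {z : ℂ} {r : ℝ} (hr : 0 ≤ r) (hd : 8 * r < Δ.d z) :
    ∃ j, ∀ i, i ≠ j → ∀ y, ‖y - z‖ ≤ r → 0 < Δ.ℓ i y := by
  obtain ⟨j, hj⟩ := Δ.exists_side (z := z) (r := 4 * r) (by linarith)
  exact ⟨j, fun i hi y hy => Δ.geo_near (hj i hi) (by linarith)⟩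

/-- `exists_side` with `r = 4‖w‖` gives the only side `j₀` which can be crossed; `j = j₀`. -/
lemma τ_of_neg {m : M} {w : ℂ} (h : Δ.Cl m.1) (hd : 8 * ‖w‖ < Δ.d m.1) {j : Fin 3}
    (hj : Δ.ℓ j (m.1 + act m.2 w) < 0) : Δ.τ w m = Δ.refl j (m.1 + act m.2 w, m.2) := by
  obtain ⟨j₀, hj₀⟩ := Δ.geo_side (norm_nonneg w) hd
  have e : j = j₀ := by
    by_contra e
    exact lt_asymm hj (hj₀ j e _ (geo_norm_add m w).le)
  subst e
  exact Δ.geo_fold_of_bad (Or.inl hj) fun i hi =>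
    Δ.geo_not_bad_of_pos (hj₀ i hi _ (geo_norm_add m w).le)

lemma geo_τ_not_bad {m : M} {w : ℂ} (h : Δ.Cl m.1) (hd : 8 * ‖w‖ < Δ.d m.1) (i : Fin 3) :
    ¬ Δ.Bad i (Δ.τ w m) := by
  obtain ⟨j, hj⟩ := Δ.geo_side (norm_nonneg w) hd
  by_cases e : i = j
  · subst e
    have ho : ∀ k, k ≠ i → ¬ Δ.Bad k (m.1 + act m.2 w, m.2) := fun k hk =>
      Δ.geo_not_bad_of_pos (hj k hk _ (geo_norm_add m w).le)
    by_cases hb : Δ.Bad i (m.1 + act m.2 w, m.2)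
    · unfold τ
      rw [Δ.geo_fold_of_bad hb ho]
      exact Δ.geo_not_bad_refl hb
    · unfold τ
      rw [Δ.geo_fold_of_not_bad' hb ho]
      exact hb
  · exact Δ.geo_not_bad_of_pos (hj i e _ (Δ.norm_τ_sub_le h w))

/-- With `j` from `exists_side` (`r = 4‖w‖`): the other `ℓ i` stay positive at `y = x + g w` and at
`σ j y` (which is used only if `ℓ j y ≤ 0 ≤ ℓ j x`, so `|ℓ j y| ≤ ‖w‖`). -/
lemma τ_mem_Sig {m : M} {w : ℂ} (h : Δ.Cl m.1) (hd : 8 * ‖w‖ < Δ.d m.1) (hn : Δ.ND w m) :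
    Δ.τ w m ∈ Δ.Sig := by
  obtain ⟨j, hj⟩ := Δ.geo_side (norm_nonneg w) hd
  intro i
  by_cases e : i = j
  · subst e
    have ho : ∀ k, k ≠ i → ¬ Δ.Bad k (m.1 + act m.2 w, m.2) := fun k hk =>
      Δ.geo_not_bad_of_pos (hj k hk _ (geo_norm_add m w).le)
    by_cases hb : Δ.Bad i (m.1 + act m.2 w, m.2)
    · unfold τ
      rw [Δ.geo_fold_of_bad hb ho]
      unfold refl
      simp only [ℓ_σ, nv_rf]
      rcases hb with h1 | ⟨h1, h2⟩
      · exact Or.inl (neg_pos.2 h1)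
      · exact Or.inr ⟨neg_eq_zero.2 h1, neg_pos.2 h2⟩
    · unfold τ
      rw [Δ.geo_fold_of_not_bad' hb ho]
      rcases lt_trichotomy (Δ.ℓ i (m.1 + act m.2 w)) 0 with h1 | h1 | h1
      · exact absurd (Or.inl h1) hb
      · refine Or.inr ⟨h1, ?_⟩
        rcases lt_trichotomy (Δ.nv i m.2) 0 with h2 | h2 | h2
        · exact absurd (Or.inr ⟨h1, h2⟩) hb
        · exact absurd h2 (hn i h1)
        · exact h2
      · exact Or.inl h1
  · exact Or.inl (hj i e _ (Δ.norm_τ_sub_le h w))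
lemma Cl_τ {m : M} {w : ℂ} (h : Δ.Cl m.1) (hd : 8 * ‖w‖ < Δ.d m.1) : Δ.Cl (Δ.τ w m).1 := by
  intro i
  by_contra h1
  exact Δ.geo_τ_not_bad h hd i (Or.inl (not_le.1 h1))
/-- Composition.  Take `j` from `exists_side` with `r = 4(‖w‖+‖w'‖)`.  If `(x + g w, g)` is not
`Bad j`, `τ w m = (x + g w, g)` and the claim is `act_add`.  Otherwise
`τ w' (τ w m) = fold (refl j n)`, `n = (x + g (w+w'), g)` (`σ_add_act`), no other side is `Bad` at
`n` or `refl j n`, and exactly one of `n`, `refl j n` is `Bad j` (`ℓ_σ`, `nv_rf`, `hn`). -/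
lemma τ_τ {m : M} {w w' : ℂ} (h : Δ.Cl m.1) (hd : 8 * (‖w‖ + ‖w'‖) < Δ.d m.1)
    (hn : Δ.ND (w + w') m) : Δ.τ w' (Δ.τ w m) = Δ.τ (w + w') m := by
  have hw := norm_nonneg w
  have hw' := norm_nonneg w'
  obtain ⟨j, hj⟩ := Δ.geo_side (add_nonneg hw hw') hd
  have ho : ∀ k, k ≠ j → ¬ Δ.Bad k (m.1 + act m.2 w, m.2) := fun k hk =>
    Δ.geo_not_bad_of_pos (hj k hk _ ((geo_norm_add m w).le.trans (by linarith)))
  by_cases hb : Δ.Bad j (m.1 + act m.2 w, m.2)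
  · have e1 : Δ.τ w m = Δ.refl j (m.1 + act m.2 w, m.2) := Δ.geo_fold_of_bad hb ho
    have e2 : ((Δ.τ w m).1 + act (Δ.τ w m).2 w', (Δ.τ w m).2) =
        Δ.refl j (m.1 + act m.2 (w + w'), m.2) := by
      rw [e1]
      unfold refl
      rw [act_add, ← add_assoc, Δ.σ_add_act j (m.1 + act m.2 w)]
    have ho1 : ∀ k, k ≠ j → ¬ Δ.Bad k (m.1 + act m.2 (w + w'), m.2) := fun k hk =>
      Δ.geo_not_bad_of_pos (hj k hk _ ((geo_norm_add m _).le.trans (norm_add_le _ _)))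
    have ho2 : ∀ k, k ≠ j → ¬ Δ.Bad k (Δ.refl j (m.1 + act m.2 (w + w'), m.2)) := by
      intro k hk
      rw [← e2]
      refine Δ.geo_not_bad_of_pos (hj k hk _ ?_)
      have h1 := Δ.norm_τ_sub_le h w
      have h2 := norm_add_le ((Δ.τ w m).1 - m.1) (act (Δ.τ w m).2 w')
      rw [norm_act] at h2
      rw [show (Δ.τ w m).1 + act (Δ.τ w m).2 w' - m.1 =
        (Δ.τ w m).1 - m.1 + act (Δ.τ w m).2 w' by ring]
      linarith
    show Δ.fold ((Δ.τ w m).1 + act (Δ.τ w m).2 w', (Δ.τ w m).2) =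
      Δ.fold (m.1 + act m.2 (w + w'), m.2)
    rw [e2]
    by_cases hb' : Δ.Bad j (m.1 + act m.2 (w + w'), m.2)
    · rw [Δ.geo_fold_of_bad hb' ho1, Δ.geo_fold_of_not_bad' (Δ.geo_not_bad_refl hb') ho2]
    · rw [Δ.geo_fold_of_not_bad' hb' ho1, Δ.geo_fold_of_bad (Δ.geo_bad_refl hb' (hn j)) ho2,
        refl_refl]
  · have e1 : Δ.τ w m = (m.1 + act m.2 w, m.2) := Δ.geo_fold_of_not_bad' hb ho
    rw [e1]
    unfold τ
    rw [act_add, ← add_assoc]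
lemma τ_neg_τ {m : M} {w : ℂ} (h : m ∈ Δ.Sig) (hd : 16 * ‖w‖ < Δ.d m.1) :
    Δ.τ (-w) (Δ.τ w m) = m := by
  rw [Δ.τ_τ (Δ.Cl_of_Sig h) (by rw [norm_neg]; linarith)
    (by rw [add_neg_cancel]; exact Δ.ND_zero h), add_neg_cancel, Δ.τ_zero h]
/-- Off the three lines `Bad j` only depends on the position; `act_rotF`, `rf_rotF`. -/
lemma rot_τ {m : M} {w : ℂ} (ψ : ℝ) (h : ∀ j, Δ.ℓ j (m.1 + act m.2 w) ≠ 0) :
    rot ψ (Δ.τ w m) = Δ.τ (Complex.exp (-(ψ * Complex.I)) * w) (rot ψ m) := by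
  have e : act (rotF ψ m.2) (Complex.exp (-(ψ * Complex.I)) * w) = act m.2 w := by
    rw [act_rotF, ← mul_assoc, ← Complex.exp_add, add_neg_cancel, Complex.exp_zero, one_mul]
  have hb : ∀ j (g : Fr), Δ.Bad j (m.1 + act m.2 w, g) ↔ Δ.ℓ j (m.1 + act m.2 w) < 0 := fun j g =>
    ⟨fun h1 => h1.elim id fun h2 => absurd h2.1 (h j), Or.inl⟩
  show rot ψ (Δ.fold (m.1 + act m.2 w, m.2)) =
    Δ.fold (m.1 + act (rotF ψ m.2) (Complex.exp (-(ψ * Complex.I)) * w), rotF ψ m.2)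
  rw [e]
  unfold fold
  simp only [hb]
  split_ifs <;> simp only [rot, refl, rf_rotF]

lemma geo_measurableSet_bad (j : Fin 3) : MeasurableSet {m : M | Δ.Bad j m} := by
  have h1 : Measurable fun m : M => Δ.ℓ j m.1 :=
    (Δ.continuous_ℓ j).measurable.comp measurable_fst
  have h2 : Measurable fun m : M => Δ.nv j m.2 :=
    (Δ.continuous_nv j).measurable.comp measurable_snd
  exact (measurableSet_lt h1 measurable_const).union
    ((measurableSet_eq_fun h1 measurable_const).inter (measurableSet_lt h2 measurable_const))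

lemma measurable_fold : Measurable Δ.fold := by
  unfold fold
  exact Measurable.ite (Δ.geo_measurableSet_bad 0) (Δ.continuous_refl 0).measurable
    (Measurable.ite (Δ.geo_measurableSet_bad 1) (Δ.continuous_refl 1).measurable
      (Measurable.ite (Δ.geo_measurableSet_bad 2) (Δ.continuous_refl 2).measurable measurable_id))
lemma measurable_τ : Measurable fun p : ℂ × M => Δ.τ p.1 p.2 := by
  have h1 : Continuous fun p : ℂ × M => act p.2.2 p.1 :=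
    continuous_act.comp (f := fun p : ℂ × M => (p.2.2, p.1)) (by fun_prop)
  have h2 : Continuous fun p : ℂ × M => ((p.2.1 + act p.2.2 p.1, p.2.2) : M) :=
    (continuous_snd.fst.add h1).prodMk continuous_snd.snd
  exact Δ.measurable_fold.comp h2.measurable
lemma measurable_τ' (w : ℂ) : Measurable (Δ.τ w) :=
  Δ.measurable_τ.comp (f := fun m : M => (w, m)) (measurable_const.prodMk measurable_id)
/-- At an interior point `τ w m = (x + g w, g)` for small `w`. -/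
lemma tendsto_τ {m : M} (h : m.1 ∈ Δ.T) : Tendsto (fun w => Δ.τ w m) (𝓝 0) (𝓝 m) := by
  have h1 : Continuous fun w : ℂ => m.1 + act m.2 w :=
    continuous_const.add (continuous_act.comp (f := fun w : ℂ => (m.2, w)) (by fun_prop))
  have h2 : Tendsto (fun w : ℂ => m.1 + act m.2 w) (𝓝 0) (𝓝 m.1) := by
    simpa [act_zero] using h1.tendsto 0
  have h3 : Tendsto (fun w : ℂ => ((m.1 + act m.2 w, m.2) : M)) (𝓝 0) (𝓝 m) :=
    h2.prodMk_nhds tendsto_const_nhds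
  refine h3.congr' ?_
  filter_upwards [h2.eventually (Δ.isOpen_T.mem_nhds h)] with w hw
  exact (Δ.τ_of_mem_T hw).symm

end Tri

end Crest.Agent.R103
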