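import Crest.Agent.R103.Sub

/-! Row 103: Koopman and multiplication operators on `L²`. -/

set_option autoImplicit false
set_option linter.unusedVariables false

noncomputable section

open MeasureTheory Set Filter Topology
open scoped ComplexConjugate InnerProductSpace

namespace Crest.Agent.R103

variable {α : Type*} [MeasurableSpace α] {μ : Measure α}

lemma koop_memLp {E : Set α} {T : α → α} (h : SubMP μ E T) (hE : MeasurableSet E)
    (hT : Measurable T) (p : Lp ℂ 2 μ) : MemLp (E.indicator (fun x => p (T x))) 2 μ ∧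
      eLpNorm (E.indicator (fun x => p (T x))) 2 μ ≤ eLpNorm p 2 μ := by
  have hle := h.map_le hE hT
  have h1 : MemLp p 2 ((μ.restrict E).map T) := (Lp.memLp p).mono_measure hle
  have h2 : MemLp (fun x => p (T x)) 2 (μ.restrict E) := h1.comp_of_map hT.aemeasurable
  refine ⟨(memLp_indicator_iff_restrict hE).2 h2, ?_⟩
  rw [eLpNorm_indicator_eq_eLpNorm_restrict hE]
  calc eLpNorm (fun x => p (T x)) 2 (μ.restrict E) = eLpNorm p 2 ((μ.restrict E).map T) :=
        (eLpNorm_map_measure h1.1 hT.aemeasurable).symm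
    _ ≤ eLpNorm p 2 μ := eLpNorm_mono_measure _ hle

lemma koop_norm_sq (p : Lp ℂ 2 μ) : ‖p‖ ^ 2 = ∫ x, ‖p x‖ ^ 2 ∂μ := by
  rw [← inner_self_eq_norm_sq (𝕜 := ℂ) p, L2.inner_def, ← integral_re (L2.integrable_inner p p)]
  refine integral_congr_ae (ae_of_all _ fun x => ?_)
  exact inner_self_eq_norm_sq (𝕜 := ℂ) (p x)

lemma koop_coe_smul (a : ℝ) (p : Lp ℂ 2 μ) : (a : ℂ) • p = a • p := by
  refine Lp.ext ?_
  filter_upwards [Lp.coeFn_smul (a : ℂ) p, Lp.coeFn_smul a p] with x h1 h2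
  rw [h1, h2, Pi.smul_apply, Pi.smul_apply, Complex.coe_smul]

/-- A map given almost everywhere defines a contraction. -/
lemma koop_mk {Φ : Lp ℂ 2 μ → α → ℂ} (hm : ∀ p, MemLp (Φ p) 2 μ)
    (hn : ∀ p, eLpNorm (Φ p) 2 μ ≤ eLpNorm p 2 μ)
    (hadd : ∀ p q, Φ (p + q) =ᵐ[μ] fun x => Φ p x + Φ q x)
    (hsmul : ∀ (c : ℂ) p, Φ (c • p) =ᵐ[μ] fun x => c * Φ p x) :
    ∃ L : Lp ℂ 2 μ →L[ℂ] Lp ℂ 2 μ, (∀ p, L p =ᵐ[μ] Φ p) ∧ ∀ p, ‖L p‖ ≤ ‖p‖ := by
  let L₀ : Lp ℂ 2 μ →ₗ[ℂ] Lp ℂ 2 μ :=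
    { toFun := fun p => (hm p).toLp _
      map_add' := fun p q => by
        refine Lp.ext ?_
        filter_upwards [(hm (p + q)).coeFn_toLp, (hm p).coeFn_toLp, (hm q).coeFn_toLp,
          Lp.coeFn_add ((hm p).toLp _) ((hm q).toLp _), hadd p q] with x h1 h2 h3 h4 h5
        rw [h1, h4, h5, Pi.add_apply, h2, h3]
      map_smul' := fun c p => by
        refine Lp.ext ?_
        filter_upwards [(hm (c • p)).coeFn_toLp, (hm p).coeFn_toLp,
          Lp.coeFn_smul c ((hm p).toLp _), hsmul c p] with x h1 h2 h4 h5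
        rw [h1, RingHom.id_apply, h4, h5, Pi.smul_apply, h2, smul_eq_mul] }
  have hb : ∀ p, ‖L₀ p‖ ≤ ‖p‖ := fun p => by
    change ‖(hm p).toLp _‖ ≤ ‖p‖
    rw [Lp.norm_toLp, Lp.norm_def]
    exact ENNReal.toReal_mono (Lp.eLpNorm_ne_top p) (hn p)
  exact ⟨L₀.mkContinuous 1 (fun p => by rw [one_mul]; exact hb p), fun p => (hm p).coeFn_toLp, hb⟩

/-- `eLpNorm (E.indicator (p ∘ T)) 2 μ = eLpNorm p 2 ((μ.restrict E).map T) ≤ eLpNorm p 2 μ`
(`SubMP.map_le`); linearity through `SubMP.ae`; `LinearMap.mkContinuous`. -/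
lemma exists_koop {E : Set α} {T : α → α} (h : SubMP μ E T) (hE : MeasurableSet E)
    (hT : Measurable T) : ∃ L : Lp ℂ 2 μ →L[ℂ] Lp ℂ 2 μ,
      (∀ p, L p =ᵐ[μ] E.indicator (fun x => p (T x))) ∧ ∀ p, ‖L p‖ ≤ ‖p‖ := by
  refine koop_mk (Φ := fun p => E.indicator (fun x => p (T x)))
    (fun p => (koop_memLp h hE hT p).1) (fun p => (koop_memLp h hE hT p).2) ?_ ?_
  · intro p q
    filter_upwards [h.ae (Lp.coeFn_add p q)] with x hx
    by_cases hxE : x ∈ E
    · simp only [indicator_of_mem hxE]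
      exact hx hxE
    · simp [indicator_of_notMem hxE]
  · intro c p
    filter_upwards [h.ae (Lp.coeFn_smul c p)] with x hx
    by_cases hxE : x ∈ E
    · simp only [indicator_of_mem hxE]
      exact hx hxE
    · simp [indicator_of_notMem hxE]

open Classical in
/-- The Koopman operator `p ↦ 1_E · p ∘ T`. -/
def koop (μ : Measure α) (E : Set α) (T : α → α) : Lp ℂ 2 μ →L[ℂ] Lp ℂ 2 μ :=
  if h : SubMP μ E T ∧ MeasurableSet E ∧ Measurable T then
    (exists_koop h.1 h.2.1 h.2.2).choose else 0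

lemma koop_ae {E : Set α} {T : α → α} (h : SubMP μ E T) (hE : MeasurableSet E)
    (hT : Measurable T) (p : Lp ℂ 2 μ) : koop μ E T p =ᵐ[μ] E.indicator (fun x => p (T x)) := by
  rw [koop, dif_pos ⟨h, hE, hT⟩]
  exact (exists_koop h hE hT).choose_spec.1 p

lemma norm_koop_le (E : Set α) (T : α → α) (p : Lp ℂ 2 μ) : ‖koop μ E T p‖ ≤ ‖p‖ := by
  unfold koop
  split_ifs with h
  · exact (exists_koop h.1 h.2.1 h.2.2).choose_spec.2 p
  · simp

lemma koop_univ_ae {T : α → α} (h : MeasurePreserving T μ μ) (p : Lp ℂ 2 μ) :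
    koop μ univ T p =ᵐ[μ] fun x => p (T x) := by
  simpa using koop_ae (SubMP.of_mp h univ) MeasurableSet.univ h.measurable p

/-- Adjoint of the Koopman operator of an invertible measure preserving map. -/
lemma koop_univ_adj {T T' : α → α} (h : MeasurePreserving T μ μ) (h' : MeasurePreserving T' μ μ)
    (hi : ∀ᵐ x ∂μ, T' (T x) = x) (p q : Lp ℂ 2 μ) :
    ⟪koop μ univ T p, q⟫_ℂ = ⟪p, koop μ univ T' q⟫_ℂ := by
  rw [L2.inner_def, L2.inner_def]
  have hG : AEStronglyMeasurable (fun y => ⟪p y, koop μ univ T' q y⟫_ℂ) (μ.map T) := by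
    rw [h.map_eq]; exact (L2.integrable_inner p _).1
  have e1 := integral_map h.measurable.aemeasurable hG
  rw [h.map_eq] at e1
  rw [e1]
  refine integral_congr_ae ?_
  filter_upwards [koop_univ_ae h p, h.quasiMeasurePreserving.ae (koop_univ_ae h' q), hi]
    with x h1 h2 h3
  rw [h1, h2, h3]

/-- Local adjoint (`SubMP.map_eq` applied to `T'`, `integral_map`). -/
lemma koop_adj {E E' U : Set α} {T T' : α → α} (h : SubMP μ E T) (h' : SubMP μ E' T')
    (hE : MeasurableSet E) (hE' : MeasurableSet E') (hU : MeasurableSet U) (hT : Measurable T)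
    (hT' : Measurable T') (h1 : ∀ᵐ x ∂μ, x ∈ U → x ∈ E ∧ T x ∈ E' ∧ T' (T x) = x)
    (h2 : ∀ᵐ x ∂μ, x ∈ E' → T (T' x) = x) (p q : Lp ℂ 2 μ) (hq : ∀ᵐ x ∂μ, x ∉ U → q x = 0) :
    ⟪koop μ E T p, q⟫_ℂ = ⟪p, koop μ E' T' q⟫_ℂ := by
  rw [L2.inner_def, L2.inner_def]
  have hmap := h'.map_eq h hE' hU hT' h1
  have hG : AEStronglyMeasurable (fun x => ⟪koop μ E T p x, q x⟫_ℂ)
      ((μ.restrict (E' ∩ T' ⁻¹' U)).map T') := by
    rw [hmap]; exact (L2.integrable_inner _ q).1.restrict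
  have e1 := integral_map hT'.aemeasurable hG
  rw [hmap] at e1
  have e2 : ∫ x in U, ⟪koop μ E T p x, q x⟫_ℂ ∂μ = ∫ x, ⟪koop μ E T p x, q x⟫_ℂ ∂μ := by
    refine setIntegral_eq_integral_of_ae_compl_eq_zero ?_
    filter_upwards [hq] with x hx hxU
    rw [hx hxU, inner_zero_right]
  rw [← e2, e1, ← integral_indicator (hE'.inter (hT' hU))]
  refine integral_congr_ae ?_
  filter_upwards [koop_ae h' hE' hT' q, h'.ae (koop_ae h hE hT p), h'.ae h1, h2, h'.ae hq]
    with y a1 a2 a3 a4 a5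
  rw [a1]
  by_cases hy : y ∈ E'
  · rw [indicator_of_mem hy]
    by_cases hyU : T' y ∈ U
    · rw [indicator_of_mem (show y ∈ E' ∩ T' ⁻¹' U from ⟨hy, hyU⟩), a2 hy,
        indicator_of_mem (a3 hy hyU).1, a4 hy]
    · rw [indicator_of_notMem (fun hh => hyU hh.2), a5 hy hyU, inner_zero_right]
  · rw [indicator_of_notMem hy, indicator_of_notMem (fun hh => hy hh.1), inner_zero_right]

/-- Strong continuity: true for bounded continuous `p` by dominated convergence, which are dense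
(`Lp.boundedContinuousFunction_dense`), and the operators are contractions. -/
lemma tendsto_koop {ι : Type*} {l : Filter ι} [l.IsCountablyGenerated] [TopologicalSpace α]
    [TopologicalSpace.PseudoMetrizableSpace α] [SecondCountableTopology α] [BorelSpace α]
    [IsFiniteMeasure μ] {E : ι → Set α} {T : ι → α → α} (h : ∀ i, SubMP μ (E i) (T i))
    (hE : ∀ i, MeasurableSet (E i)) (hT : ∀ i, Measurable (T i))
    (hl : ∀ᵐ x ∂μ, (∀ᶠ i in l, x ∈ E i) ∧ Tendsto (fun i => T i x) l (𝓝 x)) (p : Lp ℂ 2 μ) :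
    Tendsto (fun i => koop μ (E i) (T i) p) l (𝓝 p) := by
  have key : ∀ f : Lp ℂ 2 μ, f ∈ Lp.boundedContinuousFunction ℂ 2 μ →
      Tendsto (fun i => koop μ (E i) (T i) f) l (𝓝 f) := by
    intro f hf
    obtain ⟨g, hg⟩ := Lp.mem_boundedContinuousFunction_iff.1 hf
    have hfg : f =ᵐ[μ] g := by
      rw [show (f : α → ℂ) = (f.1 : α →ₘ[μ] ℂ) from rfl, ← hg]
      exact ContinuousMap.coeFn_toAEEqFun μ g.toContinuousMap
    rw [tendsto_iff_norm_sub_tendsto_zero]
    have hsq : Tendsto (fun i => ‖koop μ (E i) (T i) f - f‖ ^ 2) l (𝓝 0) := by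
      have e : ∀ i, ‖koop μ (E i) (T i) f - f‖ ^ 2 =
          ∫ x, ‖(E i).indicator (fun x => g (T i x)) x - g x‖ ^ 2 ∂μ := by
        intro i
        rw [koop_norm_sq]
        refine integral_congr_ae ?_
        filter_upwards [Lp.coeFn_sub (koop μ (E i) (T i) f) f, koop_ae (h i) (hE i) (hT i) f,
          hfg, (h i).ae hfg] with x b1 b2 b3 b4
        rw [b1, Pi.sub_apply, b2, b3]
        by_cases hx : x ∈ E i
        · rw [indicator_of_mem hx, indicator_of_mem hx, b4 hx]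
        · rw [indicator_of_notMem hx, indicator_of_notMem hx]
      simp only [e]
      have h0 : (0 : ℝ) = ∫ x, (0 : ℝ) ∂μ := by simp
      rw [h0]
      refine tendsto_integral_filter_of_dominated_convergence (fun _ => (‖g‖ + ‖g‖) ^ 2)
        (Eventually.of_forall fun i => ?_) (Eventually.of_forall fun i => ae_of_all _ fun x => ?_)
        (integrable_const _) ?_
      · have hg' : Measurable g := g.continuous.measurable
        exact ((((hg'.comp (hT i)).indicator (hE i)).sub hg').norm.pow_const 2).aestronglyMeasurable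
      · rw [Real.norm_of_nonneg (by positivity)]
        refine pow_le_pow_left₀ (norm_nonneg _) ((norm_sub_le _ _).trans ?_) 2
        refine add_le_add ?_ (g.norm_coe_le_norm x)
        exact (norm_indicator_le_norm_self _ _).trans (g.norm_coe_le_norm _)
      · filter_upwards [hl] with x hx
        have t1 : Tendsto (fun i => ‖g (T i x) - g x‖ ^ 2) l (𝓝 (‖g x - g x‖ ^ 2)) :=
          ((((g.continuous.tendsto x).comp hx.2).sub tendsto_const_nhds).norm).pow 2
        rw [sub_self, norm_zero, zero_pow two_ne_zero] at t1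
        refine t1.congr' ?_
        filter_upwards [hx.1] with i hi
        rw [indicator_of_mem hi]
    have := hsq.sqrt
    simpa [Real.sqrt_sq (norm_nonneg _)] using this
  rw [Metric.tendsto_nhds]
  intro ε hε
  obtain ⟨f, hf, hd⟩ := (Lp.boundedContinuousFunction_dense ℂ μ
    (p := 2) ENNReal.ofNat_ne_top).exists_dist_lt p (show 0 < ε / 3 by positivity)
  filter_upwards [Metric.tendsto_nhds.1 (key f hf) (ε / 3) (by positivity)] with i hi
  have b1 : dist (koop μ (E i) (T i) p) (koop μ (E i) (T i) f) ≤ dist p f := by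
    rw [dist_eq_norm, dist_eq_norm, ← map_sub]
    exact norm_koop_le _ _ _
  have b2 := dist_triangle4 (koop μ (E i) (T i) p) (koop μ (E i) (T i) f) f p
  rw [dist_comm f p] at b2
  linarith

lemma exists_mul {ζ : α → ℝ} (hζ : Measurable ζ) (h : ∀ x, |ζ x| ≤ 1) :
    ∃ L : Lp ℂ 2 μ →L[ℂ] Lp ℂ 2 μ, ∀ p, L p =ᵐ[μ] fun x => (ζ x : ℂ) * p x := by
  have hb : ∀ (p : Lp ℂ 2 μ) x, ‖(ζ x : ℂ) * p x‖ ≤ ‖p x‖ := fun p x => by
    rw [norm_mul, Complex.norm_real, Real.norm_eq_abs]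
    exact mul_le_of_le_one_left (norm_nonneg _) (h x)
  obtain ⟨L, hL, -⟩ := koop_mk (μ := μ) (Φ := fun p x => (ζ x : ℂ) * p x)
    (fun p => (Lp.memLp p).of_le
      ((Complex.measurable_ofReal.comp hζ).aestronglyMeasurable.mul (Lp.aestronglyMeasurable p))
      (ae_of_all _ (hb p)))
    (fun p => eLpNorm_mono (hb p))
    (fun p q => by
      filter_upwards [Lp.coeFn_add p q] with x hx
      rw [hx, Pi.add_apply, mul_add])
    (fun c p => by
      filter_upwards [Lp.coeFn_smul c p] with x hx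
      rw [hx, Pi.smul_apply, smul_eq_mul, mul_left_comm])
  exact ⟨L, hL⟩

/-- `L²` norm against a pointwise bound. -/
lemma norm_sq_le_of_ae {p : Lp ℂ 2 μ} {b : α → ℝ} (hb : Integrable (fun x => b x ^ 2) μ)
    (h : ∀ᵐ x ∂μ, ‖p x‖ ≤ |b x|) : ‖p‖ ^ 2 ≤ ∫ x, b x ^ 2 ∂μ := by
  rw [koop_norm_sq]
  refine integral_mono_of_nonneg (ae_of_all _ fun x => by positivity) hb ?_
  filter_upwards [h] with x hx
  rw [← sq_abs (b x)]
  exact pow_le_pow_left₀ (norm_nonneg _) hx 2

/-- The unit ball of `L^∞` is closed and convex in `L²`, hence stable under averages. -/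
lemma ae_norm_avg_le {f : ℝ → Lp ℂ 2 μ} (hf : Continuous f) (h : ∀ s, ∀ᵐ x ∂μ, ‖f s x‖ ≤ 1)
    {η : ℝ} (hη : 0 < η) : ∀ᵐ x ∂μ, ‖(((η : ℂ)⁻¹ • ∫ s in (0 : ℝ)..η, f s : Lp ℂ 2 μ)) x‖ ≤ 1 := by
  let K : Set (Lp ℂ 2 μ) := {p | ∀ᵐ x ∂μ, ‖p x‖ ≤ 1}
  have hconv : Convex ℝ K := by
    intro p hp q hq a b ha hb hab
    have e : a • p + b • q = (a : ℂ) • p + (b : ℂ) • q := by
      rw [koop_coe_smul, koop_coe_smul]
    change ∀ᵐ x ∂μ, ‖(a • p + b • q) x‖ ≤ 1
    rw [e]
    filter_upwards [Lp.coeFn_add ((a : ℂ) • p) ((b : ℂ) • q), Lp.coeFn_smul (a : ℂ) p,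
      Lp.coeFn_smul (b : ℂ) q, hp, hq] with x h1 h2 h3 h4 h5
    rw [h1, Pi.add_apply, h2, h3, Pi.smul_apply, Pi.smul_apply]
    refine (norm_add_le _ _).trans ?_
    rw [norm_smul, norm_smul, Complex.norm_real, Complex.norm_real, Real.norm_of_nonneg ha,
      Real.norm_of_nonneg hb]
    nlinarith
  have hcl : IsClosed K := by
    refine IsSeqClosed.isClosed fun g g₀ hg ht => ?_
    obtain ⟨φ, -, hφ⟩ := (tendstoInMeasure_of_tendsto_Lp ht).exists_seq_tendsto_ae
    filter_upwards [ae_all_iff.2 hg, hφ] with x hx hφx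
    exact le_of_tendsto' hφx.norm fun n => hx _
  have hmem := hconv.set_average_mem (μ := (volume : Measure ℝ)) (t := Ioc 0 η) (f := f) hcl
    (by simp [hη]) (by simp) (ae_of_all _ fun s => h s)
    (hf.integrableOn_Icc.mono_set Ioc_subset_Icc_self)
  have e : (⨍ s in Ioc 0 η, f s) = (η : ℂ)⁻¹ • ∫ s in (0 : ℝ)..η, f s := by
    rw [setAverage_eq, intervalIntegral.integral_of_le hη.le, ← Complex.ofReal_inv,
      koop_coe_smul]
    simp [hη.le]
  rw [e] at hmem
  exact hmem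

end Crest.Agent.R103
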