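import Mathlib

/-! Row 103: almost everywhere locally constant functions. -/

set_option autoImplicit false
set_option linter.unusedVariables false

noncomputable section

open MeasureTheory Set Filter Topology
open scoped ComplexConjugate

namespace Crest.Agent.R103

/-- For `z ∈ U` take a ball `B = ball z ρ ⊆ U` on which `r > 2ρ`; a generic `x₀ ∈ B` gives
`h = h x₀` a.e. on `B`.  So `∀ z ∈ U, ∃ c, ∃ nbhd, h = c a.e. there`; `c z` is unique (open sets have
positive measure) and locally constant on `U`, hence constant; conclude with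
`measure_null_of_locally_null` / Lindelöf. -/
lemma ae_const_of_loc {U : Set ℂ} (hU : IsOpen U) (hc : IsPreconnected U) {r : ℂ → ℝ}
    (hr : ContinuousOn r U) (hr0 : ∀ x ∈ U, 0 < r x) {h : ℂ → ℝ}
    (hh : ∀ᵐ x ∂(volume : Measure ℂ).restrict U, ∀ᵐ y ∂(volume : Measure ℂ),
      ‖y - x‖ < r x → h y = h x) : ∃ c, ∀ᵐ x ∂(volume : Measure ℂ).restrict U, h x = c := by
  rw [ae_restrict_iff' hU.measurableSet] at hh
  have key : ∀ z ∈ U, ∃ (c ρ : ℝ), 0 < ρ ∧ ∀ᵐ y ∂(volume : Measure ℂ), y ∈ Metric.ball z ρ → h y = c := by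
    intro z hz
    have h1 : ∀ᶠ x in 𝓝 z, x ∈ U ∧ r z / 2 < r x :=
      (hU.eventually_mem hz).and ((hr.continuousAt (hU.mem_nhds hz)).eventually
        (lt_mem_nhds (half_lt_self (hr0 z hz))))
    obtain ⟨ρ₀, hρ₀, h2⟩ := Metric.eventually_nhds_iff_ball.1 h1
    have hρ : 0 < min ρ₀ (r z / 4) := lt_min hρ₀ (by linarith [hr0 z hz])
    obtain ⟨x₀, hx₀, h3⟩ := Measure.exists_mem_of_measure_ne_zero_of_ae
      (Metric.measure_ball_pos volume z hρ).ne' (ae_restrict_of_ae hh)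
    have h4 := h2 x₀ (Metric.ball_subset_ball (min_le_left _ _) hx₀)
    refine ⟨h x₀, _, hρ, ?_⟩
    filter_upwards [h3 h4.1] with y hy hyb
    refine hy ?_
    have := dist_triangle_right y x₀ z
    rw [Metric.mem_ball] at hx₀ hyb
    rw [← dist_eq_norm]
    linarith [min_le_right ρ₀ (r z / 4), h4.2]
  choose! c ρ hρ hcρ using key
  have hloc : ∀ z ∈ U, ∀ z' ∈ U, z' ∈ Metric.ball z (ρ z) → c z = c z' := by
    intro z hz z' hz' hb
    obtain ⟨x, hx, h1, h2⟩ := Measure.exists_mem_of_measure_ne_zero_of_ae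
      ((Metric.isOpen_ball.inter Metric.isOpen_ball).measure_pos volume
        ⟨z', hb, Metric.mem_ball_self (hρ z' hz')⟩).ne'
      (ae_restrict_of_ae ((hcρ z hz).and (hcρ z' hz')))
    rw [← h1 hx.1, h2 hx.2]
  rcases U.eq_empty_or_nonempty with rfl | ⟨z₀, hz₀⟩
  · simp
  refine ⟨c z₀, (ae_restrict_iff' hU.measurableSet).2 ?_⟩
  refine measure_null_of_locally_null _ fun z hz => ?_
  have hz : z ∈ U ∧ h z ≠ c z₀ := by simpa using hz
  have h1 : c z₀ = c z := hc.induction₂' (fun x y => c x = c y) (fun x hx => by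
    filter_upwards [self_mem_nhdsWithin, mem_nhdsWithin_of_mem_nhds (Metric.ball_mem_nhds x (hρ x hx))]
      with y hy hy'
    exact ⟨hloc x hx y hy hy', (hloc x hx y hy hy').symm⟩) (fun _ _ _ _ _ _ => Eq.trans) hz₀ hz.1
  refine ⟨_, inter_mem_nhdsWithin _ (Metric.ball_mem_nhds z (hρ z hz.1)),
    measure_mono_null (fun y hy => ?_) (hcρ z hz.1)⟩
  have h2 : y ∈ U ∧ h y ≠ c z₀ := by simpa using hy.1
  exact fun h3 => h2.2 (h1 ▸ h3 hy.2)

/-- Parametrised version: `C y` is the average of `H (·, y)` (`StronglyMeasurable.integral_prod_left`),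
and `Measure.ae_prod_iff_ae_ae`, `Measure.ae_ae_comm` on the measurable set `{H (x, y) = C y}`. -/
lemma exists_const_param {X Y : Type*} [MeasurableSpace X] [MeasurableSpace Y] {μ : Measure X}
    {ν : Measure Y} [IsFiniteMeasure μ] [SFinite ν] {H : X × Y → ℝ} (hH : Measurable H)
    (h : ∀ᵐ y ∂ν, ∃ c, ∀ᵐ x ∂μ, H (x, y) = c) :
    ∃ C : Y → ℝ, Measurable C ∧ ∀ᵐ z ∂μ.prod ν, H z = C z.2 := by
  by_cases hμ : μ = 0
  · exact ⟨fun _ => 0, measurable_const, by simp [hμ]⟩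
  have hpos : μ.real univ ≠ 0 := by
    rw [Ne, measureReal_eq_zero_iff, Measure.measure_univ_eq_zero]; exact hμ
  have hC : Measurable fun y => (μ.real univ)⁻¹ * ∫ x, H (x, y) ∂μ :=
    hH.stronglyMeasurable.integral_prod_left'.measurable.const_mul _
  refine ⟨_, hC, ?_⟩
  have hm : MeasurableSet {z : X × Y | H z = (μ.real univ)⁻¹ * ∫ x, H (x, z.2) ∂μ} :=
    measurableSet_eq_fun hH (hC.comp measurable_snd)
  rw [Measure.ae_prod_iff_ae_ae hm,
    Measure.ae_ae_comm (p := fun x y => H (x, y) = (μ.real univ)⁻¹ * ∫ x, H (x, y) ∂μ) hm]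
  filter_upwards [h] with y hy
  obtain ⟨c, hc⟩ := hy
  have : (μ.real univ)⁻¹ * ∫ x, H (x, y) ∂μ = c := by
    rw [integral_congr_ae hc, integral_const, smul_eq_mul, inv_mul_cancel_left₀ hpos]
  rw [this]
  exact hc

/-- A closed subgroup of `ℝ` which contains `h cos ψ` for a.e. `ψ` is everything: a closed set of
full measure is everything, so it contains `[-|h|, |h|]`. -/
lemma addSubgroup_eq_top {G : AddSubgroup ℝ} (hG : IsClosed (G : Set ℝ)) {Y : Type*}
    [TopologicalSpace Y] [MeasurableSpace Y] [PreconnectedSpace Y] {ν : Measure Y}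
    [ν.IsOpenPosMeasure] {θ : Y → ℝ} (hθ : Continuous θ) {y₀ y₁ : Y} (h01 : θ y₀ ≠ θ y₁)
    (h : ∀ᵐ y ∂ν, θ y ∈ G) : G = ⊤ := by
  have h1 : ∀ y, θ y ∈ G := by
    have h2 := ((hG.preimage hθ).isOpen_compl.measure_eq_zero_iff ν).1 h
    intro y
    by_contra hy
    exact (Set.eq_empty_iff_forall_notMem.1 h2) y hy
  have h2 : uIcc (θ y₀) (θ y₁) ⊆ G :=
    ((isPreconnected_range hθ).ordConnected.uIcc_subset ⟨y₀, rfl⟩ ⟨y₁, rfl⟩).trans
      (by rintro _ ⟨y, rfl⟩; exact h1 y)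
  have h3 : min (θ y₀) (θ y₁) < max (θ y₀) (θ y₁) := min_lt_max.2 h01
  obtain ⟨t, ht1, ht2⟩ := exists_between h3
  have h4 : IsOpen (G : Set ℝ) := G.isOpen_of_mem_nhds (mem_of_superset (Icc_mem_nhds ht1 ht2) h2)
  exact SetLike.coe_injective (IsClopen.eq_univ ⟨hG, h4⟩ ⟨0, G.zero_mem⟩)

end Crest.Agent.R103
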