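import Crest.Agent.R103.Defs

/-! Row 103: measure non-increasing partial maps (general facts). -/

set_option autoImplicit false
set_option linter.unusedVariables false

noncomputable section

open MeasureTheory Set Filter Topology
open scoped ComplexConjugate

namespace Crest.Agent.R103

variable {α β : Type*} [MeasurableSpace α] [MeasurableSpace β] {μ : Measure α}

lemma SubMP.mono {E E' : Set α} {T : α → α} (h : SubMP μ E T) (hE : E' ⊆ E) : SubMP μ E' T :=
  fun B hB => (measure_mono (inter_subset_inter_left _ hE)).trans (h B hB)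
lemma SubMP.congr {E : Set α} {T T' : α → α} (h : SubMP μ E T)
    (hT : ∀ᵐ x ∂μ, x ∈ E → T x = T' x) : SubMP μ E T' := by
  intro B hB
  refine le_trans (measure_mono_ae ?_) (h B hB)
  filter_upwards [hT] with x hx h2
  exact ⟨h2.1, by rw [mem_preimage, hx h2.1]; exact h2.2⟩
lemma SubMP.of_mp {T : α → α} (h : MeasurePreserving T μ μ) (E : Set α) : SubMP μ E T :=
  fun B hB => (measure_mono inter_subset_right).trans (h.measure_preimage hB.nullMeasurableSet).le
lemma SubMP.comp {E E' : Set α} {T T' : α → α} (h : SubMP μ E T) (h' : SubMP μ E' T')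
    (hE' : MeasurableSet E') (hT' : Measurable T') : SubMP μ (E ∩ T ⁻¹' E') (T' ∘ T) := by
  intro B hB
  rw [preimage_comp, inter_assoc, ← preimage_inter]
  exact (h _ (hE'.inter (hT' hB))).trans (h' B hB)
lemma SubMP.ae {E : Set α} {T : α → α} (h : SubMP μ E T) {P : α → Prop} (hP : ∀ᵐ x ∂μ, P x) :
    ∀ᵐ x ∂μ, x ∈ E → P (T x) := by
  obtain ⟨N, hN, hNm, hN0⟩ := exists_measurable_superset_of_null (ae_iff.1 hP)
  rw [ae_iff]
  refine measure_mono_null (fun x hx => ?_) (le_antisymm ((h N hNm).trans hN0.le) zero_le)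
  rw [mem_setOf_eq, Classical.not_imp] at hx
  exact ⟨hx.1, hN hx.2⟩
lemma SubMP.map_le {E : Set α} {T : α → α} (h : SubMP μ E T) (hE : MeasurableSet E)
    (hT : Measurable T) : (μ.restrict E).map T ≤ μ := by
  refine Measure.le_iff.2 fun B hB => ?_
  rw [Measure.map_apply hT hB, Measure.restrict_apply (hT hB), inter_comm]
  exact h B hB
lemma SubMP.prod {E : Set α} {T : α → α} (h : SubMP μ E T) (hE : MeasurableSet E)
    (hT : Measurable T) (ν : Measure β) [SFinite μ] [SFinite ν] :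
    SubMP (μ.prod ν) (Prod.fst ⁻¹' E) (Prod.map T id) := by
  intro B hB
  rw [Measure.prod_apply_symm ((measurable_fst hE).inter ((hT.prodMap measurable_id) hB)),
    Measure.prod_apply_symm hB]
  exact lintegral_mono fun y => h ((fun x => (x, y)) ⁻¹' B) (measurable_prodMk_right hB)
/-- Apply the hypothesis to `B` and `Bᶜ`. -/
lemma mp_of_subMP [IsFiniteMeasure μ] {T : α → α} (hT : Measurable T)
    (h : ∀ δ : ℝ, 0 < δ → ∃ E, SubMP μ E T ∧ μ Eᶜ ≤ ENNReal.ofReal δ) :
    MeasurePreserving T μ μ := by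
  have key : ∀ B, MeasurableSet B → μ (T ⁻¹' B) ≤ μ B := by
    intro B hB
    refine ENNReal.le_of_forall_pos_le_add fun ε hε _ => ?_
    obtain ⟨E, hE, hE'⟩ := h ε hε
    calc μ (T ⁻¹' B) ≤ μ ((E ∩ T ⁻¹' B) ∪ Eᶜ) := measure_mono fun x hx => by
          by_cases hx' : x ∈ E
          · exact Or.inl ⟨hx', hx⟩
          · exact Or.inr hx'
      _ ≤ μ (E ∩ T ⁻¹' B) + μ Eᶜ := measure_union_le _ _
      _ ≤ μ B + ε := add_le_add (hE B hB) (by simpa using hE')
  refine ⟨hT, Measure.ext fun B hB => ?_⟩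
  rw [Measure.map_apply hT hB]
  refine le_antisymm (key B hB) ?_
  have h1 := key Bᶜ hB.compl
  have h2 := measure_add_measure_compl (μ := μ) hB
  have h3 := measure_add_measure_compl (μ := μ) (hT hB)
  rw [preimage_compl] at h1
  refine (ENNReal.add_le_add_iff_right (measure_ne_top μ Bᶜ)).1 ?_
  rw [h2, ← h3]
  exact add_le_add le_rfl h1
/-- Local change of variables.  `T` and `T'` are mutually inverse between (a.e. point of) `U` and
`T ⁻¹' U ∩ E`.  Proof: for measurable `B`, `μ (U ∩ B) ≤ μ (E' ∩ T' ⁻¹' (E ∩ T ⁻¹' (U ∩ B)))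
≤ μ (E ∩ T ⁻¹' (U ∩ B)) ≤ μ (U ∩ B)`. -/
lemma SubMP.map_eq {E E' U : Set α} {T T' : α → α} (h : SubMP μ E T) (h' : SubMP μ E' T')
    (hE : MeasurableSet E) (hU : MeasurableSet U) (hT : Measurable T)
    (hinv : ∀ᵐ x ∂μ, x ∈ U → x ∈ E' ∧ T' x ∈ E ∧ T (T' x) = x) :
    (μ.restrict (E ∩ T ⁻¹' U)).map T = μ.restrict U := by
  refine Measure.ext fun B hB => ?_
  rw [Measure.map_apply hT hB, Measure.restrict_apply (hT hB), Measure.restrict_apply hB]
  have e : T ⁻¹' B ∩ (E ∩ T ⁻¹' U) = E ∩ T ⁻¹' (B ∩ U) := by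
    rw [preimage_inter, inter_left_comm]
  rw [e]
  refine le_antisymm (h _ (hB.inter hU)) (le_trans (measure_mono_ae ?_)
    (h' _ (hE.inter (hT (hB.inter hU)))))
  filter_upwards [hinv] with x hx h2
  obtain ⟨a, b, c⟩ := hx h2.2
  exact ⟨a, b, by rw [mem_preimage, c]; exact h2⟩
/-- Iterating a partial map. -/
lemma SubMP.iterate {E : Set α} {T : α → α} (h : SubMP μ E T) (hE : MeasurableSet E)
    (hT : Measurable T) (k : ℕ) :
    SubMP μ {x | ∀ j < k, T^[j] x ∈ E} T^[k] ∧ μ {x | ∀ j < k, T^[j] x ∈ E}ᶜ ≤ k * μ Eᶜ := by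
  have hm : ∀ k : ℕ, MeasurableSet {x | ∀ j < k, T^[j] x ∈ E} := fun k => by
    simp only [setOf_forall]
    exact MeasurableSet.iInter fun j => MeasurableSet.iInter fun _ => (hT.iterate j) hE
  induction k with
  | zero =>
    refine ⟨SubMP.of_mp (MeasurePreserving.id μ) _, ?_⟩
    simp
  | succ k ih =>
    have e : {x | ∀ j < k + 1, T^[j] x ∈ E} = E ∩ T ⁻¹' {x | ∀ j < k, T^[j] x ∈ E} := by
      ext x
      simp only [mem_setOf_eq, Nat.forall_lt_succ_left, Function.iterate_succ_apply,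
        Function.iterate_zero_apply, mem_inter_iff, mem_preimage]
    rw [e, Function.iterate_succ]
    refine ⟨h.comp ih.1 (hm k) (hT.iterate k), ?_⟩
    calc _ ≤ μ ((E ∩ T ⁻¹' {x | ∀ j < k, T^[j] x ∈ E}ᶜ) ∪ Eᶜ) := measure_mono fun x hx => by
          by_cases hx' : x ∈ E
          · exact Or.inl ⟨hx', fun h2 => hx ⟨hx', h2⟩⟩
          · exact Or.inr hx'
      _ ≤ _ := measure_union_le _ _
      _ ≤ k * μ Eᶜ + μ Eᶜ := add_le_add ((h _ (hm k).compl).trans ih.2) le_rfl
      _ = _ := by push_cast; rw [add_mul, one_mul]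

end Crest.Agent.R103
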