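import Crest.Agent.R103.Geo
import Crest.Agent.R103.Bary
import Crest.Agent.R103.Sub

/-! Row 103: the Liouville measure. -/

set_option autoImplicit false
set_option linter.unusedVariables false

noncomputable section

open MeasureTheory Set Filter Topology
open scoped ComplexConjugate

namespace Crest.Agent.R103

instance : IsFiniteMeasure lamF := by unfold lamF; infer_instance

lemma meas_mp_not : MeasurePreserving (fun b : Bool => !b) Measure.count Measure.count := by
  refine ⟨measurable_from_top, ?_⟩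
  refine Measure.ext_of_singleton fun b => ?_
  rw [Measure.map_apply measurable_from_top (measurableSet_singleton b)]
  have : (fun c : Bool => !c) ⁻¹' {b} = {!b} := by
    ext c; cases b <;> cases c <;> simp
  rw [this, Measure.count_singleton, Measure.count_singleton]

lemma meas_mp_fr {e : Bool → Bool} (he : MeasurePreserving e Measure.count Measure.count)
    {f : Bool → Ang → Ang} (hf : ∀ b, MeasurePreserving (f b) volume volume) :
    MeasurePreserving (fun g : Fr => ((f g.2 g.1, e g.2) : Fr)) lamF lamF := by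
  have hm : Measurable (Function.uncurry f) :=
    measurable_from_prod_countable_right fun b => (hf b).measurable
  have h1 := he.skew_product (μc := (volume : Measure Ang)) (μd := (volume : Measure Ang)) hm
    (ae_of_all _ fun b => (hf b).map_eq)
  exact (Measure.measurePreserving_swap.comp h1).comp Measure.measurePreserving_swap

lemma meas_re_null : ∀ᵐ z : ℂ, z.re ≠ 0 := by
  have h := Measure.addHaar_submodule (volume : Measure ℂ) (LinearMap.ker Complex.reLm) (by
    intro h
    have : (1 : ℂ) ∈ LinearMap.ker Complex.reLm := by rw [h]; trivial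
    simp at this)
  rw [ae_iff]
  convert h using 2
  ext z
  simp

instance meas_nullSingleton : NullSingletonClass (volume : Measure Ang) where
  measure_singleton x := by
    rw [← Metric.closedBall_zero, AddCircle.volume_closedBall]
    simp [Real.pi_pos.le]

lemma lamF_ne_zero : lamF ≠ 0 := by
  intro h
  have h1 : lamF univ = 0 := by rw [h]; rfl
  rw [lamF, ← univ_prod_univ, Measure.prod_prod, mul_eq_zero] at h1
  rcases h1 with h1 | h1
  · exact (isOpen_univ.measure_ne_zero (volume : Measure Ang) univ_nonempty) h1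
  · exact (univ_nonempty.ne_empty (Measure.count_eq_zero_iff.1 h1))
/-- Translations on each of the two circles. -/
lemma mp_rotF (ψ : ℝ) : MeasurePreserving (rotF ψ) lamF lamF :=
  meas_mp_fr (MeasurePreserving.id _) (f := fun b θ => θ + ((if b then ψ else -ψ : ℝ) : Ang))
    fun _ => measurePreserving_add_right _ _
/-- `w ↦ x + act g w` is an isometry of `ℂ`. -/
lemma mp_add_act (x : ℂ) (g : Fr) :
    MeasurePreserving (fun w => x + act g w) (volume : Measure ℂ) volume := by
  refine (measurePreserving_add_left volume x).comp (f := act g) ?_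
  obtain ⟨θ, b⟩ := g
  cases b
  · exact (Complex.conjLIE.trans (rotation (AddCircle.toCircle θ))).measurePreserving
  · exact (rotation (AddCircle.toCircle θ)).measurePreserving

namespace Tri

variable (Δ : Tri)

instance : IsFiniteMeasure Δ.μ := by
  have : IsFiniteMeasure ((volume : Measure ℂ).restrict Δ.T) :=
    isFiniteMeasure_restrict.2 Δ.volume_T_lt_top.ne
  unfold μ; infer_instance
instance : IsFiniteMeasure Δ.μ2 := by unfold μ2; infer_instance

lemma μ_ne_zero : Δ.μ ≠ 0 := by
  intro h
  have h1 : Δ.μ univ = 0 := by rw [h]; rfl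
  rw [μ, ← univ_prod_univ, Measure.prod_prod, mul_eq_zero, Measure.restrict_apply_univ] at h1
  rcases h1 with h1 | h1
  · exact Δ.volume_T_pos.ne' h1
  · exact lamF_ne_zero (Measure.measure_univ_eq_zero.1 h1)
lemma mp_rf (j : Fin 3) : MeasurePreserving (Δ.rf j) lamF lamF :=
  meas_mp_fr meas_mp_not (f := fun _ θ => Δ.β j + Δ.β j + ((Real.pi : ℝ) : Ang) - θ)
    fun _ => Measure.measurePreserving_sub_left _ _
lemma mp_rot (ψ : ℝ) : MeasurePreserving (rot ψ) Δ.μ Δ.μ :=
  (MeasurePreserving.id ((volume : Measure ℂ).restrict Δ.T)).prod (mp_rotF ψ)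
lemma ae_mem_T : ∀ᵐ m ∂Δ.μ, m.1 ∈ Δ.T :=
  Measure.quasiMeasurePreserving_fst.ae (ae_restrict_mem Δ.isOpen_T.measurableSet)
/-- `nv j g = 0` for two values of the angle only (Haar measure has no atoms). -/
lemma ae_nv (j : Fin 3) : ∀ᵐ g ∂lamF, Δ.nv j g ≠ 0 := by
  have hinj : Function.Injective fun θ : Ang => cis (θ - Δ.β j) :=
    cis_injective.comp (sub_left_injective)
  have hfin : ((fun θ : Ang => cis (θ - Δ.β j)) ⁻¹' {Complex.I, -Complex.I}).Finite :=
    (Set.toFinite _).preimage hinj.injOn
  have h1 : ∀ᵐ θ : Ang, (cis θ * conj (Δ.ν j)).re ≠ 0 := by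
    rw [ae_iff]
    refine measure_mono_null ?_ (hfin.measure_zero volume)
    intro θ hθ
    have h2 : (cis (θ - Δ.β j)).re = 0 := by
      rw [cis_sub]; exact not_not.1 hθ
    have h3 := norm_cis (θ - Δ.β j)
    have h4 : (cis (θ - Δ.β j)).im ^ 2 = 1 := by
      have := Complex.sq_norm (cis (θ - Δ.β j))
      rw [h3, Complex.normSq_apply, h2] at this
      linarith
    rcases sq_eq_one_iff.1 h4 with h5 | h5
    · left; apply Complex.ext <;> simp [h2, h5]
    · right; apply Complex.ext <;> simp [h2, h5]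
  exact Measure.quasiMeasurePreserving_fst.ae h1
lemma ae_NT : ∀ᵐ m ∂Δ.μ, Δ.NT m :=
  Measure.quasiMeasurePreserving_snd.ae (ae_all_iff.2 Δ.ae_nv)
/-- Lines are null (Fubini: for a fixed frame the bad positions form a line). -/
lemma ae_ℓ_ne (w : ℂ) : ∀ᵐ m ∂Δ.μ, ∀ j, Δ.ℓ j (m.1 + act m.2 w) ≠ 0 := by
  refine ae_all_iff.2 fun j => ?_
  have hc : Continuous fun m : M => Δ.ℓ j (m.1 + act m.2 w) :=
    (Δ.continuous_ℓ j).comp (continuous_fst.add
      (continuous_act.comp (continuous_snd.prodMk continuous_const)))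
  have hS : MeasurableSet {m : M | Δ.ℓ j (m.1 + act m.2 w) ≠ 0} :=
    (isOpen_ne_fun hc continuous_const).measurableSet
  unfold μ
  rw [Measure.ae_prod_iff_ae_ae hS, Measure.ae_ae_comm (p := fun x g => Δ.ℓ j (x + act g w) ≠ 0) hS]
  refine ae_of_all _ fun g => ae_restrict_of_ae ?_
  have h1 := (mp_add_act ((act g w - Δ.A (j + 1)) * conj (Δ.ν j))
    (-Δ.β j, true)).quasiMeasurePreserving.ae meas_re_null
  filter_upwards [h1] with x hx
  have h2 : (x + act g w - Δ.A (j + 1)) * conj (Δ.ν j) =
      (act g w - Δ.A (j + 1)) * conj (Δ.ν j) + act (-Δ.β j, true) x := by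
    simp only [act, if_true, cis_neg, ν]; ring
  unfold ℓ
  rw [h2]
  exact hx
lemma μ_d_le : ∃ C : ℝ, 0 < C ∧ ∀ r : ℝ, 0 < r →
    Δ.μ {m | Δ.d m.1 ≤ r} ≤ ENNReal.ofReal (C * r ^ 2) := by
  obtain ⟨C, hC, h⟩ := Δ.volume_d_le
  refine ⟨C * ((lamF univ).toReal + 1), by positivity, fun r hr => ?_⟩
  have h1 : {m : M | Δ.d m.1 ≤ r} = {z | Δ.d z ≤ r} ×ˢ univ := by
    ext m; simp
  have hS : MeasurableSet {z | Δ.d z ≤ r} :=
    (isClosed_le Δ.continuous_d continuous_const).measurableSet
  have h2 : {z | Δ.d z ≤ r} ∩ Δ.T = {z | z ∈ Δ.T ∧ Δ.d z ≤ r} := by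
    ext z; simp [and_comm]
  have h3 : lamF univ ≤ ENNReal.ofReal ((lamF univ).toReal + 1) := by
    rw [ENNReal.ofReal_add ENNReal.toReal_nonneg zero_le_one,
      ENNReal.ofReal_toReal (measure_ne_top _ _)]
    exact le_self_add
  rw [h1, μ, Measure.prod_prod, Measure.restrict_apply hS, h2]
  calc volume {z | z ∈ Δ.T ∧ Δ.d z ≤ r} * lamF univ
      ≤ ENNReal.ofReal (C * r ^ 2) * ENNReal.ofReal ((lamF univ).toReal + 1) :=
        mul_le_mul' (h r hr) h3
    _ = _ := by rw [← ENNReal.ofReal_mul (by positivity)]; congr 1; ring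

end Tri

end Crest.Agent.R103
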