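import Crest.Agent.R103.AbsDefs

/-! Row 103: Fourier modes of a circle representation. -/

set_option autoImplicit false
set_option linter.unusedVariables false
set_option linter.unusedSectionVars false

noncomputable section

open MeasureTheory Set Filter Topology
open scoped ComplexConjugate InnerProductSpace

namespace Crest.Agent.R103

variable {H : Type*} [NormedAddCommGroup H] [InnerProductSpace ℂ H] [CompleteSpace H]

/-- Uniqueness of Fourier coefficients (lift to `AddCircle (2π)`, `fourierCoeff_eq_intervalIntegral`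
and e.g. `tsum_sq_fourierCoeff` / `hasSum_fourier_series_of_summable`). -/
lemma fourier_unique {f : ℝ → ℂ} (hf : Continuous f) (hp : Function.Periodic f (2 * Real.pi))
    (h : ∀ n : ℤ, ∫ ψ in (0 : ℝ)..2 * Real.pi, Complex.exp (-(n * ψ * Complex.I)) * f ψ = 0) :
    f 0 = 0 := by
  have : Fact (0 < 2 * Real.pi) := ⟨Real.two_pi_pos⟩
  let F : C(AddCircle (2 * Real.pi), ℂ) := ⟨hp.lift, hf.quotient_liftOn' _⟩
  have hF : ∀ x : ℝ, F (x : AddCircle (2 * Real.pi)) = f x := fun x => hp.lift_coe x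
  have hc : ∀ n, fourierCoeff F n = 0 := by
    intro n
    rw [fourierCoeff_eq_intervalIntegral _ n 0, zero_add]
    have h2 : ∀ x : ℝ, @fourier (2 * Real.pi) (-n) x • F (x : AddCircle (2 * Real.pi)) =
        Complex.exp (-(n * x * Complex.I)) * f x := by
      intro x
      rw [hF, fourier_coe_apply, smul_eq_mul]
      congr 2
      have : (Real.pi : ℂ) ≠ 0 := by exact_mod_cast Real.pi_pos.ne'
      push_cast
      field_simp
    simp_rw [h2]
    rw [h n, smul_zero]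
  have hs := has_pointwise_sum_fourier_series_of_summable (f := F)
    (by rw [show fourierCoeff F = fun _ => 0 from funext hc]; exact summable_zero)
    ((0 : ℝ) : AddCircle (2 * Real.pi))
  simp only [hc, zero_smul] at hs
  rw [← hF 0]
  exact hs.unique hasSum_zero

lemma modes_exp_periodic (n : ℤ) :
    Function.Periodic (fun ψ : ℝ => Complex.exp (-(n * ψ * Complex.I))) (2 * Real.pi) := by
  intro ψ
  have h := Complex.exp_int_mul_two_pi_mul_I (-n)
  have e : -((n : ℂ) * ((ψ + 2 * Real.pi : ℝ) : ℂ) * Complex.I) =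
      -(n * ψ * Complex.I) + ((-n : ℤ) : ℂ) * (2 * Real.pi * Complex.I) := by
    push_cast; ring
  simp only
  rw [e, Complex.exp_add, h, mul_one]

lemma modes_norm_exp (n : ℤ) (ψ : ℝ) : ‖Complex.exp (-(n * ψ * Complex.I))‖ = 1 := by
  have e : -((n : ℂ) * (ψ : ℂ) * Complex.I) = ((-(n * ψ) : ℝ) : ℂ) * Complex.I := by
    push_cast; ring
  rw [e, Complex.norm_exp_ofReal_mul_I]

lemma modes_cont_exp (n : ℤ) : Continuous fun ψ : ℝ => Complex.exp (-(n * ψ * Complex.I)) := by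
  fun_prop

namespace CircRep

variable (ρ : CircRep H)

lemma norm_R (ψ : ℝ) (p : H) : ‖ρ.R ψ p‖ = ‖p‖ := by
  have h : ⟪ρ.R ψ p, ρ.R ψ p⟫_ℂ = ⟪p, p⟫_ℂ := by
    rw [ρ.R_adj, ← ρ.R_add, neg_add_cancel, ρ.R_zero]
  rw [@norm_eq_sqrt_re_inner ℂ, h, ← @norm_eq_sqrt_re_inner ℂ]
lemma periodic_R (p : H) : Function.Periodic (fun ψ => ρ.R ψ p) (2 * Real.pi) := by
  intro ψ
  simp only
  rw [ρ.R_add, ρ.R_two_pi]
lemma modes_cont (n : ℤ) (p : H) :
    Continuous fun ψ : ℝ => Complex.exp (-(n * ψ * Complex.I)) • ρ.R ψ p :=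
  (modes_cont_exp n).smul (ρ.R_cont p)
lemma modes_periodic (n : ℤ) (p : H) :
    Function.Periodic (fun ψ : ℝ => Complex.exp (-(n * ψ * Complex.I)) • ρ.R ψ p)
      (2 * Real.pi) := by
  intro ψ
  have h1 := modes_exp_periodic n ψ
  have h2 := ρ.periodic_R p ψ
  simp only at h1 h2 ⊢
  rw [h1, h2]
lemma inner_P (n : ℤ) (q p : H) : ⟪q, ρ.P n p⟫_ℂ = ((2 * Real.pi : ℝ) : ℂ)⁻¹ *
    ∫ ψ in (0 : ℝ)..2 * Real.pi, Complex.exp (-(n * ψ * Complex.I)) * ⟪q, ρ.R ψ p⟫_ℂ := by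
  rw [CircRep.P, inner_smul_right]
  congr 1
  have h := (innerSL ℂ q).intervalIntegral_comp_comm
    ((ρ.modes_cont n p).intervalIntegrable (μ := volume) 0 (2 * Real.pi))
  simp only [innerSL_apply_apply, inner_smul_right] at h
  exact h.symm
lemma P_add (n : ℤ) (p q : H) : ρ.P n (p + q) = ρ.P n p + ρ.P n q := by
  simp only [CircRep.P, map_add, smul_add]
  rw [intervalIntegral.integral_add ((ρ.modes_cont n p).intervalIntegrable _ _)
    ((ρ.modes_cont n q).intervalIntegrable _ _), smul_add]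
lemma P_smul (n : ℤ) (c : ℂ) (p : H) : ρ.P n (c • p) = c • ρ.P n p := by
  simp only [CircRep.P, map_smul]
  simp_rw [smul_comm _ c]
  rw [intervalIntegral.integral_smul, smul_comm]
lemma P_sub (n : ℤ) (p q : H) : ρ.P n (p - q) = ρ.P n p - ρ.P n q := by
  rw [sub_eq_add_neg, ← neg_one_smul ℂ q, ρ.P_add, ρ.P_smul, neg_one_smul, ← sub_eq_add_neg]
lemma norm_P_le (n : ℤ) (p : H) : ‖ρ.P n p‖ ≤ ‖p‖ := by
  rw [CircRep.P, norm_smul, norm_inv, Complex.norm_real, Real.norm_of_nonneg Real.two_pi_pos.le]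
  have h : ‖∫ ψ in (0 : ℝ)..2 * Real.pi, Complex.exp (-(n * ψ * Complex.I)) • ρ.R ψ p‖ ≤
      ‖p‖ * |2 * Real.pi - 0| := by
    refine intervalIntegral.norm_integral_le_of_norm_le_const fun x _ => ?_
    rw [norm_smul, modes_norm_exp, one_mul, ρ.norm_R]
  rw [sub_zero, abs_of_pos Real.two_pi_pos] at h
  rw [inv_mul_le_iff₀ Real.two_pi_pos, mul_comm _ ‖p‖]
  exact h
/-- Translate the periodic integrand. -/
lemma R_P (ψ : ℝ) (n : ℤ) (p : H) :
    ρ.R ψ (ρ.P n p) = Complex.exp (n * ψ * Complex.I) • ρ.P n p := by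
  rw [CircRep.P, map_smul, smul_comm]
  congr 1
  rw [← (ρ.R ψ).intervalIntegral_comp_comm ((ρ.modes_cont n p).intervalIntegrable _ _)]
  have h1 : ∀ φ : ℝ, ρ.R ψ (Complex.exp (-(n * φ * Complex.I)) • ρ.R φ p) =
      Complex.exp (n * ψ * Complex.I) •
        (fun φ : ℝ => Complex.exp (-(n * φ * Complex.I)) • ρ.R φ p) (φ + ψ) := by
    intro φ
    simp only
    rw [map_smul, ← ρ.R_add, smul_smul, ← Complex.exp_add, add_comm ψ φ]
    congr 2
    push_cast; ring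
  simp_rw [h1]
  rw [intervalIntegral.integral_smul, intervalIntegral.integral_comp_add_right
    (fun φ : ℝ => Complex.exp (-(n * φ * Complex.I)) • ρ.R φ p)]
  congr 1
  have h2 := (ρ.modes_periodic n p).intervalIntegral_add_eq ψ 0
  rw [zero_add] at h2
  rw [zero_add, add_comm, h2]
lemma P_P (m n : ℤ) (p : H) : ρ.P m (ρ.P n p) = if m = n then ρ.P n p else 0 := by
  conv_lhs => rw [CircRep.P]
  have h1 : ∀ ψ : ℝ, Complex.exp (-(m * ψ * Complex.I)) • ρ.R ψ (ρ.P n p) =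
      Complex.exp ((((n - m : ℤ) : ℂ) * Complex.I) * ψ) • ρ.P n p := by
    intro ψ
    rw [ρ.R_P, smul_smul, ← Complex.exp_add]
    congr 2
    push_cast; ring
  simp_rw [h1]
  rw [intervalIntegral.integral_smul_const, smul_smul]
  split_ifs with h
  · subst h
    have hpi : (Real.pi : ℂ) ≠ 0 := by exact_mod_cast Real.pi_pos.ne'
    simp only [sub_self, Int.cast_zero, zero_mul, Complex.exp_zero, intervalIntegral.integral_const,
      sub_zero, Complex.real_smul, mul_one]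
    rw [inv_mul_cancel₀, one_smul]
    exact_mod_cast Real.two_pi_pos.ne'
  · have hc : (((n - m : ℤ) : ℂ) * Complex.I) ≠ 0 := by
      refine mul_ne_zero ?_ Complex.I_ne_zero
      exact_mod_cast sub_ne_zero.mpr (Ne.symm h)
    rw [integral_exp_mul_complex hc]
    have e : ((n - m : ℤ) : ℂ) * Complex.I * ((2 * Real.pi : ℝ) : ℂ) =
        ((n - m : ℤ) : ℂ) * (2 * Real.pi * Complex.I) := by
      push_cast; ring
    rw [e, Complex.exp_int_mul_two_pi_mul_I]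
    simp
/-- `R_adj`, the substitution `ψ ↦ -ψ` and periodicity. -/
lemma P_adj (n : ℤ) (p q : H) : ⟪ρ.P n p, q⟫_ℂ = ⟪p, ρ.P n q⟫_ℂ := by
  rw [← inner_conj_symm, ρ.inner_P, ρ.inner_P, map_mul, map_inv₀, Complex.conj_ofReal]
  congr 1
  rw [← intervalIntegral.intervalIntegral_conj]
  have h1 : ∀ ψ : ℝ, conj (Complex.exp (-(n * ψ * Complex.I)) * ⟪q, ρ.R ψ p⟫_ℂ) =
      (fun φ : ℝ => Complex.exp (-(n * φ * Complex.I)) * ⟪p, ρ.R φ q⟫_ℂ) (-ψ) := by
    intro ψ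
    simp only
    rw [map_mul, inner_conj_symm, ρ.R_adj, ← Complex.exp_conj]
    congr 2
    simp
  simp_rw [h1]
  rw [intervalIntegral.integral_comp_neg
    (fun φ : ℝ => Complex.exp (-(n * φ * Complex.I)) * ⟪p, ρ.R φ q⟫_ℂ)]
  have hper : Function.Periodic
      (fun φ : ℝ => Complex.exp (-(n * φ * Complex.I)) * ⟪p, ρ.R φ q⟫_ℂ) (2 * Real.pi) := by
    intro ψ
    have h1 := modes_exp_periodic n ψ
    have h2 := ρ.periodic_R q ψ
    simp only at h1 h2 ⊢
    rw [h1, h2]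
  have h2 := hper.intervalIntegral_add_eq (-(2 * Real.pi)) 0
  rw [zero_add, neg_add_cancel] at h2
  rw [neg_zero, h2]
lemma inner_P_P (n : ℤ) (p q : H) : ⟪ρ.P n p, ρ.P n q⟫_ℂ = ⟪p, ρ.P n q⟫_ℂ := by
  rw [ρ.P_adj, ρ.P_P, if_pos rfl]
lemma modes_inner_self (n : ℤ) (p : H) : ⟪p, ρ.P n p⟫_ℂ = ((‖ρ.P n p‖ ^ 2 : ℝ) : ℂ) := by
  rw [← ρ.inner_P_P, inner_self_eq_norm_sq_to_K]
  simp
lemma modes_inner_sum (s : Finset ℤ) (p : H) :
    ⟪∑ n ∈ s, ρ.P n p, ∑ n ∈ s, ρ.P n p⟫_ℂ = ⟪p, ∑ n ∈ s, ρ.P n p⟫_ℂ := by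
  rw [inner_sum, inner_sum]
  refine Finset.sum_congr rfl fun n hn => ?_
  rw [sum_inner, Finset.sum_eq_single n]
  · exact ρ.inner_P_P n p p
  · intro m _ hm
    rw [ρ.P_adj, ρ.P_P, if_neg hm, inner_zero_right]
  · intro h; exact absurd hn h
lemma modes_re_inner_sum (s : Finset ℤ) (p : H) :
    (⟪p, ∑ n ∈ s, ρ.P n p⟫_ℂ).re = ∑ n ∈ s, ‖ρ.P n p‖ ^ 2 := by
  rw [inner_sum, Complex.re_sum]
  refine Finset.sum_congr rfl fun n _ => ?_
  rw [ρ.modes_inner_self, Complex.ofReal_re]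
lemma modes_norm_sum (s : Finset ℤ) (p : H) :
    ‖∑ n ∈ s, ρ.P n p‖ ^ 2 = ∑ n ∈ s, ‖ρ.P n p‖ ^ 2 := by
  rw [← ρ.modes_re_inner_sum, ← ρ.modes_inner_sum, @norm_sq_eq_re_inner ℂ]
  rfl
/-- Bessel. -/
lemma sum_norm_P_le (s : Finset ℤ) (p : H) : ∑ n ∈ s, ‖ρ.P n p‖ ^ 2 ≤ ‖p‖ ^ 2 := by
  have h1 := ρ.modes_norm_sum s p
  have h2 := ρ.modes_re_inner_sum s p
  have h3 : (⟪p, ∑ n ∈ s, ρ.P n p⟫_ℂ).re ≤ ‖p‖ * ‖∑ n ∈ s, ρ.P n p‖ :=
    (Complex.re_le_norm _).trans (norm_inner_le_norm _ _)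
  nlinarith [sq_nonneg (‖p‖ - ‖∑ n ∈ s, ρ.P n p‖)]
lemma eq_zero_of_P {p : H} (h : ∀ n, ρ.P n p = 0) : p = 0 := by
  have hc : Continuous fun ψ : ℝ => ⟪p, ρ.R ψ p⟫_ℂ := continuous_const.inner (ρ.R_cont p)
  have hp : Function.Periodic (fun ψ : ℝ => ⟪p, ρ.R ψ p⟫_ℂ) (2 * Real.pi) := by
    intro ψ
    have h2 := ρ.periodic_R p ψ
    simp only at h2 ⊢
    rw [h2]
  have h0 := fourier_unique hc hp fun n => by
    have h1 := ρ.inner_P n p p
    rw [h n, inner_zero_right] at h1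
    refine (mul_eq_zero.mp h1.symm).resolve_left (inv_ne_zero ?_)
    exact_mod_cast Real.two_pi_pos.ne'
  simp only [ρ.R_zero] at h0
  exact inner_self_eq_zero.mp h0
/-- The projection on the mode `n` as a continuous linear map. -/
def modesPL (n : ℤ) : H →L[ℂ] H :=
  LinearMap.mkContinuous
    { toFun := ρ.P n
      map_add' := ρ.P_add n
      map_smul' := ρ.P_smul n } 1 fun p => by simpa using ρ.norm_P_le n p
lemma modesPL_apply (n : ℤ) (p : H) : ρ.modesPL n p = ρ.P n p := rfl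
lemma modes_summable (p : H) : Summable fun n : ℤ => ρ.P n p := by
  have h1 : Summable fun n : ℤ => ‖ρ.P n p‖ ^ 2 :=
    summable_of_sum_le (fun n => sq_nonneg _) fun s => ρ.sum_norm_P_le s p
  rw [summable_iff_vanishing_norm] at h1 ⊢
  intro ε hε
  obtain ⟨s, hs⟩ := h1 (ε ^ 2) (by positivity)
  refine ⟨s, fun t ht => ?_⟩
  have h2 := hs t ht
  rw [← ρ.modes_norm_sum, Real.norm_of_nonneg (sq_nonneg _)] at h2
  exact lt_of_pow_lt_pow_left₀ 2 hε.le h2
/-- The Fourier expansion of a vector. -/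
lemma modes_hasSum (p : H) : HasSum (fun n : ℤ => ρ.P n p) p := by
  have h1 := (ρ.modes_summable p).hasSum
  have h2 : p - ∑' n : ℤ, ρ.P n p = 0 := by
    refine ρ.eq_zero_of_P fun m => ?_
    have h3 := (ρ.modesPL m).hasSum h1
    simp only [modesPL_apply] at h3
    have h4 : HasSum (fun n : ℤ => ρ.P m (ρ.P n p)) (ρ.P m (ρ.P m p)) := by
      refine hasSum_single m fun n hn => ?_
      rw [ρ.P_P, if_neg (Ne.symm hn)]
    rw [ρ.P_sub, h3.unique h4, ρ.P_P, if_pos rfl, sub_self]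
  rw [sub_eq_zero] at h2
  rwa [← h2] at h1
/-- Parseval: the orthogonal series `∑ P n p` converges (Cauchy by Bessel), and `p - ∑ P n p`
has no modes. -/
lemma hasSum_norm_P (p : H) : HasSum (fun n : ℤ => ‖ρ.P n p‖ ^ 2) (‖p‖ ^ 2) := by
  have h1 := (innerSL ℂ p).hasSum (ρ.modes_hasSum p)
  have h2 := Complex.reCLM.hasSum h1
  simp only [innerSL_apply_apply, Complex.reCLM_apply, ρ.modes_inner_self, Complex.ofReal_re] at h2
  rw [@norm_sq_eq_re_inner ℂ _ _ _ _ p]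
  exact h2

end CircRep

end Crest.Agent.R103
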