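import Crest.Agent.R103.YInv
import Crest.Agent.R103.LocConst

/-! Row 103: the normal form of an invariant function inside the triangle. -/

set_option autoImplicit false
set_option linter.unusedVariables false

noncomputable section

open MeasureTheory Set Filter Topology
open scoped ComplexConjugate

namespace Crest.Agent.R103

namespace Tri

variable (Δ : Tri)

/-- The height of the position above `v` in the direction of the velocity. -/
def ht (v : ℂ) (m : M) : ℝ := ((m.1 - v) * conj (cis m.2.1)).re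

lemma continuous_ht (v : ℂ) : Continuous (ht v) :=
  Complex.continuous_re.comp ((continuous_fst.sub continuous_const).mul
    (Complex.continuous_conj.comp (continuous_cis.comp (continuous_fst.comp continuous_snd))))
lemma ht_add_act (v x : ℂ) (g : Fr) (w : ℂ) : ht v (x + act g w, g) = ht v (x, g) + w.re := by
  simp only [ht]
  rw [← act_mul_conj_re g w, ← Complex.add_re, ← add_mul, add_sub_right_comm]

/-- `winv` pulled back by the skew product `mp_skew`, then Fubini (`Measure.ae_ae_comm`; the set is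
jointly measurable by `measurable_τ`, `measurable_φ`). -/
lemma winv_ae {F : M × M → ℝ} (hF : Measurable F) (hb : ∀ n, |F n| ≤ 1) (h : Δ.Inv F) (v : ℂ) :
    ∀ᵐ n ∂Δ.μ2, ∀ᵐ w ∂(volume : Measure ℂ), 200 * ‖w‖ < Δ.d n.1.1 →
      F (Δ.τ w n.1, Δ.φ (ht v n.1 + w.re) n.2) = F (n.1, Δ.φ (ht v n.1) n.2) := by
  have m1 : Measurable fun z : (M × M) × ℂ => ht v z.1.1 := (continuous_ht v).measurable.comp (by fun_prop)
  have m2 : MeasurableSet {z : (M × M) × ℂ | 200 * ‖z.2‖ < Δ.d z.1.1.1 →
      F (Δ.τ z.2 z.1.1, Δ.φ (ht v z.1.1 + z.2.re) z.1.2) = F (z.1.1, Δ.φ (ht v z.1.1) z.1.2)} := by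
    refine MeasurableSet.imp (measurableSet_lt (by fun_prop) (Δ.continuous_d.measurable.comp (by fun_prop)))
      (measurableSet_eq_fun (hF.comp (Measurable.prodMk ?_ ?_)) (hF.comp (Measurable.prodMk (by fun_prop) ?_)))
    · exact Δ.measurable_τ.comp (f := fun z : (M × M) × ℂ => (z.2, z.1.1)) (by fun_prop)
    · exact Δ.measurable_φ.comp (f := fun z : (M × M) × ℂ => (ht v z.1.1 + z.2.re, z.1.2))
        ((m1.add (by fun_prop)).prodMk (by fun_prop))
    · exact Δ.measurable_φ.comp (f := fun z : (M × M) × ℂ => (ht v z.1.1, z.1.2)) (m1.prodMk (by fun_prop))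
  refine (Measure.ae_ae_comm m2).2 (ae_of_all _ fun w => ?_)
  filter_upwards [(Δ.mp_skew Δ.μ (continuous_ht v).measurable).quasiMeasurePreserving.ae (Δ.winv hF hb h w)]
    with n hn
  rwa [add_comm, Δ.φ_add]

/-- `H (x, (g, m')) = F ((x, g), φ (ht v (x, g)) m')` is, for a.e. `(g, m')`, a.e. locally constant
in `x ∈ T` with `r x = min (d x / 200) (min_j ℓ j x)` (`winv_ae`, `τ_of_mem_T`, `ht_add_act`,
`mp_add_act`); `ae_const_of_loc` (`convex_T`), `exists_const_param`, and
`MeasurableEquiv.prodAssoc` (`measurePreserving_prodAssoc`). -/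
theorem normal_form {F : M × M → ℝ} (hF : Measurable F) (hb : ∀ n, |F n| ≤ 1) (h : Δ.Inv F)
    (v : ℂ) : ∃ C : Fr × M → ℝ, Measurable C ∧
      ∀ᵐ n ∂Δ.μ2, F (n.1, Δ.φ (ht v n.1) n.2) = C (n.1.2, n.2) := by
  have : IsFiniteMeasure ((volume : Measure ℂ).restrict Δ.T) :=
    isFiniteMeasure_restrict.2 Δ.volume_T_lt_top.ne
  set H : ℂ × (Fr × M) → ℝ := fun z => F ((z.1, z.2.1), Δ.φ (ht v (z.1, z.2.1)) z.2.2) with hH
  have mH : Measurable H := hF.comp (Measurable.prodMk (by fun_prop)
    (Δ.measurable_φ.comp (f := fun z : ℂ × (Fr × M) => (ht v (z.1, z.2.1), z.2.2))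
      (((continuous_ht v).measurable.comp (by fun_prop)).prodMk (by fun_prop))))
  have mp : MeasurePreserving MeasurableEquiv.prodAssoc Δ.μ2
      (((volume : Measure ℂ).restrict Δ.T).prod (lamF.prod Δ.μ)) := measurePreserving_prodAssoc _ _ _
  have h1 := Measure.ae_ae_of_ae_prod (Measure.measurePreserving_swap.quasiMeasurePreserving.ae
    ((mp.symm _).quasiMeasurePreserving.ae (Δ.winv_ae hF hb h v)))
  obtain ⟨C, hC, h2⟩ := exists_const_param (μ := (volume : Measure ℂ).restrict Δ.T) (ν := lamF.prod Δ.μ) mH (by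
    filter_upwards [h1] with y hy
    refine ae_const_of_loc Δ.isOpen_T Δ.convex_T.isPreconnected
      (r := fun x => min (Δ.d x / 200) (min (Δ.ℓ 0 x) (min (Δ.ℓ 1 x) (Δ.ℓ 2 x))))
      ((Δ.continuous_d.div_const _).min ((Δ.continuous_ℓ 0).min
        ((Δ.continuous_ℓ 1).min (Δ.continuous_ℓ 2)))).continuousOn
      (fun x hx => lt_min (div_pos (Δ.d_pos_of_T hx) (by norm_num)) (lt_min (hx 0) (lt_min (hx 1) (hx 2)))) ?_
    filter_upwards [hy] with x hx
    rw [← (mp_add_act x y.1).map_eq]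
    refine (ae_map_iff (mp_add_act x y.1).measurable.aemeasurable (MeasurableSet.imp
      (measurableSet_lt (by fun_prop) measurable_const)
      (measurableSet_eq_fun (mH.comp measurable_prodMk_right) measurable_const))).2 ?_
    filter_upwards [hx] with w hw hr
    rw [add_sub_cancel_left, norm_act, lt_min_iff, lt_min_iff, lt_min_iff] at hr
    have hT : x + act y.1 w ∈ Δ.T := fun j => by
      have h3 := (abs_le.1 (Δ.ℓ_lip j (x + act y.1 w) x)).1
      rw [add_sub_cancel_left, norm_act] at h3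
      have h4 : ‖w‖ < Δ.ℓ j x := by
        fin_cases j
        exacts [hr.2.1, hr.2.2.1, hr.2.2.2]
      linarith
    have h5 : F (Δ.τ w (x, y.1), Δ.φ (ht v (x, y.1) + w.re) y.2) = H (x, y) :=
      hw (show 200 * ‖w‖ < Δ.d x by linarith [hr.1])
    rwa [Δ.τ_of_mem_T (m := (x, y.1)) hT, ← ht_add_act] at h5)
  exact ⟨C, hC, mp.quasiMeasurePreserving.ae h2⟩

end Tri

end Crest.Agent.R103
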