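import Crest.Agent.R103.Koop
import Crest.Agent.R103.Flow
import Crest.Agent.R103.AbsDefs

/-! Row 103: the operators on `L²(M × M)`.  Definitions. -/

set_option autoImplicit false
set_option linter.unusedVariables false

noncomputable section

open MeasureTheory Set Filter Topology
open scoped ComplexConjugate InnerProductSpace

namespace Crest.Agent.R103

namespace Tri

variable (Δ : Tri)

abbrev HH : Type := Lp ℂ 2 Δ.μ2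

def opK (w : ℂ) : Δ.HH →L[ℂ] Δ.HH :=
  koop Δ.μ2 (Prod.fst ⁻¹' {m | 16 * ‖w‖ < Δ.d m.1}) (Prod.map (Δ.τ w) id)
def opR (ψ : ℝ) : Δ.HH →L[ℂ] Δ.HH := koop Δ.μ2 univ (Prod.map (rot ψ) id)
def opS (s : ℝ) : Δ.HH →L[ℂ] Δ.HH := koop Δ.μ2 univ (Prod.map id (Δ.φ s))
def subV (σ : ℝ) : Submodule ℂ Δ.HH where
  carrier := {p | ∀ᵐ n ∂Δ.μ2, Δ.d n.1.1 < σ → p n = 0}
  add_mem' := fun {p q} hp hq => by
    filter_upwards [hp, hq, Lp.coeFn_add p q] with n h1 h2 h3 h4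
    rw [h3, Pi.add_apply, h1 h4, h2 h4, add_zero]
  zero_mem' := by
    filter_upwards [Lp.coeFn_zero ℂ 2 Δ.μ2] with n h1 _
    rw [h1, Pi.zero_apply]
  smul_mem' := fun c p hp => by
    filter_upwards [hp, Lp.coeFn_smul c p] with n h1 h3 h4
    rw [h3, Pi.smul_apply, h1 h4, smul_zero]

lemma mem_subV {σ : ℝ} {p : Δ.HH} :
    p ∈ Δ.subV σ ↔ ∀ᵐ n ∂Δ.μ2, Δ.d n.1.1 < σ → p n = 0 := Iff.rfl

lemma subV_anti {σ σ' : ℝ} (h : σ ≤ σ') {p : Δ.HH} (hp : p ∈ Δ.subV σ') : p ∈ Δ.subV σ := by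
  rw [mem_subV] at hp ⊢
  filter_upwards [hp] with n h1 h2
  exact h1 (h2.trans_le h)

lemma measurableSet_safe (r : ℝ) : MeasurableSet {m : M | r < Δ.d m.1} :=
  (isOpen_lt continuous_const (Δ.continuous_d.comp continuous_fst)).measurableSet

lemma subMP_τ2 (w : ℂ) :
    SubMP Δ.μ2 (Prod.fst ⁻¹' {m | 16 * ‖w‖ < Δ.d m.1}) (Prod.map (Δ.τ w) id) :=
  (Δ.subMP_τ w).prod (Δ.measurableSet_safe _) (Δ.measurable_τ' w) Δ.μ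

lemma mp_rot2 (ψ : ℝ) : MeasurePreserving (Prod.map (rot ψ) id) Δ.μ2 Δ.μ2 :=
  (Δ.mp_rot ψ).prod (MeasurePreserving.id _)

lemma mp_S (s : ℝ) : MeasurePreserving (Prod.map id (Δ.φ s)) Δ.μ2 Δ.μ2 :=
  (MeasurePreserving.id _).prod (Δ.mp_φ s)

lemma ae_fst {P : M → Prop} (h : ∀ᵐ m ∂Δ.μ, P m) : ∀ᵐ n ∂Δ.μ2, P n.1 :=
  Measure.quasiMeasurePreserving_fst.ae h

lemma ae_snd {P : M → Prop} (h : ∀ᵐ m ∂Δ.μ, P m) : ∀ᵐ n ∂Δ.μ2, P n.2 :=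
  Measure.quasiMeasurePreserving_snd.ae h

lemma opK_ae (w : ℂ) (p : Δ.HH) : ∀ᵐ n ∂Δ.μ2,
    Δ.opK w p n = if 16 * ‖w‖ < Δ.d n.1.1 then p (Δ.τ w n.1, n.2) else 0 := by
  filter_upwards [koop_ae (Δ.subMP_τ2 w) (measurable_fst (Δ.measurableSet_safe _))
    ((Δ.measurable_τ' w).prodMap measurable_id) p] with n hn
  rw [opK, hn]
  split_ifs with h
  · exact indicator_of_mem (s := Prod.fst ⁻¹' {m : M | 16 * ‖w‖ < Δ.d m.1}) h _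
  · exact indicator_of_notMem (s := Prod.fst ⁻¹' {m : M | 16 * ‖w‖ < Δ.d m.1}) h _

lemma opR_ae (ψ : ℝ) (p : Δ.HH) : ∀ᵐ n ∂Δ.μ2, Δ.opR ψ p n = p (rot ψ n.1, n.2) :=
  koop_univ_ae (Δ.mp_rot2 ψ) p

lemma opS_ae (s : ℝ) (p : Δ.HH) : ∀ᵐ n ∂Δ.μ2, Δ.opS s p n = p (n.1, Δ.φ s n.2) :=
  koop_univ_ae (Δ.mp_S s) p

/-- Pull back an almost sure property along a local translation. -/
lemma ae_τ2 (w : ℂ) {P : M × M → Prop} (h : ∀ᵐ n ∂Δ.μ2, P n) :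
    ∀ᵐ n ∂Δ.μ2, 16 * ‖w‖ < Δ.d n.1.1 → P (Δ.τ w n.1, n.2) :=
  (Δ.subMP_τ2 w).ae h

end Tri

end Crest.Agent.R103
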