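import Crest.Agent.R103.Normal

/-! Row 103: the reflection relation. -/

set_option autoImplicit false
set_option linter.unusedVariables false

noncomputable section

open MeasureTheory Set Filter Topology
open scoped ComplexConjugate

namespace Crest.Agent.R103

namespace Tri

variable (Δ : Tri)

/-- Put `θ g = 2 ℓ j v · nv j g`.  For fixed `w`, pull the normal form back along
`n ↦ (τ w n.1, φ (-θ n.1.2) n.2)` (`ae_τ2`, `mp_skew`): for a.e. `n = ((x, g), m')` with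
`200 ‖w‖ < d x` and `ℓ j (x + act g w) < 0` one has `τ w n.1 = refl j (x + act g w, g)`
(`τ_of_neg`), `ht v (τ w n.1) = ht v n.1 + re w + θ g` (`height_refl`, `ht_add_act`), so
`F (τ w n.1, φ (ht v n.1 + re w) m') = C (rf j g, φ (-θ g) m')` (`φ_add`).  With `winv_ae` and
Fubini: for a.e. `(g, m')`, for a.e. `(x, w)`, crossing implies the claim; the crossing set is open
and non-empty for every `g` (`exists_cross`, `act_bijective`), so it has positive measure. -/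
theorem refl_rel {F : M × M → ℝ} (hF : Measurable F) (hb : ∀ n, |F n| ≤ 1) (h : Δ.Inv F) (v : ℂ)
    {C : Fr × M → ℝ} (hC : Measurable C)
    (hFC : ∀ᵐ n ∂Δ.μ2, F (n.1, Δ.φ (ht v n.1) n.2) = C (n.1.2, n.2)) (j : Fin 3) :
    ∀ᵐ y ∂lamF.prod Δ.μ, C (Δ.rf j y.1, Δ.φ (-(2 * Δ.ℓ j v * Δ.nv j y.1)) y.2) = C y := by
  have hθ : Measurable fun m : M => -(2 * Δ.ℓ j v * Δ.nv j m.2) :=
    (((Δ.continuous_nv j).comp continuous_snd).measurable.const_mul _).neg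
  have hht : Measurable (ht v) := (continuous_ht v).measurable
  have hT : ∀ᵐ n ∂Δ.μ2, n.1.1 ∈ Δ.T :=
    (Measure.quasiMeasurePreserving_fst (μ := Δ.μ) (ν := Δ.μ)).ae Δ.ae_mem_T
  have h1 : ∀ w : ℂ, ∀ᵐ n ∂Δ.μ2, 200 * ‖w‖ < Δ.d n.1.1 → Δ.ℓ j (n.1.1 + act n.1.2 w) < 0 →
      C (Δ.rf j n.1.2, Δ.φ (-(2 * Δ.ℓ j v * Δ.nv j n.1.2)) n.2) = C (n.1.2, n.2) := by
    intro w
    have a1 := (Δ.mp_skew Δ.μ hθ).quasiMeasurePreserving.ae (Δ.ae_τ2 w hFC)
    have a2 := (Δ.mp_skew Δ.μ hht).quasiMeasurePreserving.ae (Δ.winv hF hb h w)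
    filter_upwards [a1, a2, hFC, hT] with n b1 b2 b3 b4 hd hl
    have hw := norm_nonneg w
    have c1 := b1 (by show 16 * ‖w‖ < Δ.d n.1.1; linarith)
    have c2 := b2 hd
    have hτ : Δ.τ w n.1 = Δ.refl j (n.1.1 + act n.1.2 w, n.1.2) :=
      Δ.τ_of_neg (fun i => (b4 i).le) (by linarith) hl
    have hh : ht v (Δ.τ w n.1) = ht v n.1 + w.re + 2 * Δ.ℓ j v * Δ.nv j n.1.2 := by
      rw [hτ, ← ht_add_act v n.1.1 n.1.2 w]
      exact Δ.height_refl j v _ _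
    have h2 : (Δ.τ w n.1).2 = Δ.rf j n.1.2 := by rw [hτ]; rfl
    rw [← Δ.φ_add, hh, h2, add_neg_cancel_right] at c1
    rw [← Δ.φ_add, add_comm] at c2
    rw [← c1, c2, b3]
  obtain ⟨D, hDc, hDd⟩ := TopologicalSpace.exists_countable_dense ℂ
  set U : Set ℂ := {x | ∃ u : ℂ, 200 * ‖u‖ < Δ.d x ∧ Δ.ℓ j (x + u) < 0} with hU
  have hd := Δ.continuous_d
  have hl := Δ.continuous_ℓ j
  have hUo : IsOpen U := by
    have : U = ⋃ u : ℂ, {x | 200 * ‖u‖ < Δ.d x} ∩ {x | Δ.ℓ j (x + u) < 0} := by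
      ext x; simp [hU]
    rw [this]
    exact isOpen_iUnion fun u => (isOpen_lt (by fun_prop) (by fun_prop)).inter
      (isOpen_lt (by fun_prop) (by fun_prop))
  have h2 : ∀ᵐ n ∂Δ.μ2, n.1.1 ∈ U →
      C (Δ.rf j n.1.2, Δ.φ (-(2 * Δ.ℓ j v * Δ.nv j n.1.2)) n.2) = C (n.1.2, n.2) := by
    filter_upwards [(ae_ball_iff hDc).2 fun w _ => h1 w] with n hn ⟨u, hu1, hu2⟩
    obtain ⟨w, rfl⟩ := (act_bijective n.1.2).2 u
    have ha : Continuous (act n.1.2) := continuous_act.comp (Continuous.prodMk_right _)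
    have ho : IsOpen ({w : ℂ | 200 * ‖w‖ < Δ.d n.1.1} ∩ {w | Δ.ℓ j (n.1.1 + act n.1.2 w) < 0}) :=
      (isOpen_lt (by fun_prop) (by fun_prop)).inter (isOpen_lt (by fun_prop) (by fun_prop))
    rw [norm_act] at hu1
    obtain ⟨w', hw1, hw2⟩ := hDd.exists_mem_open ho ⟨w, hu1, hu2⟩
    exact hn w' hw1 hw2.1 hw2.2
  have h3 := (measurePreserving_prodAssoc ((volume : Measure ℂ).restrict Δ.T) lamF
    Δ.μ).symm.quasiMeasurePreserving.ae h2
  have h4 := Measure.ae_ae_of_ae_prod h3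
  have h5 : (volume : Measure ℂ).restrict Δ.T U ≠ 0 := by
    rw [Measure.restrict_apply hUo.measurableSet]
    obtain ⟨x, hx, u, hu⟩ := Δ.exists_cross 200 j
    exact ((hUo.inter Δ.isOpen_T).measure_pos volume ⟨x, ⟨u, hu⟩, hx⟩).ne'
  obtain ⟨x, hx, hx'⟩ := Measure.exists_mem_of_measure_ne_zero_of_ae h5 (ae_restrict_of_ae h4)
  filter_upwards [hx'] with y hy
  exact hy hx

end Tri

end Crest.Agent.R103
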