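import Crest.Agent.R103.Ops

/-! Row 103: properties of the local translation operators. -/

set_option autoImplicit false
set_option linter.unusedVariables false

noncomputable section

open MeasureTheory Set Filter Topology
open scoped ComplexConjugate InnerProductSpace

namespace Crest.Agent.R103

namespace Tri

variable (Δ : Tri)

/-- `L²` convergence gives an a.e. convergent subsequence; or `subV σ` is the kernel of a
continuous operator (`koop` with `T = id`). -/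
lemma subV_closed (σ : ℝ) : IsClosed (Δ.subV σ : Set Δ.HH) := by
  refine IsSeqClosed.isClosed fun g g₀ hg ht => ?_
  obtain ⟨φ, -, hφ⟩ := (tendstoInMeasure_of_tendsto_Lp ht).exists_seq_tendsto_ae
  have hg' : ∀ k, ∀ᵐ n ∂Δ.μ2, Δ.d n.1.1 < σ → g k n = 0 := fun k => (Δ.mem_subV).1 (hg k)
  refine (Δ.mem_subV).2 ?_
  filter_upwards [ae_all_iff.2 hg', hφ] with n hn hφn hd
  have h0 : (fun i => g (φ i) n) = fun _ => 0 := funext fun i => hn (φ i) hd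
  rw [h0] at hφn
  exact tendsto_nhds_unique hφn tendsto_const_nhds

lemma opK_zero (p : Δ.HH) : Δ.opK 0 p = p := by
  refine Lp.ext ?_
  filter_upwards [Δ.opK_ae 0 p, Δ.ae_fst Δ.ae_mem_T] with n h1 h2
  rw [h1, if_pos (by simpa using Δ.d_pos_of_T h2), Δ.τ_zero (Δ.Sig_of_T h2)]

lemma opK_cont (p : Δ.HH) : Tendsto (fun w => Δ.opK w p) (𝓝 0) (𝓝 p) := by
  refine tendsto_koop (fun w => Δ.subMP_τ2 w)
    (fun w => measurable_fst (Δ.measurableSet_safe _))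
    (fun w => (Δ.measurable_τ' w).prodMap measurable_id) ?_ p
  filter_upwards [Δ.ae_fst Δ.ae_mem_T] with n hn
  refine ⟨?_, ?_⟩
  · have hc : Tendsto (fun w : ℂ => 16 * ‖w‖) (𝓝 0) (𝓝 0) := by
      have : Continuous fun w : ℂ => 16 * ‖w‖ := by fun_prop
      simpa using this.tendsto 0
    exact hc.eventually (gt_mem_nhds (Δ.d_pos_of_T hn))
  · exact (Δ.tendsto_τ hn).prodMk_nhds (tendsto_const_nhds (x := n.2))

lemma opK_mem {σ : ℝ} (w : ℂ) {p : Δ.HH} (hp : p ∈ Δ.subV σ) :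
    Δ.opK w p ∈ Δ.subV (σ - 2 * ‖w‖) := by
  rw [mem_subV] at hp ⊢
  filter_upwards [Δ.opK_ae w p, Δ.ae_τ2 w hp, Δ.ae_fst Δ.ae_mem_T] with n h1 h2 h3 hd
  rw [h1]
  split_ifs with h
  · refine h2 h ?_
    have h4 := (abs_le.1 (Δ.d_τ (Δ.Cl_of_Sig (Δ.Sig_of_T h3)) w)).2
    linarith
  · rfl

/-- `r = ‖w‖ + ‖w'‖`.  A.e. point is in `T` (so `d > 0`) and `NT`.  If `d ≥ σ - 2r ≥ 18 r` all
indicators are `1` and `τ_τ` applies; if `d < σ - 2r` both sides vanish (`ae_τ2`, `d_τ`, `Cl_τ`). -/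
lemma opK_add {σ : ℝ} {w w' : ℂ} {p : Δ.HH} (hp : p ∈ Δ.subV σ) (h : 20 * (‖w‖ + ‖w'‖) ≤ σ) :
    Δ.opK w' (Δ.opK w p) = Δ.opK (w + w') p := by
  have hL := (Δ.mem_subV).1 (Δ.opK_mem w' (Δ.opK_mem w hp))
  have hR := (Δ.mem_subV).1 (Δ.opK_mem (w + w') hp)
  refine Lp.ext ?_
  filter_upwards [hL, hR, Δ.opK_ae w' (Δ.opK w p), Δ.ae_τ2 w' (Δ.opK_ae w p),
    Δ.opK_ae (w + w') p, Δ.ae_fst Δ.ae_mem_T, Δ.ae_fst Δ.ae_NT] with n h1 h2 h3 h4 h5 h6 h7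
  have hn := norm_add_le w w'
  have hw := norm_nonneg w
  have hw' := norm_nonneg w'
  by_cases hd : Δ.d n.1.1 < σ - 2 * ‖w‖ - 2 * ‖w'‖
  · rw [h1 hd, h2 (by linarith)]
  · have hpos := Δ.d_pos_of_T h6
    have hcl := Δ.Cl_of_Sig (Δ.Sig_of_T h6)
    have h16 : 16 * (‖w‖ + ‖w'‖) < Δ.d n.1.1 := by
      have := not_lt.1 hd
      linarith
    have ha : 16 * ‖w'‖ < Δ.d n.1.1 := by linarith
    have hb : 16 * ‖w‖ < Δ.d (Δ.τ w' n.1).1 := by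
      have := (abs_le.1 (Δ.d_τ hcl w')).1
      linarith
    rw [h3, if_pos ha, h4 ha, if_pos hb, h5, if_pos (by linarith),
      Δ.τ_τ hcl (by linarith) (Δ.ND_of_NT h7 _), add_comm w' w]

/-- `koop_adj` with `U = {σ ≤ d}`, `τ_neg_τ`. -/
lemma opK_adj {σ : ℝ} {w : ℂ} (p : Δ.HH) {q : Δ.HH} (hq : q ∈ Δ.subV σ) (h : 20 * ‖w‖ ≤ σ) :
    ⟪Δ.opK w p, q⟫_ℂ = ⟪p, Δ.opK (-w) q⟫_ℂ := by
  have hU : MeasurableSet {n : M × M | σ ≤ Δ.d n.1.1} :=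
    (isClosed_le continuous_const
      (Δ.continuous_d.comp (continuous_fst.comp continuous_fst))).measurableSet
  refine koop_adj (U := {n : M × M | σ ≤ Δ.d n.1.1}) (Δ.subMP_τ2 w) (Δ.subMP_τ2 (-w))
    (measurable_fst (Δ.measurableSet_safe _)) (measurable_fst (Δ.measurableSet_safe _)) hU
    ((Δ.measurable_τ' w).prodMap measurable_id) ((Δ.measurable_τ' (-w)).prodMap measurable_id)
    ?_ ?_ p q ?_
  · filter_upwards [Δ.ae_fst Δ.ae_mem_T] with n hn hσ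
    have hσ' : σ ≤ Δ.d n.1.1 := hσ
    have hpos := Δ.d_pos_of_T hn
    have hw := norm_nonneg w
    have h18 : 18 * ‖w‖ < Δ.d n.1.1 := by linarith
    have h16 : 16 * ‖w‖ < Δ.d n.1.1 := by linarith
    refine ⟨h16, ?_, ?_⟩
    · change 16 * ‖-w‖ < Δ.d (Δ.τ w n.1).1
      have := (abs_le.1 (Δ.d_τ (Δ.Cl_of_Sig (Δ.Sig_of_T hn)) w)).1
      rw [norm_neg]
      linarith
    · exact Prod.ext (Δ.τ_neg_τ (Δ.Sig_of_T hn) h16) rfl
  · filter_upwards [Δ.ae_fst Δ.ae_mem_T] with n hn hE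
    have hE' : 16 * ‖-w‖ < Δ.d n.1.1 := hE
    have := Δ.τ_neg_τ (Δ.Sig_of_T hn) hE'
    rw [neg_neg] at this
    exact Prod.ext this rfl
  · filter_upwards [(Δ.mem_subV).1 hq] with n hn hU'
    exact hn (not_le.1 hU')

/-- `rot_τ`, `ae_ℓ_ne`. -/
lemma opK_R (w : ℂ) (ψ : ℝ) (p : Δ.HH) :
    Δ.opK w (Δ.opR ψ p) = Δ.opR ψ (Δ.opK (Complex.exp (-(ψ * Complex.I)) * w) p) := by
  have hnorm : ‖Complex.exp (-(ψ * Complex.I)) * w‖ = ‖w‖ := by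
    rw [norm_mul, ← neg_mul, ← Complex.ofReal_neg, Complex.norm_exp_ofReal_mul_I, one_mul]
  refine Lp.ext ?_
  filter_upwards [Δ.opK_ae w (Δ.opR ψ p), Δ.ae_τ2 w (Δ.opR_ae ψ p),
    Δ.opR_ae ψ (Δ.opK (Complex.exp (-(ψ * Complex.I)) * w) p),
    (Δ.mp_rot2 ψ).quasiMeasurePreserving.ae (Δ.opK_ae (Complex.exp (-(ψ * Complex.I)) * w) p),
    Δ.ae_fst (Δ.ae_ℓ_ne w)] with n h1 h2 h3 h4 h5
  have h4' : Δ.opK (Complex.exp (-(ψ * Complex.I)) * w) p (rot ψ n.1, n.2) =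
      if 16 * ‖Complex.exp (-(ψ * Complex.I)) * w‖ < Δ.d n.1.1 then
        p (Δ.τ (Complex.exp (-(ψ * Complex.I)) * w) (rot ψ n.1), n.2) else 0 := h4
  rw [h1, h3, h4', hnorm]
  split_ifs with hd
  · rw [h2 hd, Δ.rot_τ ψ h5]
  · rfl

lemma opK_S (w : ℂ) (s : ℝ) (p : Δ.HH) : Δ.opK w (Δ.opS s p) = Δ.opS s (Δ.opK w p) := by
  refine Lp.ext ?_
  filter_upwards [Δ.opK_ae w (Δ.opS s p), Δ.ae_τ2 w (Δ.opS_ae s p), Δ.opS_ae s (Δ.opK w p),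
    (Δ.mp_S s).quasiMeasurePreserving.ae (Δ.opK_ae w p)] with n h1 h2 h3 h4
  have h4' : Δ.opK w p (n.1, Δ.φ s n.2) =
      if 16 * ‖w‖ < Δ.d n.1.1 then p (Δ.τ w n.1, Δ.φ s n.2) else 0 := h4
  rw [h1, h3, h4']
  split_ifs with hd
  · rw [h2 hd]
  · rfl

end Tri

end Crest.Agent.R103
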