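import Crest.Prelude.Def_Billiard
import Crest.Agent.R103.Link
import Crest.Agent.R103.Coll

/-! Row 103: a trajectory gives a flight chain. -/

set_option autoImplicit false
set_option linter.unusedVariables false

noncomputable section

open MeasureTheory Set Filter Topology
open scoped ComplexConjugate

namespace Crest.Agent.R103

open Crest.AnalysisR.Billiard

/-- `t` from `exists_enum` for `coll`, `q k = e (γ (t k)).1`, `side k` from `IsTraj.side`.
By `straight` and continuity of the position,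
`(γ (t (k+1))).1 = (γ (t k)).1 + (t (k+1) - t k) cis θ_k`, which gives `unit_speed`,
`vel k = e (cis θ_k)`, `side_ne` (`ℓ_add_act_real` with `nv > 0`), and with `IsTraj.left`
`(γ (t k)).2 = rf j (γ (t (k+1))).2`, hence `reflect` by `mirror_eq` and `rf_rf`. -/
theorem chain_of_traj {A : Fin 3 → Plane} {Δ : Tri} (h : Link A Δ) {γ : ℝ → M}
    (hγ : Δ.IsTraj γ) : ∃ c : Chain A, ∀ t, c.IsStateAt t (pr (γ t)) := by
  obtain ⟨t, hm, hr, h0, h1, ht1, ht2⟩ := exists_enum hγ.finite_coll hγ.coll_unbounded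
  have hc : ∀ k, t k ∈ Δ.coll γ := fun k => hr ▸ mem_range_self k
  choose side hs1 hs2 hs3 using fun k => hγ.side (hc k)
  have hlt : ∀ k, t k < t (k + 1) := fun k => hm (by omega)
  have hst : ∀ k, ∀ u ∈ Ico (t k) (t (k + 1)),
      γ u = ((γ (t k)).1 + act (γ (t k)).2 (u - t k : ℝ), (γ (t k)).2) := fun k =>
    hγ.straight fun u hu hu' => by
      rw [← hr] at hu'
      obtain ⟨j, rfl⟩ := hu'
      have a := hm.lt_iff_lt.1 hu.1
      have b := hm.lt_iff_lt.1 hu.2
      omega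
  have hev : ∀ k, ∀ᶠ a : ℝ in 𝓝[<] 0, t (k + 1) + a ∈ Ico (t k) (t (k + 1)) := fun k => by
    filter_upwards [Ioo_mem_nhdsLT (show t k - t (k + 1) < 0 by linarith [hlt k])] with a ha
    exact ⟨by linarith [ha.1], by linarith [ha.2]⟩
  have key : ∀ k, (γ (t k)).2 = Δ.rf (side (k + 1)) (γ (t (k + 1))).2 ∧
      (γ (t (k + 1))).1 = (γ (t k)).1 + ((t (k + 1) - t k : ℝ) : ℂ) * cis (γ (t k)).2.1 := fun k => by
    obtain ⟨a, ⟨ha, -⟩, ha'⟩ := ((hγ.left (hs1 (k + 1))).and (hev k)).exists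
    rw [hst k _ ha'] at ha
    have e2 := congrArg Prod.snd ha
    have e1 := congrArg Prod.fst ha
    simp only at e1 e2
    refine ⟨e2, ?_⟩
    rw [← e2, act_ofReal, act_ofReal] at e1
    push_cast at e1 ⊢
    linear_combination -e1
  have hvel : ∀ k, (t (k + 1) - t k)⁻¹ • (e (γ (t (k + 1))).1 - e (γ (t k)).1) =
      e (cis (γ (t k)).2.1) := fun k => by
    rw [← map_sub, (key k).2, add_sub_cancel_left, ← Complex.real_smul, map_smul, smul_smul,
      inv_mul_cancel₀ (sub_pos.2 (hlt k)).ne', one_smul]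
  refine ⟨⟨t, fun k => e (γ (t k)).1, side, hm, h0, h1, ht1, ht2,
    fun k => (h.mem_openSide _ _).2 ⟨hs1 k, hs2 k⟩, fun k hk => ?_, fun k => ?_, fun k => ?_⟩,
    fun τ => ?_⟩
  · have a := Δ.ℓ_add_act_real (side k) (γ (t k)) (t (k + 1) - t k)
    rw [act_ofReal, ← (key k).2, hs1 k, ← hk, hs1 (k + 1), hk] at a
    have := mul_pos (sub_pos.2 (hlt k)) (hs3 k)
    linarith
  · rw [dist_comm, e.dist_map, dist_eq_norm, (key k).2, add_sub_cancel_left, norm_mul, norm_cis, mul_one,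
      Complex.norm_real, Real.norm_of_nonneg (sub_pos.2 (hlt k)).le]
  · have := hvel (k + 1)
    rw [show k + 1 + 1 = k + 2 by ring] at this
    rw [this, hvel k, h.mirror_eq, (key k).1, Δ.rf_rf]
  · obtain ⟨k, hk1, hk2⟩ : ∃ k, t k ≤ τ ∧ τ < t (k + 1) := by
      obtain ⟨b, hb⟩ := eventually_atTop.1 (ht1.eventually_gt_atTop τ)
      obtain ⟨k, hk, hk'⟩ := Int.exists_greatest_of_bdd (P := fun k => t k ≤ τ)
        ⟨b, fun z hz => by
          by_contra hb'
          exact absurd (hb z (not_le.1 hb').le) (not_lt.2 hz)⟩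
        (ht2.eventually_le_atBot τ).exists
      exact ⟨k, hk, not_le.1 fun h' => by have := hk' _ h'; omega⟩
    refine ⟨k, hk1, hk2, ?_, ?_⟩
    · simp only [Chain.vel, pr, hvel k]
      rw [hst k τ ⟨hk1, hk2⟩, map_add, act_ofReal, ← Complex.real_smul, map_smul]
    · simp only [Chain.vel, pr, hvel k]
      rw [hst k τ ⟨hk1, hk2⟩]

end Crest.Agent.R103
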