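import Crest.Prelude.Def_Billiard
import Crest.Agent.R103.Link
import Crest.Agent.R103.Meas

/-! Row 103: the projection of the Liouville measure. -/

set_option autoImplicit false
set_option linter.unusedVariables false

noncomputable section

open MeasureTheory Set Filter Topology
open scoped ComplexConjugate

namespace Crest.Agent.R103

open Crest.AnalysisR.Billiard

/-- The direction map `Ang → sphere`. -/
def dir (θ : Ang) : Metric.sphere (0 : Plane) 1 := ⟨e (cis θ), by simp [norm_cis]⟩

lemma continuous_dir : Continuous dir :=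
  (e.continuous.comp continuous_cis).subtype_mk _

lemma dir_bijective : Function.Bijective dir := by
  refine ⟨fun a b h => cis_injective (e.injective (congrArg Subtype.val h)), fun x => ?_⟩
  obtain ⟨θ, hθ⟩ := exists_cis (z := e.symm x) (by simp)
  exact ⟨θ, Subtype.ext (by simp [dir, hθ])⟩

lemma transfer_toSphere (g : Plane ≃ₗᵢ[ℝ] Plane)
    (G : Metric.sphere (0 : Plane) 1 → Metric.sphere (0 : Plane) 1) (hG : ∀ x, (G x : Plane) = g x)
    {t : Set (Metric.sphere (0 : Plane) 1)} (ht : MeasurableSet t) :
    (volume : Measure Plane).toSphere (G ⁻¹' t) = (volume : Measure Plane).toSphere t := by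
  have hc : Continuous G := by
    rw [continuous_induced_rng]
    exact (g.continuous.comp continuous_subtype_val).congr fun x => (hG x).symm
  rw [Measure.toSphere_apply' _ (hc.measurable ht), Measure.toSphere_apply' _ ht]
  congr 1
  refine Eq.trans ?_ (MeasurePreserving.measure_preimage_emb g.measurePreserving
    g.toHomeomorph.measurableEmbedding _)
  congr 1
  ext z
  constructor
  · rintro ⟨c, hc, _, ⟨x, hx, rfl⟩, rfl⟩
    exact ⟨c, hc, _, ⟨G x, hx, rfl⟩, by simp [hG]⟩
  · rintro ⟨c, hc, _, ⟨x, hx, rfl⟩, h⟩
    have h1 : G ⟨g.symm x, by simp⟩ = x := Subtype.ext (by simp [hG])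
    refine ⟨c, hc, _, ⟨⟨g.symm x, by simp⟩, by simpa [h1] using hx, rfl⟩, g.injective ?_⟩
    simpa using h

/-- `dir` is a continuous bijection from a compact space, hence a homeomorphism and a measurable
equivalence.  The pull-back of `toSphere` is a finite non-zero translation invariant measure on
`Ang` (`Measure.toSphere_apply'`: a rotation maps cones to cones and preserves the volume), hence a
multiple of the Haar measure (`Measure.isAddLeftInvariant_eq_smul` or
`Measure.addHaarMeasure_unique`). -/
lemma map_dir : ∃ c : ENNReal, c ≠ 0 ∧ c ≠ ⊤ ∧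
    (volume : Measure Ang).map dir = c • (volume : Measure Plane).toSphere := by
  let D : Ang ≃ₜ Metric.sphere (0 : Plane) 1 :=
    Continuous.homeoOfEquivCompactToT2 (f := Equiv.ofBijective dir dir_bijective) continuous_dir
  have hD : ∀ θ, D θ = dir θ := fun _ => rfl
  set ν : Measure Ang := (volume : Measure Plane).toSphere.map D.symm with hν
  have hmap : ν.map dir = (volume : Measure Plane).toSphere := by
    rw [hν, Measure.map_map continuous_dir.measurable D.symm.continuous.measurable]
    have : dir ∘ D.symm = id := funext fun x => D.apply_symm_apply x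
    rw [this, Measure.map_id]
  have hinv : ν.IsAddLeftInvariant := by
    refine ⟨fun a => Measure.ext fun s hs => ?_⟩
    rw [Measure.map_apply (measurable_const_add a) hs, hν,
      Measure.map_apply D.symm.continuous.measurable (measurable_const_add a hs),
      Measure.map_apply D.symm.continuous.measurable hs,
      ← transfer_toSphere ((e.symm.trans (rotation (AddCircle.toCircle a))).trans e)
        (fun x => D (a + D.symm x)) (fun x => ?_) (D.symm.continuous.measurable hs)]
    · congr 1
      ext x
      simp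
    · obtain ⟨θ, rfl⟩ := D.surjective x
      rw [Homeomorph.symm_apply_apply]
      simp only [hD, dir, cis_add, LinearIsometryEquiv.trans_apply,
        LinearIsometryEquiv.symm_apply_apply, rotation_apply]
      rfl
  have h := Measure.isAddLeftInvariant_eq_smul ν (volume : Measure Ang)
  set c := Measure.addHaarScalarFactor ν (volume : Measure Ang)
  have hc : c ≠ 0 := by
    intro h0
    rw [h0, zero_smul] at h
    rw [h, Measure.map_zero] at hmap
    exact Measure.toSphere_ne_zero (volume : Measure Plane) hmap.symm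
  refine ⟨(c : ENNReal)⁻¹, ENNReal.inv_ne_zero.2 ENNReal.coe_ne_top,
    ENNReal.inv_ne_top.2 (by exact_mod_cast hc), ?_⟩
  rw [← hmap, h, Measure.map_smul, ENNReal.smul_def, smul_smul,
    ENNReal.inv_mul_cancel (by exact_mod_cast hc) ENNReal.coe_ne_top, one_smul]

/-- `pr = (e × dir) ∘ (forget the orientation)`; `e` preserves the volume, `interior_eq`. -/
theorem Link.map_pr {A : Fin 3 → Plane} {Δ : Tri} (h : Link A Δ) : ∃ c : ENNReal, c ≠ 0 ∧ c ≠ ⊤ ∧
    Δ.μ.map pr = c • phaseMeasure A := by
  obtain ⟨c, h0, h1, hc⟩ := map_dir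
  have e1 : ((volume : Measure ℂ).restrict Δ.T).map e =
      (volume : Measure Plane).restrict (interior (convexHull ℝ (Set.range A))) := by
    rw [h.interior_eq]
    exact (e.measurePreserving.restrict_image_emb e.toHomeomorph.measurableEmbedding Δ.T).map_eq
  have e2 : lamF.map (dir ∘ Prod.fst) = (2 * c) • (volume : Measure Plane).toSphere := by
    rw [← Measure.map_map continuous_dir.measurable measurable_fst, lamF, Measure.map_fst_prod,
      Measure.map_smul, hc, smul_smul, Measure.count_univ]
    simp
  refine ⟨2 * c, mul_ne_zero two_ne_zero h0, ENNReal.mul_ne_top (by simp) h1, ?_⟩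
  have e3 : pr = Prod.map e (dir ∘ Prod.fst) := rfl
  rw [e3, Tri.μ, ← Measure.map_prod_map _ _ e.continuous.measurable
    (continuous_dir.measurable.comp measurable_fst), e1, e2, Measure.prod_smul_right, phaseMeasure]

lemma Link.ae_pr {A : Fin 3 → Plane} {Δ : Tri} (h : Link A Δ) {P : Phase → Prop}
    (hP : ∀ᵐ p ∂phaseMeasure A, P p) : ∀ᵐ m ∂Δ.μ, P (pr m) := by
  obtain ⟨c, -, -, hc⟩ := h.map_pr
  refine ae_of_ae_map continuous_pr.measurable.aemeasurable ?_
  rw [hc]
  exact Measure.ae_smul_measure hP c

/-- Replace `{¬ P}` by a measurable null set `N`.  `pr '' Nᶜ` is measurable (`pr` is injective and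
continuous on each of the two slices: `MeasurableSet.image_of_continuousOn_injOn`), and the
preimage of its complement is contained in `N`. -/
lemma Link.ae_exists_pr {A : Fin 3 → Plane} {Δ : Tri} (h : Link A Δ) {P : M → Prop}
    (hP : ∀ᵐ m ∂Δ.μ, P m) : ∀ᵐ p ∂phaseMeasure A, ∃ m, P m ∧ pr m = p := by
  obtain ⟨c, h0, -, hc⟩ := h.map_pr
  obtain ⟨N, hN1, hN2, hN3⟩ := exists_measurable_superset_of_null hP
  have hm : MeasurableSet (pr '' Nᶜ) := by
    have h1 : ∀ b : Bool, MeasurableSet (pr '' (Nᶜ ∩ {m : M | m.2.2 = b})) := fun b =>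
      (hN2.compl.inter (measurable_snd.snd (measurableSet_singleton b))).image_of_continuousOn_injOn
        continuous_pr.continuousOn fun m hm m' hm' hh => pr_inj hh (hm.2.trans hm'.2.symm)
    have h2 : Nᶜ = (Nᶜ ∩ {m : M | m.2.2 = true}) ∪ (Nᶜ ∩ {m : M | m.2.2 = false}) := by
      ext m; by_cases hb : m.2.2 = true <;> simp [hb]
    rw [h2, image_union]
    exact (h1 true).union (h1 false)
  have h3 : phaseMeasure A (pr '' Nᶜ)ᶜ = 0 := by
    have h4 : Δ.μ.map pr (pr '' Nᶜ)ᶜ = 0 := by
      rw [Measure.map_apply continuous_pr.measurable hm.compl]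
      refine measure_mono_null (fun m hm' => ?_) hN3
      by_contra hn
      exact hm' ⟨m, hn, rfl⟩
    rw [hc, Measure.smul_apply, smul_eq_mul, mul_eq_zero] at h4
    exact h4.resolve_left h0
  filter_upwards [mem_ae_iff.2 h3] with p hp
  obtain ⟨m, hm1, hm2⟩ := hp
  refine ⟨m, ?_, hm2⟩
  by_contra hn
  exact hm1 (hN1 hn)

lemma Link.map_pr2 {A : Fin 3 → Plane} {Δ : Tri} (h : Link A Δ) : ∃ c : ENNReal, c ≠ 0 ∧ c ≠ ⊤ ∧
    Δ.μ2.map (Prod.map pr pr) = c • (phaseMeasure A).prod (phaseMeasure A) := by
  obtain ⟨c, h0, h1, hc⟩ := h.map_pr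
  have : SFinite (volume : Measure Plane).toSphere := inferInstance
  have : SFinite (phaseMeasure A) := by unfold phaseMeasure; infer_instance
  refine ⟨c * c, mul_ne_zero h0 h0, ENNReal.mul_ne_top h1 h1, ?_⟩
  rw [Tri.μ2, ← Measure.map_prod_map _ _ continuous_pr.measurable continuous_pr.measurable, hc,
    Measure.prod_smul_right, Measure.prod_smul_left, smul_smul]

end Crest.Agent.R103
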