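import Crest.Agent.R103.ReflRel

/-! Row 103: weak mixing of the model. -/

set_option autoImplicit false
set_option linter.unusedVariables false

noncomputable section

open MeasureTheory Set Filter Topology
open scoped ComplexConjugate

namespace Crest.Agent.R103

lemma wm_slice {P : Fr → Prop} (h : ∀ᵐ g ∂lamF, P g) : ∀ᵐ θ : Ang, ∀ b, P (θ, b) :=
  (Measure.ae_ae_of_ae_prod h).mono fun _ hθ => Measure.ae_count_iff.1 hθ

lemma wm_unslice {P : Fr → Prop} (h : ∀ᵐ θ : Ang, ∀ b, P (θ, b)) : ∀ᵐ g ∂lamF, P g :=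
  ((Measure.quasiMeasurePreserving_fst (μ := (volume : Measure Ang))
    (ν := (Measure.count : Measure Bool))).ae h).mono fun g hg => hg g.2

lemma wm_swap {α β : Type*} [MeasurableSpace α] [MeasurableSpace β] {μ : Measure α}
    {ν : Measure β} [SFinite μ] [SFinite ν] {P : α × β → Prop} (h : ∀ᵐ z ∂μ.prod ν, P z) :
    ∀ᵐ y ∂ν, ∀ᵐ x ∂μ, P (x, y) :=
  Measure.ae_ae_of_ae_prod
    ((Measure.measurePreserving_swap (μ := ν) (ν := μ)).quasiMeasurePreserving.ae h)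

namespace Tri

variable (Δ : Tri)

/-- A function on frames invariant under the two reflections through an irrational vertex is a.e.
constant: by `rf_rf_eq` each slice `θ ↦ c (θ, b)` is a.e. invariant under an irrational rotation
(`AddCircle.ergodic_add_left`, `QuasiErgodic.ae_eq_const_of_ae_eq_comp_ae`), and one reflection
exchanges the two slices. -/
lemma const_of_rf {i j : Fin 3} (hij : addOrderOf (Δ.β i + Δ.β i - (Δ.β j + Δ.β j)) = 0)
    {c : Fr → ℝ} (hc : Measurable c) (hi : ∀ᵐ g ∂lamF, c (Δ.rf i g) = c g)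
    (hj : ∀ᵐ g ∂lamF, c (Δ.rf j g) = c g) : ∃ c₀, ∀ᵐ g ∂lamF, c g = c₀ := by
  have h1 : ∀ᵐ g ∂lamF, c (Δ.β i + Δ.β i - (Δ.β j + Δ.β j) + g.1, g.2) = c g := by
    filter_upwards [(Δ.mp_rf j).quasiMeasurePreserving.ae hi, hj] with g h1 h2
    rw [← Δ.rf_rf_eq, h1, h2]
  have h2 : ∀ b : Bool, ∃ k : ℝ, ∀ᵐ θ : Ang, c (θ, b) = k := fun b =>
    (AddCircle.ergodic_add_left.2 hij).ae_eq_const_of_ae_eq_comp_ae (g := fun θ => c (θ, b))
      (hc.comp measurable_prodMk_right).aestronglyMeasurable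
      ((wm_slice h1).mono fun θ hθ => hθ b)
  choose K hK using h2
  have h3 : ∀ᵐ g ∂lamF, c g = K g.2 := wm_unslice (ae_all_iff.2 hK)
  have h4 : ∀ᵐ g ∂lamF, K (!g.2) = K g.2 := by
    filter_upwards [(Δ.mp_rf i).quasiMeasurePreserving.ae h3, hi, h3] with g a1 a2 a3
    rw [← a3, ← a2, a1]; rfl
  have : (ae lamF).NeBot := ae_neBot.2 lamF_ne_zero
  obtain ⟨g, hg⟩ := h4.exists
  have h5 : ∀ b, K b = K true := by
    rcases g with ⟨θ, _ | _⟩ <;> intro b <;> cases b <;> simp_all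
  exact ⟨K true, h3.mono fun g hg => hg.trans (h5 _)⟩

/-- `{t | C ∘ φ t = C a.e.}` is a closed subgroup: it is `{t | opS t p = p}` for the class `p` of
`n ↦ arctan (C n.2)` in `HH` (`opS_cont`; `μ ≠ 0`). -/
lemma exists_subgroup {C : M → ℝ} (hC : Measurable C) : ∃ G : AddSubgroup ℝ,
    IsClosed (G : Set ℝ) ∧ ∀ t, t ∈ G ↔ ∀ᵐ m ∂Δ.μ, C (Δ.φ t m) = C m := by
  have hm : MemLp (fun n : M × M => (Real.arctan (C n.2) : ℂ)) 2 Δ.μ2 := by
    refine MemLp.of_bound (Complex.measurable_ofReal.comp (Real.measurable_arctan.comp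
      (hC.comp measurable_snd))).aestronglyMeasurable (Real.pi / 2)
      (Eventually.of_forall fun n => ?_)
    rw [Complex.norm_real, Real.norm_eq_abs, abs_le]
    exact ⟨(Real.neg_pi_div_two_lt_arctan _).le, (Real.arctan_lt_pi_div_two _).le⟩
  set p : Δ.HH := hm.toLp _ with hp
  have hpa : ∀ᵐ n ∂Δ.μ2, p n = (Real.arctan (C n.2) : ℂ) := hm.coeFn_toLp
  have hS : ∀ t, ∀ᵐ n ∂Δ.μ2, Δ.opS t p n = (Real.arctan (C (Δ.φ t n.2)) : ℂ) := fun t => by
    filter_upwards [Δ.opS_ae t p, (Δ.mp_S t).quasiMeasurePreserving.ae hpa] with n h1 h2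
    exact h1.trans h2
  refine ⟨{ carrier := {t | Δ.opS t p = p}
            add_mem' := fun {s t} hs ht => ?_
            zero_mem' := Δ.opS_zero p
            neg_mem' := fun {t} ht => ?_ }, isClosed_eq (Δ.opS_cont p) continuous_const,
    fun t => ⟨fun ht => ?_, fun ht => ?_⟩⟩
  · change Δ.opS (s + t) p = p
    rw [Δ.opS_add, show Δ.opS t p = p from ht, show Δ.opS s p = p from hs]
  · change Δ.opS (-t) p = p
    conv_lhs => rw [← show Δ.opS t p = p from ht]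
    rw [← Δ.opS_add, neg_add_cancel, Δ.opS_zero]
  · have ht' : Δ.opS t p = p := ht
    have h1 : ∀ᵐ n ∂Δ.μ.prod Δ.μ, C (Δ.φ t n.2) = C n.2 := by
      have h2 := hS t
      rw [ht'] at h2
      filter_upwards [h2, hpa] with n a1 a2
      exact Real.arctan_injective (Complex.ofReal_injective (a1.symm.trans a2))
    have : (ae Δ.μ).NeBot := ae_neBot.2 Δ.μ_ne_zero
    obtain ⟨x, hx⟩ := (Measure.ae_ae_of_ae_prod h1).exists
    exact hx
  · change Δ.opS t p = p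
    refine Lp.ext ?_
    filter_upwards [hS t, hpa, Δ.ae_snd ht] with n a1 a2 a3
    rw [a1, a2, a3]

/-- `v = A k` for the irrational vertex.  `refl_rel` for `j = k+1, k+2` (there `ℓ j v = 0`),
`const_of_rf` for a.e. `m'` and `exists_const_param` give `C (g, m') = C₀ m'`.  `refl_rel` for
`j = k` (pull back along the measure preserving `(g, m') ↦ (rf k g, φ (-θ g) m')`) gives
`-2 ℓ k v · nv k g ∈ G` for a.e. `g`, so for a.e. angle in the slice `g.2 = true`;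
`addSubgroup_eq_top` with `Y = Ang`.  Finally undo the skew product (`mp_skew`). -/
theorem dep_snd (hi : Δ.Irr) {F : M × M → ℝ} (hF : Measurable F) (hb : ∀ n, |F n| ≤ 1)
    (h : Δ.Inv F) : ∃ C : M → ℝ, Measurable C ∧ ∀ᵐ n ∂Δ.μ2, F n = C n.2 := by
  obtain ⟨k, hk⟩ := hi
  obtain ⟨C, hC, hFC⟩ := Δ.normal_form hF hb h (Δ.A k)
  have e1 : ∀ k : Fin 3, k + 1 + 2 = k := by decide
  have e2 : ∀ k : Fin 3, k + 2 + 1 = k := by decide
  have l1 : Δ.ℓ (k + 1) (Δ.A k) = 0 := by simpa only [e1] using Δ.ℓ_A_succ_succ (k + 1)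
  have l2 : Δ.ℓ (k + 2) (Δ.A k) = 0 := by simpa only [e2] using Δ.ℓ_A_succ (k + 2)
  have r1 := Δ.refl_rel hF hb h (Δ.A k) hC hFC (k + 1)
  have r2 := Δ.refl_rel hF hb h (Δ.A k) hC hFC (k + 2)
  simp only [l1, l2, mul_zero, zero_mul, neg_zero, φ_zero] at r1 r2
  obtain ⟨C₀, hC₀, hCC⟩ := exists_const_param (μ := lamF) (ν := Δ.μ) hC (by
    filter_upwards [wm_swap r1, wm_swap r2] with m a1 a2
    exact Δ.const_of_rf hk (c := fun g => C (g, m)) (hC.comp measurable_prodMk_right) a1 a2)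
  obtain ⟨G, hG, hGm⟩ := Δ.exists_subgroup hC₀
  have hθ : Continuous fun g : Fr => -(2 * Δ.ℓ k (Δ.A k) * Δ.nv k g) :=
    (continuous_const.mul (Δ.continuous_nv k)).neg
  have hΨ := ((Δ.mp_rf k).prod (MeasurePreserving.id Δ.μ)).comp (Δ.mp_skew lamF hθ.measurable)
  have r3 : ∀ᵐ y ∂lamF.prod Δ.μ,
      C₀ (Δ.φ (-(2 * Δ.ℓ k (Δ.A k) * Δ.nv k y.1)) y.2) = C₀ y.2 := by
    filter_upwards [Δ.refl_rel hF hb h (Δ.A k) hC hFC k, hΨ.quasiMeasurePreserving.ae hCC, hCC]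
      with y a1 a2 a3
    rw [← a3, ← a1]
    exact a2.symm
  have r4 : ∀ᵐ g ∂lamF, -(2 * Δ.ℓ k (Δ.A k) * Δ.nv k g) ∈ G :=
    (Measure.ae_ae_of_ae_prod r3).mono fun g hg => (hGm _).2 hg
  have hl := Δ.ℓ_A_self k
  have n1 : Δ.nv k (Δ.β k, true) = 1 := by
    rw [nv, ν, cis_mul_conj, Complex.one_re]
  have n2 : Δ.nv k (Δ.β k + ((Real.pi : ℝ) : Ang), true) = -1 := by
    rw [nv, ν, cis_add, cis_pi, mul_neg, mul_one, neg_mul, cis_mul_conj, Complex.neg_re,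
      Complex.one_re]
  have hT : G = ⊤ := addSubgroup_eq_top hG (ν := (volume : Measure Ang))
    (θ := fun θ : Ang => -(2 * Δ.ℓ k (Δ.A k) * Δ.nv k (θ, true)))
    (hθ.comp (Continuous.prodMk_left true)) (y₀ := Δ.β k) (y₁ := Δ.β k + ((Real.pi : ℝ) : Ang))
    (by simp only [n1, n2]; intro h0; linarith) ((wm_slice r4).mono fun θ hθ => hθ true)
  have hinv : ∀ t, ∀ᵐ m ∂Δ.μ, C₀ (Δ.φ t m) = C₀ m := fun t =>
    (hGm t).1 (hT ▸ AddSubgroup.mem_top t)
  have hq : Measure.QuasiMeasurePreserving (Prod.map Prod.snd id : M × M → Fr × M) Δ.μ2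
      (lamF.prod Δ.μ) :=
    MeasureTheory.QuasiMeasurePreserving.prodMap Measure.quasiMeasurePreserving_snd
      (Measure.QuasiMeasurePreserving.id Δ.μ)
  have r5 : ∀ᵐ n ∂Δ.μ2, F (n.1, Δ.φ (ht (Δ.A k) n.1) n.2) = C₀ n.2 := by
    filter_upwards [hFC, hq.ae hCC] with n a1 a2
    exact a1.trans a2
  have hm : Measurable fun m : M => -ht (Δ.A k) m := (continuous_ht _).neg.measurable
  have hsk := Δ.mp_skew Δ.μ hm
  have r6 : ∀ᵐ n ∂Δ.μ.prod Δ.μ, C₀ (Δ.φ (-ht (Δ.A k) n.1) n.2) = C₀ n.2 :=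
    (Measure.ae_prod_iff_ae_ae (measurableSet_eq_fun
      (hC₀.comp (measurable_snd.comp hsk.measurable)) (hC₀.comp measurable_snd))).2
      (Eventually.of_forall fun x => hinv (-ht (Δ.A k) x))
  refine ⟨C₀, hC₀, ?_⟩
  filter_upwards [hsk.quasiMeasurePreserving.ae r5, r6] with n a1 a2
  rw [← a2, ← a1]
  simp only [← φ_add, add_neg_cancel, φ_zero]

/-- `dep_snd` for `F` and `F ∘ swap`: `C n.2 = C' n.1` a.e. -/
theorem weak_mixing (hi : Δ.Irr) {F : M × M → ℝ} (hF : Measurable F) (hb : ∀ n, |F n| ≤ 1)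
    (h : Δ.Inv F) : ∃ c, ∀ᵐ n ∂Δ.μ2, F n = c := by
  have hsw : MeasurePreserving (Prod.swap : M × M → M × M) Δ.μ2 Δ.μ2 :=
    Measure.measurePreserving_swap
  obtain ⟨C, -, hC⟩ := Δ.dep_snd hi hF hb h
  obtain ⟨C', -, hC'⟩ := Δ.dep_snd hi (F := fun n => F n.swap) (hF.comp measurable_swap)
    (fun n => hb _) fun t => hsw.quasiMeasurePreserving.ae (h t)
  have h1 : ∀ᵐ n ∂Δ.μ.prod Δ.μ, C n.2 = C' n.1 := by
    filter_upwards [hC, hsw.quasiMeasurePreserving.ae hC'] with n a1 a2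
    exact a1.symm.trans a2
  have : (ae Δ.μ).NeBot := ae_neBot.2 Δ.μ_ne_zero
  obtain ⟨x, hx⟩ := (Measure.ae_ae_of_ae_prod h1).exists
  refine ⟨C' x, ?_⟩
  filter_upwards [hC, Δ.ae_snd hx] with n a1 a2
  exact a1.trans a2

end Tri

end Crest.Agent.R103
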