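import Crest.Agent.R103.Approx
import Crest.Agent.R103.AbsMain

/-! Row 103: invariant functions are invariant across the flow. -/

set_option autoImplicit false
set_option linter.unusedVariables false

noncomputable section

open MeasureTheory Set Filter Topology
open scoped ComplexConjugate InnerProductSpace

namespace Crest.Agent.R103

namespace Tri

variable (Δ : Tri)

lemma yinv_S_bdd {p : Δ.HH} (hp : ∀ᵐ n ∂Δ.μ2, ‖p n‖ ≤ 1) (s : ℝ) :
    ∀ᵐ n ∂Δ.μ2, ‖Δ.opS s p n‖ ≤ 1 := by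
  filter_upwards [Δ.opS_ae s p, (Δ.mp_S s).quasiMeasurePreserving.ae hp] with n h1 h2
  rw [h1]
  exact h2

lemma yinv_koop_S {p : Δ.HH} {t : ℝ} (hinv : ∀ᵐ n ∂Δ.μ2, p (Δ.φ t n.1, Δ.φ t n.2) = p n) (s : ℝ) :
    koop Δ.μ2 univ (fun n : M × M => (Δ.φ t n.1, Δ.φ t n.2)) (Δ.opS s p) = Δ.opS s p := by
  refine Lp.ext ?_
  filter_upwards [koop_univ_ae (Δ.mp_φ2 t t) (Δ.opS s p),
    (Δ.mp_φ2 t t).quasiMeasurePreserving.ae (Δ.opS_ae s p),
    (Δ.mp_S s).quasiMeasurePreserving.ae hinv, Δ.opS_ae s p] with n h1 h2 h3 h4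
  rw [h1, h2, h4]
  simp only [Prod.map_fst, Prod.map_snd, id] at h3 ⊢
  rw [← Δ.φ_add, add_comm, Δ.φ_add]
  exact h3

lemma yinv_avg {p : Δ.HH} (hp : ∀ᵐ n ∂Δ.μ2, ‖p n‖ ≤ 1)
    (hinv : ∀ t, ∀ᵐ n ∂Δ.μ2, p (Δ.φ t n.1, Δ.φ t n.2) = p n) {η : ℝ} (hη : 0 < η) :
    Δ.rep.Approx ((η : ℂ)⁻¹ • ∫ s in (0 : ℝ)..η, Δ.opS s p) ((η : ℂ)⁻¹ • (Δ.opS η p - p)) := by
  have hc := Δ.opS_cont p
  refine Δ.approx (c := η⁻¹ * 2) (ae_norm_avg_le hc (Δ.yinv_S_bdd hp) hη) ?_ (fun t => ?_) ?_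
  · filter_upwards [Lp.coeFn_smul (η : ℂ)⁻¹ (Δ.opS η p - p), Lp.coeFn_sub (Δ.opS η p) p,
      Δ.yinv_S_bdd hp η, hp] with n h1 h2 h3 h4
    rw [h1, Pi.smul_apply, h2, Pi.sub_apply, norm_smul, norm_inv, Complex.norm_real,
      Real.norm_of_nonneg hη.le]
    refine mul_le_mul_of_nonneg_left ((norm_sub_le _ _).trans (by linarith)) (by positivity)
  · have e : koop Δ.μ2 univ (fun n : M × M => (Δ.φ t n.1, Δ.φ t n.2))
        ((η : ℂ)⁻¹ • ∫ s in (0 : ℝ)..η, Δ.opS s p) = (η : ℂ)⁻¹ • ∫ s in (0 : ℝ)..η, Δ.opS s p := by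
      rw [map_smul, ← ContinuousLinearMap.intervalIntegral_comp_comm _ (hc.intervalIntegrable _ _)]
      simp only [Δ.yinv_koop_S (hinv t)]
    have h1 := koop_univ_ae (Δ.mp_φ2 t t) ((η : ℂ)⁻¹ • ∫ s in (0 : ℝ)..η, Δ.opS s p)
    rw [e] at h1
    filter_upwards [h1] with n hn
    exact hn.symm
  · have hΦ : ∀ x : ℝ, HasDerivAt (fun u => ∫ s in (0 : ℝ)..u, Δ.opS s p) (Δ.opS x p) x :=
      fun x => (hc.integral_hasStrictDerivAt 0 x).hasDerivAt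
    have e : (fun r : ℝ => Δ.opS r ((η : ℂ)⁻¹ • ∫ s in (0 : ℝ)..η, Δ.opS s p)) =
        fun r : ℝ => (η : ℂ)⁻¹ • ((∫ s in (0 : ℝ)..(r + η), Δ.opS s p) -
          ∫ s in (0 : ℝ)..r, Δ.opS s p) := by
      funext r
      rw [map_smul, ← ContinuousLinearMap.intervalIntegral_comp_comm _ (hc.intervalIntegrable _ _),
        intervalIntegral.integral_interval_sub_left (hc.intervalIntegrable _ _)
          (hc.intervalIntegrable _ _)]
      simp only [← Δ.opS_add]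
      rw [intervalIntegral.integral_comp_add_left (fun s => Δ.opS s p) r, add_zero]
    rw [e]
    have h1 : HasDerivAt (fun r : ℝ => ∫ s in (0 : ℝ)..(r + η), Δ.opS s p) (Δ.opS η p) 0 := by
      have := hΦ (0 + η)
      rw [zero_add η] at this
      have h2 := HasDerivAt.comp_add_const (f := fun u => ∫ s in (0 : ℝ)..u, Δ.opS s p) 0 η
        (by rwa [zero_add])
      exact h2
    have h3 := (h1.fun_sub (hΦ 0)).fun_const_smul (η : ℂ)⁻¹
    rwa [Δ.opS_zero] at h3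

/-- `p_η = η⁻¹ ∫_0^η S s p ds` is bounded by `1` (`ae_norm_avg_le`), invariant (it is fixed by the
Koopman operators `koop μ2 univ (φ t × φ t)`, which commute with `opS`), has the `S`-derivative
`η⁻¹ (S η p - p)` (FTC), and tends to `p` as `η → 0`.  `approx`, `Rep.inner_K_im`. -/
theorem inner_opK_im {p : Δ.HH} (hp : ∀ᵐ n ∂Δ.μ2, ‖p n‖ ≤ 1)
    (hinv : ∀ t, ∀ᵐ n ∂Δ.μ2, p (Δ.φ t n.1, Δ.φ t n.2) = p n) {σ b : ℝ} {q : Δ.HH}
    (hq : q ∈ Δ.subV σ) (hb : 100 * |b| < σ) : ⟪p, Δ.opK (b * Complex.I) q⟫_ℂ = ⟪p, q⟫_ℂ := by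
  have hc := Δ.opS_cont p
  have h1 := hasDerivAt_iff_tendsto_slope_zero.1 (hc.integral_hasStrictDerivAt 0 0).hasDerivAt
  rw [Δ.opS_zero] at h1
  have h2 : Tendsto (fun η : ℝ => ((η : ℂ)⁻¹ • ∫ s in (0 : ℝ)..η, Δ.opS s p)) (𝓝[>] 0) (𝓝 p) := by
    refine (h1.mono_left (nhdsWithin_mono _ fun x hx => ne_of_gt hx)).congr fun η => ?_
    rw [zero_add, intervalIntegral.integral_same, sub_zero, ← Complex.ofReal_inv, Complex.coe_smul]
    rfl
  refine tendsto_nhds_unique_of_eventuallyEq (h2.inner tendsto_const_nhds)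
    (h2.inner tendsto_const_nhds) ?_
  filter_upwards [self_mem_nhdsWithin] with η hη
  exact Δ.rep.inner_K_im (Δ.yinv_avg hp hinv hη) hq hb

/-- `p = F` in `L²`.  For `σ > 100 |b|`, `K (ib) p - p` is orthogonal to `subV σ` (`opK_adj` and the
previous lemma for `-b`); test with `q = 1_{σ ≤ d} (K (ib) p - p)`; let `σ ↓ 100 |b|`. -/
theorem yinv {F : M × M → ℝ} (hF : Measurable F) (hb : ∀ n, |F n| ≤ 1) (h : Δ.Inv F) (b : ℝ) :
    ∀ᵐ n ∂Δ.μ2, 100 * |b| < Δ.d n.1.1 → F (Δ.τ (b * Complex.I) n.1, n.2) = F n := by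
  have hm : MemLp (fun n => (F n : ℂ)) 2 Δ.μ2 :=
    MemLp.of_bound (Complex.measurable_ofReal.comp hF).aestronglyMeasurable 1
      (Eventually.of_forall fun n => by simpa using hb n)
  set p : Δ.HH := hm.toLp _ with hpdef
  have hpF : ∀ᵐ n ∂Δ.μ2, p n = F n := hm.coeFn_toLp
  have hp : ∀ᵐ n ∂Δ.μ2, ‖p n‖ ≤ 1 := by
    filter_upwards [hpF] with n hn
    rw [hn]
    simpa using hb n
  have hinv : ∀ t, ∀ᵐ n ∂Δ.μ2, p (Δ.φ t n.1, Δ.φ t n.2) = p n := fun t => by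
    filter_upwards [hpF, (Δ.mp_φ2 t t).quasiMeasurePreserving.ae hpF, h t] with n h1 h2 h3
    rw [h1, h2, h3]
  have hnb : ‖(b : ℂ) * Complex.I‖ = |b| := by simp
  set D : Δ.HH := Δ.opK (b * Complex.I) p - p with hD
  have key : ∀ σ : ℝ, 100 * |b| < σ → ∀ᵐ n ∂Δ.μ2, σ ≤ Δ.d n.1.1 → D n = 0 := by
    intro σ hσ
    classical
    have hS : MeasurableSet {n : M × M | σ ≤ Δ.d n.1.1} :=
      (isClosed_le continuous_const
        (Δ.continuous_d.comp (continuous_fst.comp continuous_fst))).measurableSet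
    obtain ⟨L, hL⟩ := exists_mul (μ := Δ.μ2)
      (ζ := fun n : M × M => if σ ≤ Δ.d n.1.1 then (1 : ℝ) else 0)
      (Measurable.ite hS measurable_const measurable_const) (fun n => by split_ifs <;> simp)
    have hq : L D ∈ Δ.subV σ := by
      rw [mem_subV]
      filter_upwards [hL D] with n h1 h2
      rw [h1, if_neg (not_le.2 h2)]
      simp
    have h0 : ⟪D, L D⟫_ℂ = 0 := by
      have h1 := Δ.inner_opK_im hp hinv (b := -b) hq (by rwa [abs_neg])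
      rw [hD, inner_sub_left, Δ.opK_adj p hq (by rw [hnb]; linarith [abs_nonneg b]), ← h1]
      simp
    have h1 : ⟪L D, L D⟫_ℂ = ⟪D, L D⟫_ℂ := by
      rw [L2.inner_def, L2.inner_def]
      refine integral_congr_ae ?_
      filter_upwards [hL D] with n hn
      rw [hn]
      split_ifs <;> simp
    rw [h0, inner_self_eq_zero] at h1
    have h2 := hL D
    rw [h1] at h2
    filter_upwards [h2, Lp.coeFn_zero ℂ 2 Δ.μ2] with n h3 h4 h5
    rw [h4, if_pos h5] at h3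
    simpa using h3.symm
  have hall := ae_all_iff.2 fun k : ℕ => key (100 * |b| + 1 / ((k : ℝ) + 1))
    (lt_add_of_pos_right _ Nat.one_div_pos_of_nat)
  filter_upwards [hall, hpF, Δ.ae_τ2 (b * Complex.I) hpF, Δ.opK_ae (b * Complex.I) p,
    Lp.coeFn_sub (Δ.opK (b * Complex.I) p) p] with n h1 h2 h3 h4 h5 h6
  obtain ⟨k, hk⟩ := exists_nat_one_div_lt (sub_pos.2 h6)
  have h7 : 16 * ‖(b : ℂ) * Complex.I‖ < Δ.d n.1.1 := by rw [hnb]; linarith [abs_nonneg b]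
  have h8 := h1 k (by linarith)
  rw [hD, h5, Pi.sub_apply, h4, if_pos h7, h3 h7, h2, sub_eq_zero] at h8
  exact_mod_cast h8

/-- `τ w = τ (i im w) ∘ τ (re w)` (`τ_τ`), `τ (re w) = φ (re w)`; pull `yinv` back by
`mp_φ2`. -/
theorem winv {F : M × M → ℝ} (hF : Measurable F) (hb : ∀ n, |F n| ≤ 1) (h : Δ.Inv F) (w : ℂ) :
    ∀ᵐ n ∂Δ.μ2, 200 * ‖w‖ < Δ.d n.1.1 → F (Δ.τ w n.1, Δ.φ w.re n.2) = F n := by
  filter_upwards [(Δ.mp_φ2 w.re w.re).quasiMeasurePreserving.ae (Δ.yinv hF hb h w.im), h w.re,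
    Δ.ae_fst Δ.ae_mem_Ω, Δ.ae_fst Δ.ae_NT] with n h1 h2 h3 h4 h5
  have r1 := Complex.abs_re_le_norm w
  have r2 := Complex.abs_im_le_norm w
  have r0 := norm_nonneg w
  have h6 := (abs_le.1 (Δ.d_φ n.1 w.re)).1
  have h7 := h1 (by linarith)
  rw [h2, Δ.φ_eq_τ h3 (by linarith), Δ.τ_τ (Δ.Cl_of_Sig (Δ.Sig_of_Ω h3)) ?_ (Δ.ND_of_NT h4 _),
    Complex.re_add_im] at h7
  · exact h7
  · have e1 : ‖(w.re : ℂ)‖ = |w.re| := by simp
    have e2 : ‖(w.im : ℂ) * Complex.I‖ = |w.im| := by simp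
    rw [e1, e2]
    linarith

end Tri

end Crest.Agent.R103
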